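import Vale.Agent.P064.Fractional

/-!
The thresholds for an arbitrary spread density.
-/

namespace Vale.Agent.P064

open Finset

variable {n : ℕ}

theorem frac_of_spread_at {n v : ℕ} (hv : v ≤ n) (H : SimpleGraph (Fin v))
    {p₁ : ℝ} (hp₁ : 0 ≤ p₁)
    (F : H.Subgraph) (hins₁ : p₁ < 1 → ∀ J : Finset (Sym2 (Fin n)), J.card = F.edgeSet.ncard →
      ((inside (pairAct n) (image0 H hv) J).card : ℝ) ≤
        p₁ ^ J.card * (orb (pairAct n) J).card) :
    (H.copyCount F.coe : ℝ) / 2 ≤ expCopies n (min 1 p₁) F.coe := by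
  classical
  set p := min 1 p₁ with hp
  set j : Fin v ↪ Fin n := Fin.castLEEmb hv with hj
  set i : F.verts ↪ Fin n := ⟨fun x => j x.1, fun a b h => Subtype.ext (j.injective h)⟩ with hi
  set H0 := image0 H hv with hH0
  set P0 : Finset (Fin n ⊕ Sym2 (Fin n)) := shadow i (⊤ : F.coe.Subgraph) with hP0
  set J : Finset (Sym2 (Fin n)) := P0.toRight with hJ
  set A : Finset (Fin n) := P0.toLeft with hA
  have hsplit : P0 = A.disjSum J := (Finset.toLeft_disjSum_toRight).symm
  set O := orb (bothAct n) P0 with hO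
  have hmem : ∀ T : Finset (Fin n ⊕ Sym2 (Fin n)), T ∈ O →
      ∃ σ : Equiv.Perm (Fin n), T = (A.image σ).disjSum (tr (pairAct n) σ J) ∧ T.toRight = tr (pairAct n) σ J := by
    intro T hT
    obtain ⟨σ, rfl⟩ := (mem_orb _).1 hT
    refine ⟨σ, by rw [hsplit, tr_disjSum], ?_⟩
    rw [hsplit, tr_disjSum, Finset.toRight_disjSum]
  set fib : Finset (Sym2 (Fin n)) → Finset (Finset (Fin n ⊕ Sym2 (Fin n))) := fun T =>
    O.filter (fun U => U.toRight = T) with hfib
  have hfibc : ∀ T ∈ orb (pairAct n) J, (fib T).card = (fib J).card := by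
    intro T hT
    obtain ⟨σ, rfl⟩ := (mem_orb _).1 hT
    symm
    have key : ∀ (τ : Equiv.Perm (Fin n)) (U : Finset (Fin n ⊕ Sym2 (Fin n))), U ∈ O →
        (tr (bothAct n) τ U).toRight = tr (pairAct n) τ U.toRight := by
      intro τ U _
      conv_lhs => rw [← Finset.toLeft_disjSum_toRight (u := U), tr_disjSum,
        Finset.toRight_disjSum]
    refine Finset.card_bij' (fun U _ => tr (bothAct n) σ U) (fun U _ => tr (bothAct n) σ⁻¹ U)
      ?_ ?_ ?_ ?_
    · intro U hU
      obtain ⟨h1, h2⟩ := Finset.mem_filter.1 hU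
      exact Finset.mem_filter.2 ⟨(tr_mem_orb_iff _ σ).2 h1, by rw [key σ U h1, h2]⟩
    · intro U hU
      obtain ⟨h1, h2⟩ := Finset.mem_filter.1 hU
      exact Finset.mem_filter.2
        ⟨(tr_mem_orb_iff _ σ⁻¹).2 h1, by rw [key σ⁻¹ U h1, h2, tr_inv_tr]⟩
    · intro U _; exact tr_inv_tr _ σ U
    · intro U _; exact tr_tr_inv _ σ U
  have hOcard : O.card = (orb (pairAct n) J).card * (fib J).card := by
    rw [Finset.card_eq_sum_card_fiberwise (f := Finset.toRight) (t := orb (pairAct n) J) ?_,
      Finset.sum_congr rfl hfibc, Finset.sum_const, smul_eq_mul]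
    intro U hU
    obtain ⟨σ, -, h⟩ := hmem U hU
    exact Finset.mem_coe.2 (h ▸ (mem_orb _).2 ⟨σ, rfl⟩)
  -- copies inside `H`
  have hcopies : (H.copyCount F.coe) ≤ (inside (pairAct n) H0 J).card * (fib J).card := by
    rw [SimpleGraph.copyCount_eq_card_image_copyToSubgraph]
    have hsub : ((univ : Finset (F.coe.Copy H)).image SimpleGraph.Copy.toSubgraph).image (shadow j) ⊆
        O.filter (fun U => U.toRight ⊆ H0) := by
      intro U hU
      obtain ⟨K, hK, rfl⟩ := Finset.mem_image.1 hU
      obtain ⟨f, -, rfl⟩ := Finset.mem_image.1 hK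
      obtain ⟨σ, hσ⟩ := exists_perm_extend (a := i) (b := fun b => j (f b)) i.injective
        (j.injective.comp f.injective)
      refine Finset.mem_filter.2 ⟨(mem_orb _).2 ⟨σ, (shadow_toSubgraph j i f σ hσ).symm⟩, ?_⟩
      intro e he
      rw [shadow, Finset.toRight_disjSum, Finset.mem_filter] at he
      obtain ⟨e', he', rfl⟩ := he.2
      rw [hH0, image0]
      exact Finset.mem_map.2 ⟨e', SimpleGraph.mem_edgeFinset.2
        (f.toSubgraph.edgeSet_subset he'), rfl⟩
    have := Finset.card_le_card hsub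
    rw [Finset.card_image_of_injective _ (shadow_injective j)] at this
    refine this.trans (le_of_eq ?_)
    rw [Finset.card_eq_sum_card_fiberwise (f := Finset.toRight) (t := inside (pairAct n) H0 J) ?_,
      Finset.sum_congr rfl (g := fun _ => (fib J).card) ?_, Finset.sum_const, smul_eq_mul]
    · intro T hT
      obtain ⟨h1, h2⟩ := Finset.mem_filter.1 hT
      rw [← hfibc T h1]
      refine congrArg Finset.card ?_
      ext U
      simp only [hfib, Finset.mem_filter]
      exact ⟨fun h => ⟨h.1.1, h.2⟩, fun h => ⟨⟨h.1, h.2 ▸ h2⟩, h.2⟩⟩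
    · intro U hU
      obtain ⟨h1, h2⟩ := Finset.mem_filter.1 (Finset.mem_coe.1 hU)
      obtain ⟨σ, -, h⟩ := hmem U h1
      exact Finset.mem_coe.2 (Finset.mem_filter.2 ⟨h ▸ (mem_orb _).2 ⟨σ, rfl⟩, h2⟩)
  have hJH : J ⊆ H0 := by
    intro e he
    rw [hJ, hP0, shadow, Finset.toRight_disjSum, Finset.mem_filter] at he
    obtain ⟨e', he', rfl⟩ := he.2
    rw [hH0, image0]
    induction e' using Sym2.ind with
    | _ a b =>
      refine Finset.mem_map.2 ⟨s(a.1, b.1), SimpleGraph.mem_edgeFinset.2 ?_, by simp [hi, hj]⟩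
      exact F.adj_sub he'
  -- expected copies in `G(n,p)`
  have hexp : ∀ r : ℝ, r ∈ Set.Icc (0 : ℝ) 1 → (O.card : ℝ) * r ^ J.card ≤ expCopies n r F.coe := by
    intro r hr
    calc (O.card : ℝ) * r ^ J.card
        = ∑ U ∈ O, expect (pairsOf n) r (fun W => if U.toRight ⊆ W then (1 : ℝ) else 0) := by
          rw [Finset.sum_congr rfl (g := fun _ => r ^ J.card) ?_, Finset.sum_const, nsmul_eq_mul]
          intro U hU
          obtain ⟨σ, -, h⟩ := hmem U hU
          rw [h, expect_superset _ r _ (orb_subset_pairs (hJH.trans (image0_subset H hv))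
            ((mem_orb _).2 ⟨σ, rfl⟩)), card_tr]
      _ = expect (pairsOf n) r
            (fun W => ((O.filter (fun U => U.toRight ⊆ W)).card : ℝ)) := by
          simp only [expect]
          rw [Finset.sum_comm]
          refine Finset.sum_congr rfl fun W _ => ?_
          rw [← Finset.mul_sum, ← Finset.sum_filter, Finset.sum_const, nsmul_eq_mul, mul_one]
      _ ≤ expCopies n r F.coe := by
          refine Finset.sum_le_sum fun W hW => mul_le_mul_of_nonneg_left ?_
            (wt_nonneg hr.1 hr.2 W)
          rw [SimpleGraph.copyCount_eq_card_image_copyToSubgraph]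
          set GW := SimpleGraph.fromEdgeSet (W : Set (Sym2 (Fin n))) with hGW
          have hsub : O.filter (fun U => U.toRight ⊆ W) ⊆
              ((univ : Finset (F.coe.Copy GW)).image SimpleGraph.Copy.toSubgraph).image
                (shadow (Function.Embedding.refl _)) := by
            intro U hU
            obtain ⟨h1, h2⟩ := Finset.mem_filter.1 hU
            obtain ⟨σ, rfl⟩ := (mem_orb _).1 h1
            have hmap : ∀ a b : F.verts, F.coe.Adj a b → GW.Adj (σ (i a)) (σ (i b)) := by
              intro a b hab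
              rw [hGW, SimpleGraph.fromEdgeSet_adj]
              refine ⟨Finset.mem_coe.2 (h2 ?_), σ.injective.ne (i.injective.ne hab.ne)⟩
              rw [hsplit, tr_disjSum, Finset.toRight_disjSum]
              refine Finset.mem_map.2 ⟨s(i a, i b), ?_, pairAct_mk σ (i a) (i b)⟩
              rw [hJ, hP0, shadow, Finset.toRight_disjSum, Finset.mem_filter]
              exact ⟨Finset.mem_univ _, s(a, b), hab, rfl⟩
            refine Finset.mem_image.2 ⟨_, Finset.mem_image.2 ⟨⟨⟨fun a => σ (i a), fun {a b} h =>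
              hmap a b h⟩, σ.injective.comp i.injective⟩, Finset.mem_univ _, rfl⟩, ?_⟩
            exact shadow_toSubgraph (Function.Embedding.refl _) i _ σ (fun b => rfl)
          dsimp only
          exact_mod_cast (Finset.card_le_card hsub).trans Finset.card_image_le
  rcases le_or_gt 1 p₁ with hbig | hsmall
  · have hHn : (H.copyCount F.coe : ℝ) ≤ O.card := by
      have h1 : (inside (pairAct n) H0 J).card ≤ (orb (pairAct n) J).card := card_filter_le _ _
      have h2 := hcopies.trans (Nat.mul_le_mul_right _ h1)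
      rw [← hOcard] at h2
      exact_mod_cast h2
    have h3 := hexp 1 ⟨zero_le_one, le_rfl⟩
    rw [one_pow, mul_one] at h3
    rw [hp, min_eq_left hbig]
    have h0 : (0 : ℝ) ≤ H.copyCount F.coe := Nat.cast_nonneg _
    linarith
  · have hp0 : 0 ≤ p := le_min zero_le_one hp₁
    have h1 : ((inside (pairAct n) H0 J).card : ℝ) ≤ p ^ J.card * (orb (pairAct n) J).card := by
      rw [hp, min_eq_right hsmall.le]
      refine hins₁ hsmall J ?_
      have hval : F.edgeSet = Sym2.map Subtype.val '' F.coe.edgeSet := by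
        ext e
        induction e using Sym2.ind with
        | _ a b =>
          rw [SimpleGraph.Subgraph.mem_edgeSet, Set.mem_image]
          constructor
          · exact fun h => ⟨s(⟨a, F.edge_vert h⟩, ⟨b, F.edge_vert h.symm⟩), h, rfl⟩
          · rintro ⟨e', he', h⟩
            induction e' using Sym2.ind with
            | _ x y =>
              have hxy : F.Adj x.1 y.1 := he'
              rw [Sym2.map_mk, Sym2.eq_iff] at h
              rcases h with ⟨rfl, rfl⟩ | ⟨rfl, rfl⟩
              · exact hxy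
              · exact hxy.symm
      rw [hval, Set.ncard_image_of_injective _ (Sym2.map.injective Subtype.val_injective),
        ← Set.ncard_image_of_injective _ (Sym2.map.injective i.injective), ← Set.ncard_coe_finset]
      refine congrArg Set.ncard ?_
      ext e
      rw [hJ, hP0, shadow, Finset.toRight_disjSum]
      simp
    have h2 : (H.copyCount F.coe : ℝ) ≤
        ((inside (pairAct n) H0 J).card : ℝ) * (fib J).card := by exact_mod_cast hcopies
    have h3 : (H.copyCount F.coe : ℝ) ≤ (O.card : ℝ) * p ^ J.card := by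
      refine h2.trans ((mul_le_mul_of_nonneg_right h1 (Nat.cast_nonneg _)).trans (le_of_eq ?_))
      rw [hOcard, Nat.cast_mul]
      ring
    have h4 := hexp p ⟨hp0, min_le_left _ _⟩
    have h0 : (0 : ℝ) ≤ H.copyCount F.coe := Nat.cast_nonneg _
    linarith

theorem frac_of_spread {n v : ℕ} (hv : v ≤ n) (H : SimpleGraph (Fin v))
    {p₁ : ℝ} (hp₁ : 0 ≤ p₁)
    (hins₁ : p₁ < 1 → ∀ J : Finset (Sym2 (Fin n)), ((inside (pairAct n) (image0 H hv) J).card : ℝ) ≤
      p₁ ^ J.card * (orb (pairAct n) J).card) (F : H.Subgraph) :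
    (H.copyCount F.coe : ℝ) / 2 ≤ expCopies n (min 1 p₁) F.coe :=
  frac_of_spread_at hv H hp₁ F fun h J _ => hins₁ h J

/-- The main bound for every density in the set defining `p_E`. -/
theorem contains_of_spread {n v : ℕ} (hn : 2 ≤ n) (hv : v ≤ n) (H : SimpleGraph (Fin v))
    {κ : ℝ} (hκ0 : 0 < κ)
    (hins : 320 * Real.log n * κ < 1 → ∀ T : Finset (Sym2 (Fin n)),
      ((inside (pairAct n) (image0 H hv) T).card : ℝ) ≤ κ ^ T.card * (orb (pairAct n) T).card) :
    1 / 2 ≤ probContains n (min 1 (320 * Real.log n * κ)) H := by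
  classical
  set E := pairsOf n with hE
  set H0 := image0 H hv with hH0
  set R := Nat.clog 2 (n * n) with hR
  have hR0 : 0 < R := Nat.clog_pos one_lt_two (by nlinarith)
  have hE1 : E.card < 2 ^ R := by
    refine lt_of_lt_of_le ?_ (Nat.le_pow_clog one_lt_two _)
    rw [hE, pairsOf, SimpleGraph.card_edgeFinset_top_eq_card_choose_two, Fintype.card_fin,
      Nat.choose_two_right]
    have : n * (n - 1) < n * n := Nat.mul_lt_mul_of_pos_left (by omega) (by omega)
    omega
  set I := orb (pairAct n) H0 with hI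
  set g : Finset (Sym2 (Fin n)) → ℝ := hitInd I id with hg
  set p' := min 1 (320 * Real.log n * κ) with hp'
  have hp'0 : 0 ≤ p' := le_min zero_le_one (mul_nonneg (mul_nonneg (by norm_num) (Real.log_natCast_nonneg n)) hκ0.le)
  have hmain : expect E p' g ≤ probContains n p' H := by
    refine Finset.sum_le_sum fun W _ => ?_
    refine le_trans (mul_le_mul_of_nonneg_left (hitInd_le_contains W)
      (wt_nonneg hp'0 (min_le_left _ _) W)) (le_of_eq ?_)
    rw [mul_ite, mul_one, mul_zero]
    rfl
  refine le_trans ?_ hmain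
  rcases le_or_gt 1 (320 * Real.log n * κ) with hbig | hsmall
  · rw [hp', min_eq_left hbig, expect_one, hg, hitInd,
      if_pos ⟨H0, mem_orb_self _ _, image0_subset H hv⟩]
    norm_num
  have hRlog := clog_le_log hn
  rw [← hR] at hRlog
  have hR1 : (1 : ℝ) ≤ R := by exact_mod_cast hR0
  have hRR : (R : ℝ) * (64 * κ) ≤ 320 * Real.log n * κ := by
    calc (R : ℝ) * (64 * κ) ≤ 5 * Real.log n * (64 * κ) :=
          mul_le_mul_of_nonneg_right hRlog (by positivity)
      _ = _ := by ring
  have hp1 : 64 * κ ≤ 1 := by nlinarith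
  have hN : (0 : ℝ) < (I.card : ℝ) := by exact_mod_cast orb_pos _ H0
  have hsp := spread_hit E hκ0.le le_rfl (by positivity : (0 : ℝ) < 64 * κ) hp1 hN R I id le_rfl
    (fun T hT => ⟨orb_subset_pairs (image0_subset H hv) hT,
      lt_of_le_of_lt (card_le_card (orb_subset_pairs (image0_subset H hv) hT)) hE1⟩)
    (fun T _ => by
      have h1 := hins hsmall T
      have h2 : (((above (pairAct n) T H0).card : ℝ)) * (orb (pairAct n) T).card =
          (inside (pairAct n) H0 T).card * (I.card : ℝ) := by
        exact_mod_cast above_mul (pairAct n) T H0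
      have hp : (0 : ℝ) < (orb (pairAct n) T).card := by exact_mod_cast orb_pos _ T
      have h3 := mul_le_mul_of_nonneg_right h1 hN.le
      rw [← h2] at h3
      refine le_of_mul_le_mul_right ?_ hp
      calc ((I.filter (T ⊆ id ·)).card : ℝ) * (orb (pairAct n) T).card
          ≤ κ ^ T.card * (orb (pairAct n) T).card * (I.card : ℝ) := h3
        _ = _ := by ring)
  rw [div_self hN.ne'] at hsp
  obtain ⟨c0, c1, c2⟩ := comb_bounds (by positivity : (0 : ℝ) ≤ 64 * κ) hp1 R
  have hmono := expect_le_of_monotone E (f := g) c0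
    (c2.trans (hRR.trans_eq (min_eq_right hsmall.le).symm))
    (lt_of_le_of_lt (min_le_right _ _) hsmall) (fun U V => by
      simp only [hg, hitInd]
      split_ifs with h1 h2
      · exact le_rfl
      · exact absurd (let ⟨i, hi, hiU⟩ := h1; ⟨i, hi, hiU.trans subset_union_left⟩) h2
      · exact zero_le_one
      · exact le_rfl)
  rw [← hp'] at hmono
  have : (1 : ℝ) / 4 * (1 - (1 / 2) ^ R) ≤ 1 / 4 := by
    linarith [pow_nonneg (by norm_num : (0 : ℝ) ≤ 1 / 2) R]
  linarith

end Vale.Agent.P064
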