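import Vale.Agent.P064.Core
import Vale.Agent.P064.General
import Mathlib.Analysis.SpecialFunctions.Pow.Real

/-!
The dense range of P064: a loss `(log n)^(1/(t+1))` once `n pE^t ≥ log n`.
-/

namespace Vale.Agent.P064

open Finset

variable {n : ℕ}

theorem codeg_le {q : ℝ} {H0 : Finset (Sym2 (Fin n))} (hH : H0 ⊆ pairsOf n) (hq0 : 0 < q)
    (hR : Rich q H0) {R : ℕ} (hR0 : 0 < R) (hnR : n ≤ 2 ^ R) {s : ℕ}
    (hlow : ∀ t, 1 ≤ t → t < s → (R : ℝ) ≤ 10 * (n * q ^ t)) (Aset : Finset (Fin n))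
    (hy : Aset.card < s) :
    ((univ.filter fun z => ∀ a ∈ Aset, s(a, z) ∈ H0).card : ℝ) ≤ n * (36 * q) ^ Aset.card := by
  classical
  set t := Aset.card with ht
  rcases Nat.eq_zero_or_pos t with h0 | h0
  · rw [h0, pow_zero, mul_one]
    exact_mod_cast (card_le_univ _).trans (by simp)
  refine (codegree hH hq0 hR hnR Aset).trans ?_
  rw [← ht]
  have hnq : (0 : ℝ) ≤ n * q ^ t := by positivity
  have hRt := hlow t h0 hy
  have hR1 : (1 : ℝ) ≤ R := by exact_mod_cast hR0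
  have ht1 : (1 : ℝ) ≤ t := by exact_mod_cast h0
  have h36 : 36 * (t : ℝ) ≤ 36 ^ t := by
    have : ∀ m : ℕ, 36 * (m + 1 : ℝ) ≤ 36 ^ (m + 1) := by
      intro m
      induction m with
      | zero => norm_num
      | succ m ihm => rw [pow_succ]; push_cast; nlinarith [Nat.cast_nonneg (α := ℝ) m]
    obtain ⟨m, hm⟩ : ∃ m, t = m + 1 := ⟨t - 1, by omega⟩
    rw [hm]
    push_cast
    exact this m
  calc 6 * (n : ℝ) * q ^ t + t * R + 2 ≤ 6 * (n * q ^ t) + t * (10 * (n * q ^ t)) +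
        2 * (10 * (n * q ^ t)) := by
        nlinarith [mul_le_mul_of_nonneg_left hRt (Nat.cast_nonneg (α := ℝ) t)]
    _ ≤ 36 * (t : ℝ) * (n * q ^ t) := by nlinarith [mul_le_mul_of_nonneg_right ht1 hnq]
    _ ≤ _ := by
        rw [mul_pow]
        nlinarith [mul_le_mul_of_nonneg_right h36 hnq]

theorem embs_bound {q : ℝ} {H0 : Finset (Sym2 (Fin n))} (hn : 2 ≤ n) (hH : H0 ⊆ pairsOf n)
    (hq0 : 0 < q) (hq1 : q ≤ 1) (hR : Rich q H0) {R : ℕ} (hR0 : 0 < R) (hnR : n ≤ 2 ^ R) {s : ℕ}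
    (hs0 : 0 < s) (hs : (n : ℝ) * q ^ (2 * s) < 1)
    (hlow : ∀ t, 1 ≤ t → t < s → (R : ℝ) ≤ 10 * (n * q ^ t)) {ρ : ℝ} (hρ : 1 ≤ ρ)
    (hρR : (R : ℝ) ≤ ρ ^ s) :
    ∀ (w : ℕ) (F : Finset (Sym2 (Fin w))), (∀ e ∈ F, ¬ e.IsDiag) →
      ((embs H0 F).card : ℝ) ≤ (n : ℝ) ^ w * (2 ^ 51 * ρ * q) ^ F.card := by
  classical
  have hloop : ∀ e ∈ H0, ¬ e.IsDiag := fun e he => by
    have := hH he
    simpa [pairsOf] using this
  obtain ⟨A, hd, hA, hA', rk, -, hrk⟩ := exists_orientation (d := 4 * s) H0 hloop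
    (fun K hK => sparse hn hq0 hq1 hR hs hK)
  have hΛ : (36 : ℝ) ≤ 2 ^ 51 * ρ := by norm_num; linarith
  have hcore : ∀ (w : ℕ) (F : Finset (Sym2 (Fin w))), s * w ≤ 2 * F.card →
      ((embs H0 F).card : ℝ) ≤ (n : ℝ) ^ w * (2 ^ 51 * ρ * q) ^ F.card := by
    intro w F hw
    have hwe : w ≤ 2 * F.card := le_trans (Nat.le_mul_of_pos_left w hs0) hw
    obtain ⟨v, hv, hb⟩ := core_owned (s := s) ⟨0, by omega⟩ A F (Q := 36 * q) hq0 (by linarith)
      hR hd hA hA' hrk (fun Aset h => codeg_le hH hq0 hR hR0 hnR hlow Aset h) hR0 hnR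
    refine hb.trans ?_
    have hRρ : (R : ℝ) ^ v ≤ ρ ^ F.card := by
      refine le_trans ?_ (pow_le_pow_right₀ hρ hv)
      rw [pow_mul]
      exact pow_le_pow_left₀ (Nat.cast_nonneg R) hρR v
    have hve : v ≤ F.card := le_trans (Nat.le_mul_of_pos_left v hs0) hv
    have h2 : (2 : ℝ) ^ (2 * (4 * s) * w) * (2 ^ F.card * ((2 ^ 17) ^ v * 2 ^ w * 36 ^ F.card)) ≤
        (2 ^ 51) ^ F.card := by
      refine le_trans (mul_le_mul_of_nonneg_left (mul_le_mul_of_nonneg_left
        (mul_le_mul_of_nonneg_left (pow_le_pow_left₀ (by norm_num)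
          (show (36 : ℝ) ≤ 2 ^ 6 by norm_num) _) (by positivity)) (by positivity))
        (by positivity)) ?_
      simp only [← pow_mul, ← pow_add]
      exact pow_le_pow_right₀ (by norm_num) (by nlinarith)
    calc (2 : ℝ) ^ (2 * (4 * s) * w) * (2 ^ F.card *
          ((2 ^ 17 * R : ℝ) ^ v * 2 ^ w * (n : ℝ) ^ w * (36 * q) ^ F.card))
        = (2 : ℝ) ^ (2 * (4 * s) * w) * (2 ^ F.card * ((2 ^ 17) ^ v * 2 ^ w * 36 ^ F.card)) *
            (R : ℝ) ^ v * ((n : ℝ) ^ w * q ^ F.card) := by rw [mul_pow, mul_pow]; ring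
      _ ≤ (2 ^ 51) ^ F.card * ρ ^ F.card * ((n : ℝ) ^ w * q ^ F.card) := by
          refine mul_le_mul_of_nonneg_right ?_ (by positivity)
          exact mul_le_mul h2 hRρ (by positivity) (by positivity)
      _ = _ := by rw [mul_pow, mul_pow]; ring
  intro w
  induction w with
  | zero => intro F _; exact hcore 0 F (by simp)
  | succ w ih =>
    intro F hF
    by_cases hall : ∀ y, s ≤ (F.filter (y ∈ ·)).card
    · refine hcore _ F ?_
      have h1 := Finset.sum_le_sum (s := univ) fun y _ => hall y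
      rw [sum_const, card_univ, Fintype.card_fin, smul_eq_mul, mul_comm] at h1
      refine h1.trans (le_of_eq ?_)
      simp only [card_filter]
      rw [Finset.sum_comm, Finset.sum_congr rfl (g := fun _ => 2) ?_, sum_const, smul_eq_mul,
        mul_comm]
      intro e he
      rw [← card_filter]
      induction e using Sym2.ind with
      | _ a b =>
        have hab : a ≠ b := by simpa using hF _ he
        have : univ.filter (fun z => z ∈ s(a, b)) = {a, b} := by ext z; simp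
        rw [this, card_pair hab]
    · push Not at hall
      obtain ⟨y, hy⟩ := hall
      set t := (F.filter (y ∈ ·)).card with ht
      obtain ⟨F', hF', hcard, hle⟩ := embs_peel (H0 := H0) F hF y
        (B := n * (36 * q) ^ t) (by positivity) (by
          intro Aset hAset
          rw [← ht] at hAset
          rw [← hAset]
          exact codeg_le hH hq0 hR hR0 hnR hlow Aset (hAset ▸ hy))
      rw [← ht] at hcard
      refine hle.trans ?_
      calc (n : ℝ) * (36 * q) ^ t * ((embs H0 F').card : ℝ)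
          ≤ (n : ℝ) * (36 * q) ^ t * ((n : ℝ) ^ w * (2 ^ 51 * ρ * q) ^ F'.card) :=
            mul_le_mul_of_nonneg_left (ih F' hF') (by positivity)
        _ ≤ (n : ℝ) * (2 ^ 51 * ρ * q) ^ t * ((n : ℝ) ^ w * (2 ^ 51 * ρ * q) ^ F'.card) := by
            refine mul_le_mul_of_nonneg_right ?_ (mul_nonneg (by positivity)
              (pow_nonneg (mul_nonneg (by linarith) hq0.le) _))
            exact mul_le_mul_of_nonneg_left (pow_le_pow_left₀ (by positivity)
              (mul_le_mul_of_nonneg_right hΛ hq0.le) t) (Nat.cast_nonneg _)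
        _ = _ := by rw [hcard, pow_add, pow_succ]; ring

theorem desc_ge {w n : ℕ} (hw : w ≤ n) :
    ∀ j ≤ w, n ^ j * w.descFactorial j ≤ w ^ j * n.descFactorial j
  | 0, _ => by simp
  | j + 1, hj => by
    have h := desc_ge hw j (by omega)
    have h2 : n * (w - j) ≤ w * (n - j) := by
      obtain ⟨a, rfl⟩ := Nat.exists_eq_add_of_le hw
      obtain ⟨b, rfl⟩ := Nat.exists_eq_add_of_le (show j ≤ w by omega)
      rw [Nat.add_sub_cancel_left, show j + b + a - j = b + a by omega]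
      nlinarith
    rw [Nat.descFactorial_succ, Nat.descFactorial_succ, pow_succ, pow_succ]
    calc n ^ j * n * ((w - j) * w.descFactorial j)
        = (n * (w - j)) * (n ^ j * w.descFactorial j) := by ring
      _ ≤ (w * (n - j)) * (w ^ j * n.descFactorial j) := Nat.mul_le_mul h2 h
      _ = _ := by ring

theorem pow_le_desc {w n : ℕ} (hw : w ≤ n) :
    (n : ℝ) ^ w ≤ 3 ^ w * n.descFactorial w := by
  have h := desc_ge hw w le_rfl
  rw [Nat.descFactorial_self] at h
  have h' : (n : ℝ) ^ w * w.factorial ≤ (w : ℝ) ^ w * n.descFactorial w := by exact_mod_cast h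
  have hfac := Real.pow_div_factorial_le_exp (w : ℝ) (Nat.cast_nonneg w) w
  have hexp : Real.exp (w : ℝ) ≤ 3 ^ w := by
    rw [← mul_one (w : ℝ), Real.exp_nat_mul]
    exact pow_le_pow_left₀ (Real.exp_pos _).le (by linarith [Real.exp_one_lt_d9]) w
  rw [div_le_iff₀ (by positivity)] at hfac
  refine le_of_mul_le_mul_right (h'.trans ?_) (show (0 : ℝ) < w.factorial by positivity)
  calc (w : ℝ) ^ w * n.descFactorial w ≤ 3 ^ w * w.factorial * n.descFactorial w :=
        mul_le_mul_of_nonneg_right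
          (hfac.trans (mul_le_mul_of_nonneg_right hexp (by positivity))) (Nat.cast_nonneg _)
    _ = _ := by ring

/-- The spread condition at `J` from a bound on embeddings of patterns with `|J|` edges. -/
theorem spread_at {H0 : Finset (Sym2 (Fin n))} (hH : H0 ⊆ pairsOf n) {Q : ℝ} (hQ : 0 ≤ Q)
    (J : Finset (Sym2 (Fin n)))
    (hemb : ∀ (w : ℕ) (F : Finset (Sym2 (Fin w))), (∀ e ∈ F, ¬ e.IsDiag) → F.card = J.card →
      ((embs H0 F).card : ℝ) ≤ (n : ℝ) ^ w * Q ^ F.card) :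
    ((inside (pairAct n) H0 J).card : ℝ) ≤
      (9 * Q) ^ J.card * (orb (pairAct n) J).card := by
  classical
  rcases (inside (pairAct n) H0 J).eq_empty_or_nonempty with h | ⟨T, hT⟩
  · rw [h, card_empty, Nat.cast_zero]; positivity
  obtain ⟨hT1, hT2⟩ := mem_filter.1 hT
  have hJp : J ⊆ pairsOf n := orb_subset_pairs (hT2.trans hH) ((mem_orb_comm _).1 hT1)
  set w := (supp J).card with hw
  set ι : Fin w ↪ Fin n := ((supp J).orderEmbOfFin hw.symm).toEmbedding with hι
  set F : Finset (Sym2 (Fin w)) := univ.filter fun e => Sym2.map ι e ∈ J with hF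
  have himg : F.image (Sym2.map ι) = J := by
    ext e
    simp only [hF, mem_image, mem_filter, mem_univ, true_and]
    refine ⟨fun ⟨e', he', h⟩ => h ▸ he', fun he => ?_⟩
    induction e using Sym2.ind with
    | _ x y =>
      have hr : ∀ z ∈ supp J, ∃ a, ι a = z := by
        intro z hz
        have : z ∈ Set.range ((supp J).orderEmbOfFin hw.symm) := by
          rw [Finset.range_orderEmbOfFin]; exact hz
        exact this
      obtain ⟨a, rfl⟩ := hr x (mem_supp.2 ⟨_, he, Sym2.mem_mk_left x y⟩)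
      obtain ⟨b, rfl⟩ := hr y (mem_supp.2 ⟨_, he, Sym2.mem_mk_right (ι a) y⟩)
      exact ⟨s(a, b), he, rfl⟩
  have hFcard : F.card = J.card := by
    rw [← himg, card_image_of_injective _ (Sym2.map.injective ι.injective)]
  have hFloop : ∀ e ∈ F, ¬ e.IsDiag := by
    intro e he
    have := hJp (mem_filter.1 he).2
    induction e using Sym2.ind with
    | _ a b =>
      rw [Sym2.map_mk, mem_pairsOf] at this
      simpa using fun h : a = b => this (congrArg ι h)
  have hwJ : w ≤ 2 * J.card := by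
    refine le_trans (card_le_card (t := J.biUnion fun e => e.toFinset) ?_) ?_
    · intro x hx
      obtain ⟨e, he, hxe⟩ := mem_supp.1 hx
      exact mem_biUnion.2 ⟨e, he, Sym2.mem_toFinset.2 hxe⟩
    · refine card_biUnion_le.trans (le_trans (Finset.sum_le_sum fun e _ => ?_)
        (le_of_eq (by rw [sum_const, smul_eq_mul, mul_comm])))
      induction e using Sym2.ind with
      | _ a b => rw [Sym2.toFinset_mk_eq]; exact card_le_two
  set fib := (univ.filter fun σ : Equiv.Perm (Fin n) => ι.trans σ.toEmbedding = ι).card with hfib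
  have hN0 : 0 < Fintype.card (Fin w ↪ Fin n) := Fintype.card_pos_iff.2 ⟨ι⟩
  have hf : ∀ φ, (univ.filter fun σ : Equiv.Perm (Fin n) => ι.trans σ.toEmbedding = φ).card = fib :=
    fun φ => Nat.eq_of_mul_eq_mul_left hN0 ((fiber_card ι φ).trans (fiber_card ι ι).symm)
  have hgood : (univ.filter fun σ => tr (pairAct n) σ J ⊆ H0).card ≤ (embs H0 F).card * fib := by
    rw [← smul_eq_mul, ← sum_const, Finset.sum_congr rfl fun φ _ => (hf φ).symm]
    refine le_trans (card_le_card ?_) card_biUnion_le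
    intro σ hσ
    refine mem_biUnion.2 ⟨ι.trans σ.toEmbedding, mem_filter.2 ⟨mem_univ _, fun e he => ?_⟩,
      mem_filter.2 ⟨mem_univ _, rfl⟩⟩
    refine (mem_filter.1 hσ).2 ?_
    rw [tr_pairAct]
    refine mem_image.2 ⟨_, (mem_filter.1 he).2, ?_⟩
    rw [Sym2.map_map]
    rfl
  have hos : ((univ.filter fun σ => tr (pairAct n) σ J ⊆ H0).card : ℝ) *
      (orb (pairAct n) J).card =
        (inside (pairAct n) H0 J).card * (Fintype.card (Equiv.Perm (Fin n)) : ℝ) := by
    exact_mod_cast orbit_stabilizer (pairAct n) H0 J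
  have hfc : (Fintype.card (Fin w ↪ Fin n) : ℝ) * fib = Fintype.card (Equiv.Perm (Fin n)) := by
    exact_mod_cast fiber_card ι ι
  have hfib0 : (0 : ℝ) < fib := by
    exact_mod_cast card_pos.2 ⟨1, mem_filter.2 ⟨mem_univ _, by ext i; simp⟩⟩
  have hN : (Fintype.card (Fin w ↪ Fin n) : ℝ) = n.descFactorial w := by
    rw [Fintype.card_embedding_eq, Fintype.card_fin, Fintype.card_fin]
  have hwn : w ≤ n := by simpa using card_le_univ (supp J)
  have hbound : ((embs H0 F).card : ℝ) ≤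
      (9 * Q) ^ J.card * n.descFactorial w := by
    refine (hemb w F hFloop hFcard).trans ?_
    rw [hFcard]
    calc (n : ℝ) ^ w * Q ^ J.card
        ≤ 3 ^ w * n.descFactorial w * Q ^ J.card :=
          mul_le_mul_of_nonneg_right (pow_le_desc hwn) (by positivity)
      _ ≤ 9 ^ J.card * n.descFactorial w * Q ^ J.card := by
          refine mul_le_mul_of_nonneg_right (mul_le_mul_of_nonneg_right ?_ (Nat.cast_nonneg _))
            (by positivity)
          rw [show (9 : ℝ) = 3 ^ 2 by norm_num, ← pow_mul]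
          exact pow_le_pow_right₀ (by norm_num) hwJ
      _ = _ := by simp only [mul_pow]; ring
  refine le_of_mul_le_mul_right ?_ (mul_pos (by exact_mod_cast hN0 :
    (0 : ℝ) < Fintype.card (Fin w ↪ Fin n)) hfib0)
  rw [hfc, ← hos]
  refine (mul_le_mul_of_nonneg_right (Nat.cast_le.2 hgood) (Nat.cast_nonneg _)).trans ?_
  push_cast
  refine (mul_le_mul_of_nonneg_right (mul_le_mul_of_nonneg_right hbound hfib0.le)
    (Nat.cast_nonneg _)).trans (le_of_eq ?_)
  rw [← hfc, hN]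
  ring

/-- The spread condition from a bound on embeddings of every pattern. -/
theorem spread_of_embs {H0 : Finset (Sym2 (Fin n))} (hH : H0 ⊆ pairsOf n) {Q : ℝ} (hQ : 0 ≤ Q)
    (hemb : ∀ (w : ℕ) (F : Finset (Sym2 (Fin w))), (∀ e ∈ F, ¬ e.IsDiag) →
      ((embs H0 F).card : ℝ) ≤ (n : ℝ) ^ w * Q ^ F.card) (J : Finset (Sym2 (Fin n))) :
    ((inside (pairAct n) H0 J).card : ℝ) ≤
      (9 * Q) ^ J.card * (orb (pairAct n) J).card :=
  spread_at hH hQ J fun w F h _ => hemb w F h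

theorem dense_spread {q : ℝ} {H0 : Finset (Sym2 (Fin n))} (hn : 2 ≤ n) (hH : H0 ⊆ pairsOf n)
    (hq0 : 0 < q) (hq1 : q ≤ 1) (hR : Rich q H0) {R : ℕ} (hR0 : 0 < R) (hnR : n ≤ 2 ^ R) {s : ℕ}
    (hs0 : 0 < s) (hs : (n : ℝ) * q ^ (2 * s) < 1)
    (hlow : ∀ t, 1 ≤ t → t < s → (R : ℝ) ≤ 10 * (n * q ^ t)) {ρ : ℝ} (hρ : 1 ≤ ρ)
    (hρR : (R : ℝ) ≤ ρ ^ s) (J : Finset (Sym2 (Fin n))) :
    ((inside (pairAct n) H0 J).card : ℝ) ≤
      (9 * (2 ^ 51 * ρ) * q) ^ J.card * (orb (pairAct n) J).card := by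
  rw [mul_assoc 9]
  exact spread_of_embs hH (mul_nonneg (mul_nonneg (by positivity) (by linarith)) hq0.le)
      (embs_bound hn hH hq0 hq1 hR hR0 hnR hs0 hs hlow hρ hρR) J

theorem clog_sq_le (hn : 2 ≤ n) : (Nat.clog 2 (n * n) : ℝ) ^ 2 ≤ 100 * n := by
  have hn0 : (0 : ℝ) < n := by exact_mod_cast (by omega : 0 < n)
  have h1 := clog_le_log hn
  have h2 := Real.log_le_sub_one_of_pos (Real.sqrt_pos.2 hn0)
  rw [Real.log_sqrt hn0.le] at h2
  have h3 := Real.sq_sqrt hn0.le
  have h4 : (Nat.clog 2 (n * n) : ℝ) ≤ 10 * Real.sqrt n := by linarith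
  nlinarith [mul_self_le_mul_self (Nat.cast_nonneg _) h4]

/-- The spread density in the range `n q^t ≥ log n`. -/
theorem spread_of_range {v : ℕ} (hn : 2 ≤ n) (hv : v ≤ n) (H : SimpleGraph (Fin v)) {q : ℝ}
    (hq0 : 0 < q) (hq1 : q < 1) (hR : Rich q (image0 H hv)) {t : ℕ}
    (hrange : Real.log n ≤ n * q ^ t) (J : Finset (Sym2 (Fin n))) :
    ((inside (pairAct n) (image0 H hv) J).card : ℝ) ≤
      (9 * (2 ^ 51 * (5 * Real.log n) ^ ((1 : ℝ) / (t + 1))) * q) ^ J.card *
        (orb (pairAct n) J).card := by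
  classical
  set R := Nat.clog 2 (n * n) with hRdef
  have hR0 : 0 < R := Nat.clog_pos one_lt_two (by nlinarith)
  have hnR : n ≤ 2 ^ R := (Nat.le_mul_self n).trans (Nat.le_pow_clog one_lt_two _)
  have hRlog := clog_le_log hn
  rw [← hRdef] at hRlog
  have hn0 : (0 : ℝ) < n := by exact_mod_cast (by omega : 0 < n)
  have hR1 : (1 : ℝ) ≤ R := by exact_mod_cast hR0
  -- the first exponent that leaves the range
  have hex : ∃ s : ℕ, 10 * ((n : ℝ) * q ^ s) < R := by
    obtain ⟨s, hs⟩ := exists_pow_lt_of_lt_one (show (0 : ℝ) < R / (10 * n) by positivity) hq1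
    exact ⟨s, by rw [lt_div_iff₀ (by positivity)] at hs; linarith⟩
  set s := Nat.find hex with hs
  have hst : t + 1 ≤ s := by
    by_contra hcon
    have h1 : q ^ t ≤ q ^ s := pow_le_pow_of_le_one hq0.le hq1.le (by omega)
    have h2 := Nat.find_spec hex
    rw [← hs] at h2
    nlinarith [mul_le_mul_of_nonneg_left h1 hn0.le]
  have hspec := Nat.find_spec hex
  rw [← hs] at hspec
  have hs1 : (n : ℝ) * q ^ (2 * s) < 1 := by
    have h1 := mul_self_lt_mul_self (by positivity) hspec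
    have h2 := clog_sq_le hn
    rw [← hRdef] at h2
    have h3 : 100 * (n : ℝ) * (n * q ^ (2 * s)) < 100 * n * 1 := by
      rw [two_mul, pow_add]
      nlinarith
    exact lt_of_mul_lt_mul_left h3 (by positivity)
  have hlow : ∀ t', 1 ≤ t' → t' < s → (R : ℝ) ≤ 10 * (n * q ^ t') := fun t' _ h =>
    not_lt.1 (Nat.find_min hex h)
  set ρ : ℝ := (5 * Real.log n) ^ ((1 : ℝ) / (t + 1)) with hρ
  have hlog1 : (1 : ℝ) ≤ 5 * Real.log n := hR1.trans hRlog
  have hρ1 : 1 ≤ ρ := Real.one_le_rpow hlog1 (by positivity)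
  have hρR : (R : ℝ) ≤ ρ ^ s := by
    refine le_trans ?_ (pow_le_pow_right₀ hρ1 hst)
    rw [hρ, ← Real.rpow_natCast (_ ^ ((1 : ℝ) / (t + 1))) (t + 1), ← Real.rpow_mul (by linarith)]
    push_cast
    rw [div_mul_cancel₀ _ (by positivity), Real.rpow_one]
    exact hRlog
  exact dense_spread hn (image0_subset H hv) hq0 hq1.le hR hR0 hnR (by omega) hs1 hlow hρ1 hρR J

/-- The constant in the dense range. -/
noncomputable def denseC : ℝ := 9 * 2 ^ 51 * 5

theorem range_const (t : ℕ) (x : ℝ) (hx : 0 ≤ x) :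
    9 * (2 ^ 51 * (5 * x) ^ ((1 : ℝ) / (t + 1))) ≤ denseC * x ^ ((1 : ℝ) / (t + 1)) := by
  rw [Real.mul_rpow (by norm_num) hx, denseC]
  have h1 : (5 : ℝ) ^ ((1 : ℝ) / (t + 1)) ≤ 5 ^ (1 : ℝ) := by
    refine Real.rpow_le_rpow_of_exponent_le (by norm_num) ?_
    rw [div_le_iff₀ (by positivity)]
    nlinarith [Nat.cast_nonneg (α := ℝ) t]
  rw [Real.rpow_one] at h1
  nlinarith [mul_le_mul_of_nonneg_right h1 (Real.rpow_nonneg hx ((1 : ℝ) / (t + 1)))]

theorem rich_of_hyp {v : ℕ} (hv : v ≤ n) (H : SimpleGraph (Fin v)) {q : ℝ}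
    (hq : q ∈ Set.Icc (0 : ℝ) 1) (hyp : ∀ F : H.Subgraph, 1 / 2 ≤ expCopies n q F.coe) :
    Rich q (image0 H hv) := fun _K hK => (hyp _).trans (expCopies_subOf_le hK hq.1 hq.2)

theorem q_pos {v : ℕ} (hv : v ≤ n) (H : SimpleGraph (Fin v)) (hH : H.edgeSet.Nonempty) {q : ℝ}
    (hq : q ∈ Set.Icc (0 : ℝ) 1) (hR : Rich q (image0 H hv)) : 0 < q := by
  refine lt_of_le_of_ne hq.1 fun h0 => ?_
  obtain ⟨e, he⟩ := hH
  induction e using Sym2.ind with
  | _ a b =>
    have := hR _ (singleton_subset_iff.2 (mk_mem_image0.2 ⟨a, b, he, rfl, rfl⟩))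
    rw [card_singleton, pow_one, ← h0, mul_zero] at this
    norm_num at this

theorem pFrac_dense {v : ℕ} (hn : 2 ≤ n) (hv : v ≤ n) (H : SimpleGraph (Fin v))
    (hH : H.edgeSet.Nonempty) {t : ℕ} (hrange : Real.log n ≤ n * pE n H ^ t) :
    pFrac n H ≤ denseC * Real.log n ^ ((1 : ℝ) / (t + 1)) * pE n H ∧
      pC n H ≤ 320 * denseC * Real.log n ^ (1 + (1 : ℝ) / (t + 1)) * pE n H := by
  have hl : 0 < Real.log (n : ℝ) := Real.log_pos (by exact_mod_cast (by omega : 1 < n))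
  set c := denseC * Real.log n ^ ((1 : ℝ) / (t + 1)) with hc
  have hc0 : 0 < c := mul_pos (by rw [denseC]; norm_num) (Real.rpow_pos_of_pos hl _)
  have hc1 : (1 : ℝ) ≤ c := by
    refine le_trans ?_ (range_const t _ hl.le)
    have hR1 : (1 : ℝ) ≤ 5 * Real.log n := le_trans (by
      exact_mod_cast Nat.clog_pos one_lt_two (by nlinarith : 1 < n * n)) (clog_le_log hn)
    have := Real.one_le_rpow hR1 (show (0 : ℝ) ≤ 1 / ((t : ℝ) + 1) by positivity)
    norm_num at this ⊢
    linarith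
  have hpE : 0 ≤ pE n H := le_csInf ⟨1, one_mem hv H⟩ fun p hp => hp.1.1
  have key : ∀ q : ℝ, q ∈ Set.Icc (0 : ℝ) 1 →
      (∀ F : H.Subgraph, 1 / 2 ≤ expCopies n q F.coe) → 0 < q ∧ (c * q < 1 →
      ∀ J : Finset (Sym2 (Fin n)), ((inside (pairAct n) (image0 H hv) J).card : ℝ) ≤
        (c * q) ^ J.card * (orb (pairAct n) J).card) := by
    intro q hq hyp
    have hR := rich_of_hyp hv H hq hyp
    refine ⟨q_pos hv H hH hq hR, fun hsmall J => ?_⟩
    have hq0 := q_pos hv H hH hq hR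
    have hpq : pE n H ≤ q := csInf_le ⟨0, fun p hp => hp.1.1⟩ ⟨hq, hyp⟩
    have hr : Real.log n ≤ n * q ^ t := hrange.trans
      (mul_le_mul_of_nonneg_left (pow_le_pow_left₀ hpE hpq t) (Nat.cast_nonneg _))
    refine (spread_of_range hn hv H hq0 (by nlinarith) hR hr J).trans ?_
    refine mul_le_mul_of_nonneg_right (pow_le_pow_left₀ (by positivity) ?_ _) (Nat.cast_nonneg _)
    exact mul_le_mul_of_nonneg_right (range_const t _ hl.le) hq0.le
  constructor
  · rw [← div_le_iff₀' hc0]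
    refine le_csInf ⟨1, one_mem hv H⟩ fun q hq => ?_
    rw [div_le_iff₀' hc0]
    obtain ⟨hq0, hk⟩ := key q hq.1 hq.2
    have hp1 : 0 ≤ c * q := by positivity
    exact le_trans (csInf_le ⟨0, fun p hp => hp.1.1⟩ ⟨⟨le_min zero_le_one hp1, min_le_left _ _⟩,
      fun F => frac_of_spread hv H hp1 hk F⟩) (min_le_right _ _)
  · have hd : 320 * denseC * Real.log n ^ (1 + (1 : ℝ) / (t + 1)) = 320 * Real.log n * c := by
      rw [Real.rpow_add hl, Real.rpow_one, hc]; ring
    have hd0 : 0 < 320 * Real.log n * c := by positivity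
    rw [hd, ← div_le_iff₀' hd0]
    refine le_csInf ⟨1, one_mem hv H⟩ fun q hq => ?_
    rw [div_le_iff₀' hd0]
    obtain ⟨hq0, hk⟩ := key q hq.1 hq.2
    have h := contains_of_spread hn hv H (κ := c * q) (by positivity) (fun hsm => hk (by
      have h2 := Real.log_le_log two_pos (show (2 : ℝ) ≤ n by exact_mod_cast hn)
      have := Real.log_two_gt_d9
      nlinarith [mul_pos hc0 hq0]))
    rw [← mul_assoc] at h
    exact le_trans (csInf_le ⟨0, fun p hp => hp.1.1⟩
      ⟨⟨le_min zero_le_one (by positivity), min_le_left _ _⟩, h⟩) (min_le_right _ _)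

/-- For every exponent with `n pE^t ≥ log n` and `(t + 1)` of order `log log n`, no loss remains. -/
theorem no_loss {v : ℕ} (hn : 2 ≤ n) (hv : v ≤ n) (H : SimpleGraph (Fin v))
    (hH : H.edgeSet.Nonempty) {t : ℕ} {K : ℝ} (ht : Real.log (Real.log n) ≤ K * (t + 1))
    (hrange : Real.log n ≤ n * pE n H ^ t) :
    pFrac n H ≤ denseC * Real.exp K * pE n H ∧
      pC n H ≤ 320 * denseC * Real.exp K * Real.log n * pE n H := by
  have hl : 0 < Real.log (n : ℝ) := Real.log_pos (by exact_mod_cast (by omega : 1 < n))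
  have hpE : 0 ≤ pE n H := le_csInf ⟨1, one_mem hv H⟩ fun p hp => hp.1.1
  have hpow : Real.log n ^ ((1 : ℝ) / (t + 1)) ≤ Real.exp K := by
    rw [Real.rpow_def_of_pos hl]
    refine Real.exp_le_exp.2 ?_
    rw [mul_div_assoc', div_le_iff₀ (by positivity)]
    nlinarith
  have hD : (0 : ℝ) ≤ denseC := by rw [denseC]; norm_num
  obtain ⟨h1, h2⟩ := pFrac_dense hn hv H hH hrange
  refine ⟨h1.trans (mul_le_mul_of_nonneg_right (mul_le_mul_of_nonneg_left hpow hD) hpE),
    h2.trans (mul_le_mul_of_nonneg_right ?_ hpE)⟩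
  rw [Real.rpow_add hl, Real.rpow_one]
  calc 320 * denseC * (Real.log n * Real.log n ^ ((1 : ℝ) / (t + 1)))
      ≤ 320 * denseC * (Real.log n * Real.exp K) := by gcongr
    _ = _ := by ring

end Vale.Agent.P064
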