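import Vale.Agent.P064.PowerCount
import Vale.Agent.P064.DenseMain
import Mathlib.NumberTheory.Real.Irrational

/-!
P064: the thresholds when no small pattern weight lies just below one.
-/

namespace Vale.Agent.P064.Blk

open Finset Vale.Agent.P064

variable {n : ℕ} {H0 : Finset (Sym2 (Fin n))} {q : ℝ} {E : ℕ}

theorem rich_mono {q' : ℝ} (hq : 0 ≤ q) (h : q ≤ q') (hR : Rich q H0) : Rich q' H0 :=
  fun K hK => (hR K hK).trans
    (mul_le_mul_of_nonneg_left (pow_le_pow_left₀ hq h _) (Nat.cast_nonneg _))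

/-- The bound for every pattern: isolated vertices cost a factor `n`. -/
theorem embs_power {η : ℝ} (hη : 0 < η) (hn : 2 ≤ n) (hE : 2 ≤ E)
    (hgap : Gap n q E η) (hsmall : (n : ℝ) ^ (-η) < 1 / 2) (hq0 : 0 < q) (hq1 : q < 1)
    (hR : Rich q H0) (hloop : ∀ e ∈ H0, ¬ e.IsDiag) {R : ℕ} (hR0 : 0 < R) (hnR : n ≤ 2 ^ R)
    {ρ : ℝ} (hρ : 1 ≤ ρ) (hρR : 2 ^ 17 * (R : ℝ) ≤ ρ ^ E) :
    ∀ (w : ℕ) (F : Finset (Sym2 (Fin w))), (∀ e ∈ F, ¬ e.IsDiag) →
      ((embs H0 F).card : ℝ) ≤ (n : ℝ) ^ w *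
        ((4 * (4 * E / η + 2)) ^ 5 * 2 ^ 12 * (1312 * (E : ℝ) ^ 3 * ρ * q)) ^ F.card := by
  classical
  intro w
  induction w with
  | zero =>
    exact fun F hF => embs_power_core hη hn hE hgap hsmall hq0 hq1 hR hloop hR0 hnR hρ hρR F hF
      (Nat.zero_le _)
  | succ w ih =>
    intro F hF
    by_cases hall : ∀ y, 1 ≤ (F.filter (y ∈ ·)).card
    · refine embs_power_core hη hn hE hgap hsmall hq0 hq1 hR hloop hR0 hnR hρ hρR F hF ?_
      have h1 := Finset.sum_le_sum (s := univ) fun y _ => hall y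
      rw [sum_const, card_univ, Fintype.card_fin, smul_eq_mul, mul_one] at h1
      refine h1.trans (le_of_eq ?_)
      simp only [card_filter]
      rw [Finset.sum_comm, Finset.sum_congr rfl (g := fun _ => 2) ?_, sum_const, smul_eq_mul,
        mul_comm]
      intro e he
      rw [← card_filter]
      induction e using Sym2.ind with
      | _ a b =>
        have hab : a ≠ b := by simpa using hF _ he
        have : univ.filter (fun z => z ∈ s(a, b)) = {a, b} := by ext z; simp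
        rw [this, card_pair hab]
    · push Not at hall
      obtain ⟨y, hy⟩ := hall
      obtain ⟨F', hF', hcard, hle⟩ := embs_peel (H0 := H0) F hF y (B := (n : ℝ)) (Nat.cast_nonneg _)
        fun Aset _ => by exact_mod_cast (card_le_univ _).trans (by simp)
      rw [show (F.filter (y ∈ ·)).card = 0 by omega, add_zero] at hcard
      refine hle.trans ?_
      calc (n : ℝ) * ((embs H0 F').card : ℝ)
          ≤ (n : ℝ) * ((n : ℝ) ^ w *
            ((4 * (4 * E / η + 2)) ^ 5 * 2 ^ 12 * (1312 * (E : ℝ) ^ 3 * ρ * q)) ^ F'.card) :=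
            mul_le_mul_of_nonneg_left (ih F' hF') (Nat.cast_nonneg _)
        _ = _ := by rw [hcard, pow_succ]; ring

/-- The constant of the theorem. -/
noncomputable def powC : ℝ := 320 * 2 * 9 * (36 ^ 5 * 2 ^ 12 * 1312) * (2 ^ 17 * 5)

theorem pE_pos {v : ℕ} (hv : v ≤ n) (H : SimpleGraph (Fin v)) (hH : H.edgeSet.Nonempty) :
    0 < pE n H := by
  obtain ⟨e, he⟩ := hH
  induction e using Sym2.ind with
  | _ a b =>
  have hn : (0 : ℝ) < n := by exact_mod_cast lt_of_lt_of_le a.pos hv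
  refine lt_of_lt_of_le (show (0 : ℝ) < 1 / (2 * (n : ℝ) ^ 2) by positivity)
    (le_csInf ⟨1, one_mem hv H⟩ fun p hp => ?_)
  have h := rich_of_hyp hv H hp.1 hp.2 _
    (singleton_subset_iff.2 (mk_mem_image0.2 ⟨a, b, he, rfl, rfl⟩))
  rw [card_singleton, pow_one] at h
  have hc : (orb (pairAct n) {s(Fin.castLE hv a, Fin.castLE hv b)}).card ≤ n * n := by
    refine le_trans (card_le_card (t := (univ : Finset (Fin n × Fin n)).image
      fun z => {s(z.1, z.2)}) ?_) (card_image_le.trans (by simp))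
    intro T hT
    obtain ⟨σ, rfl⟩ := (mem_orb _).1 hT
    exact mem_image.2 ⟨(σ (Fin.castLE hv a), σ (Fin.castLE hv b)), mem_univ _,
      by rw [tr_pairAct]; simp⟩
  rw [div_le_iff₀ (by positivity)]
  have h' := h.trans (mul_le_mul_of_nonneg_right (Nat.cast_le.2 hc) hp.1.1)
  push_cast at h'
  nlinarith

theorem power_exponent {v : ℕ} (hn : 2 ≤ n) (hv : v ≤ n) (H : SimpleGraph (Fin v))
    (hH : H.edgeSet.Nonempty) (hE : 2 ≤ E) {η K : ℝ} (hη : 0 < η) (hη1 : η ≤ 1) (hK : 1 ≤ K)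
    (hgap : ∀ e k : ℕ, 1 ≤ e → e < E → k ≤ e + 1 →
      (n : ℝ) ^ k * pE n H ^ e ≤ (n : ℝ) ^ (-η) ∨ 1 ≤ (n : ℝ) ^ k * (K * pE n H) ^ e) :
    pFrac n H ≤ powC * K * ((E : ℝ) / η) ^ 8 * Real.log n ^ ((1 : ℝ) / E) * pE n H ∧
      pC n H ≤ powC * K * ((E : ℝ) / η) ^ 8 * Real.log n ^ (1 + (1 : ℝ) / E) * pE n H := by
  classical
  have hn0 : (0 : ℝ) < n := by exact_mod_cast (by omega : 0 < n)
  set L := Real.log (n : ℝ) with hL
  have hl2 : Real.log 2 ≤ L := Real.log_le_log two_pos (by exact_mod_cast hn)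
  have hlg := Real.log_two_gt_d9
  have hl : 0 < L := by linarith
  set x : ℝ := (E : ℝ) / η with hx
  have hE' : (2 : ℝ) ≤ E := by exact_mod_cast hE
  have hx2 : 2 ≤ x := by
    rw [hx, le_div_iff₀ hη]; nlinarith
  have hEx : (E : ℝ) ≤ x := by
    rw [hx, le_div_iff₀ hη]; nlinarith
  have hx8 : x ≤ x ^ 8 := le_self_pow₀ (by linarith) (by norm_num)
  have hP : 0 < pE n H := pE_pos hv H hH
  have hr0 : (0 : ℝ) ≤ 1 / (E : ℝ) := by positivity
  have hr1 : 1 / (E : ℝ) ≤ 1 := by rw [div_le_one (by linarith)]; linarith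
  have hLr : 1 / 2 ≤ L ^ ((1 : ℝ) / E) := by
    rcases le_or_gt 1 L with h | h
    · linarith [Real.one_le_rpow h hr0]
    · refine le_trans ?_ (Real.rpow_le_rpow_of_exponent_ge hl h.le hr1)
      rw [Real.rpow_one]
      linarith
  have hsplit : L ^ (1 + (1 : ℝ) / E) = L * L ^ ((1 : ℝ) / E) := by
    rw [Real.rpow_add hl, Real.rpow_one]
  set Lr := L ^ ((1 : ℝ) / E) with hLr'
  rw [hsplit]
  have hCpos : 0 < powC := by norm_num [powC]
  -- a parameter next to the infimum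
  obtain ⟨q₁, ⟨hq, hyp⟩, hq2⟩ := exists_lt_of_csInf_lt
    (s := {p : ℝ | p ∈ Set.Icc 0 1 ∧ ∀ F : H.Subgraph, 1 / 2 ≤ expCopies n p F.coe})
    ⟨1, one_mem hv H⟩ (show pE n H < 2 * pE n H by linarith)
  have hpq : pE n H ≤ q₁ := csInf_le ⟨0, fun p hp => hp.1.1⟩ ⟨hq, hyp⟩
  have hq10 : 0 < q₁ := hP.trans_le hpq
  by_cases hbig : 1 ≤ K * q₁
  · -- the claimed bounds exceed one
    have hone : (1 : ℝ) ≤ powC * K * x ^ 8 * Lr * pE n H * (2 / 3) := by
      have h1 : (1 : ℝ) ≤ 2 * K * pE n H := by nlinarith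
      have h2 : (3 : ℝ) ≤ powC * (1 / 2) * 1 := by norm_num [powC]
      have h3 : powC * (1 / 2) * 1 ≤ powC * Lr * x ^ 8 := by
        gcongr
        exact le_trans (by linarith) hx8
      calc (1 : ℝ) ≤ 2 * K * pE n H := h1
        _ = 3 * (K * pE n H) * (2 / 3) := by ring
        _ ≤ powC * Lr * x ^ 8 * (K * pE n H) * (2 / 3) := by
            refine mul_le_mul_of_nonneg_right (mul_le_mul_of_nonneg_right (h2.trans h3) ?_)
              (by norm_num)
            positivity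
        _ = _ := by ring
    have hpos : 0 ≤ powC * K * x ^ 8 * Lr * pE n H := by positivity
    refine ⟨le_trans ?_ (show powC * K * x ^ 8 * Lr * pE n H * (2 / 3) ≤ _ by linarith),
      le_trans ?_ (show powC * K * x ^ 8 * Lr * pE n H * (2 / 3) ≤ _ by
        rw [show powC * K * x ^ 8 * (L * Lr) * pE n H = powC * K * x ^ 8 * Lr * pE n H * L by ring]
        exact mul_le_mul_of_nonneg_left (by linarith) hpos)⟩
    · refine le_trans ?_ hone
      refine le_trans (csInf_le ⟨0, fun p hp => hp.1.1⟩ ⟨⟨le_min zero_le_one zero_le_one,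
        min_le_left _ _⟩, fun F => frac_of_spread hv H zero_le_one (fun h => absurd h (lt_irrefl _))
          F⟩) (min_le_right _ _)
    · refine le_trans ?_ hone
      rcases Set.eq_empty_or_nonempty
        {p : ℝ | p ∈ Set.Icc 0 1 ∧ 1 / 2 ≤ probContains n p H} with h | ⟨p, hp⟩
      · rw [pC, h, Real.sInf_empty]; exact zero_le_one
      · exact (csInf_le ⟨0, fun p hp => hp.1.1⟩ hp).trans hp.1.2
  rw [not_le] at hbig
  set q := K * q₁ with hqd
  have hq0 : 0 < q := by positivity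
  have hqq : q₁ ≤ q := le_mul_of_one_le_left hq10.le hK
  by_cases hgood : (2 * K) ^ E ≤ (n : ℝ) ^ (η / 2)
  swap
  · -- a bounded logarithm
    have hLx : L ≤ 4 * x * K := by
      have h1 := Real.log_lt_log (by positivity) (not_le.1 hgood)
      rw [Real.log_rpow hn0, Real.log_pow, ← hL] at h1
      have h2 : Real.log (2 * K) ≤ 2 * K := Real.log_le_self (by positivity)
      have h3 : η / 2 * L ≤ (E : ℝ) * (2 * K) := h1.le.trans (by gcongr)
      rw [hx, mul_div_assoc', div_mul_eq_mul_div, le_div_iff₀ hη]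
      linarith
    have hC : (2 : ℝ) ^ 28 * 4 ≤ powC * (1 / 2) := by norm_num [powC]
    have key : (2 : ℝ) ^ 28 * L ≤ powC * K * x ^ 8 * Lr := by
      calc (2 : ℝ) ^ 28 * L ≤ 2 ^ 28 * (4 * x ^ 8 * K) := by
            refine mul_le_mul_of_nonneg_left (hLx.trans ?_) (by norm_num)
            gcongr
        _ = 2 ^ 28 * 4 * (x ^ 8 * K) := by ring
        _ ≤ powC * (1 / 2) * (x ^ 8 * K) := mul_le_mul_of_nonneg_right hC (by positivity)
        _ ≤ powC * Lr * (x ^ 8 * K) :=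
            mul_le_mul_of_nonneg_right (mul_le_mul_of_nonneg_left hLr hCpos.le) (by positivity)
        _ = _ := by ring
    refine ⟨(pFrac_le hn hv H hH).trans (mul_le_mul_of_nonneg_right ?_ hP.le),
      (pC_le hn hv H hH ⟨1, one_mem hv H⟩).trans (mul_le_mul_of_nonneg_right ?_ hP.le)⟩
    · refine le_trans ?_ key
      rw [← hL]
      nlinarith
    · rw [← hL]
      calc (2 : ℝ) ^ 28 * L ^ 2 = 2 ^ 28 * L * L := by ring
        _ ≤ powC * K * x ^ 8 * Lr * L := mul_le_mul_of_nonneg_right key hl.le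
        _ = _ := by ring
  have hsmall : (n : ℝ) ^ (-(η / 2)) < 1 / 2 := by
    have h4 : (4 : ℝ) ≤ (n : ℝ) ^ (η / 2) := le_trans (by
      calc (4 : ℝ) = 2 ^ 2 := by norm_num
        _ ≤ 2 ^ E := pow_le_pow_right₀ (by norm_num) hE
        _ ≤ _ := pow_le_pow_left₀ (by norm_num) (by linarith) E) hgood
    rw [Real.rpow_neg hn0.le, inv_lt_comm₀ (by linarith) (by norm_num)]
    linarith
  have hgapq : Gap n q E (η / 2) := by
    intro e k he heE hk
    rcases hgap e k he heE hk with h | h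
    · left
      calc (n : ℝ) ^ k * q ^ e ≤ (n : ℝ) ^ k * (2 * K * pE n H) ^ e := by
            gcongr
            rw [hqd]; nlinarith
        _ = (2 * K) ^ e * ((n : ℝ) ^ k * pE n H ^ e) := by rw [mul_pow]; ring
        _ ≤ (n : ℝ) ^ (η / 2) * (n : ℝ) ^ (-η) := by
            refine mul_le_mul ?_ h (by positivity) (by positivity)
            exact (pow_le_pow_right₀ (by linarith) heE.le).trans hgood
        _ = _ := by rw [← Real.rpow_add hn0]; ring_nf
    · right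
      refine h.trans (mul_le_mul_of_nonneg_left (pow_le_pow_left₀ (by positivity) ?_ e)
        (by positivity))
      exact mul_le_mul_of_nonneg_left hpq (by linarith)
  set R := Nat.clog 2 (n * n) with hRdef
  have hR0 : 0 < R := Nat.clog_pos one_lt_two (by nlinarith)
  have hnR : n ≤ 2 ^ R := (Nat.le_mul_self n).trans (Nat.le_pow_clog one_lt_two _)
  have hRlog := clog_le_log hn
  rw [← hRdef, ← hL] at hRlog
  set ρ : ℝ := (2 ^ 17 * 5 * L) ^ ((1 : ℝ) / E) with hρ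
  have hbase : (1 : ℝ) ≤ 2 ^ 17 * 5 * L := by nlinarith
  have hρ1 : 1 ≤ ρ := Real.one_le_rpow hbase hr0
  have hρR : 2 ^ 17 * (R : ℝ) ≤ ρ ^ E := by
    rw [hρ, ← Real.rpow_natCast (_ ^ ((1 : ℝ) / E)) E, ← Real.rpow_mul (by linarith),
      div_mul_cancel₀ _ (by positivity), Real.rpow_one]
    linarith
  have hρle : ρ ≤ 2 ^ 17 * 5 * Lr := by
    rw [hρ, Real.mul_rpow (by norm_num) hl.le]
    refine mul_le_mul_of_nonneg_right ?_ (Real.rpow_nonneg hl.le _)
    calc ((2 : ℝ) ^ 17 * 5) ^ ((1 : ℝ) / E) ≤ (2 ^ 17 * 5) ^ (1 : ℝ) :=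
          Real.rpow_le_rpow_of_exponent_le (by norm_num) hr1
      _ = _ := Real.rpow_one _
  have hsub := image0_subset H hv
  have hloop : ∀ e ∈ image0 H hv, ¬ e.IsDiag := fun e he => by
    have := hsub he
    simpa [pairsOf] using this
  set Φ : ℝ := (4 * (4 * E / (η / 2) + 2)) ^ 5 * 2 ^ 12 * (1312 * (E : ℝ) ^ 3 * ρ) with hΦ
  have hΦ0 : 0 < Φ := by
    have : (0 : ℝ) < ρ := by linarith
    positivity
  have hspread : ∀ J : Finset (Sym2 (Fin n)),
      ((inside (pairAct n) (image0 H hv) J).card : ℝ) ≤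
        (9 * Φ * q) ^ J.card * (orb (pairAct n) J).card := by
    intro J
    rw [mul_assoc 9]
    refine spread_of_embs hsub (by positivity) (fun w F hF => ?_) J
    have h := embs_power (by linarith) hn hE hgapq hsmall hq0 hbig
      (rich_mono hq10.le hqq (rich_of_hyp hv H hq hyp)) hloop hR0 hnR hρ1 hρR w F hF
    rw [show Φ * q = (4 * (4 * E / (η / 2) + 2)) ^ 5 * 2 ^ 12 * (1312 * (E : ℝ) ^ 3 * ρ * q) by
      rw [hΦ]; ring]
    exact h
  have hΦle : 9 * Φ * 2 * 320 * K ≤ powC * K * x ^ 8 * Lr := by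
    have h1 : (4 * (4 * (E : ℝ) / (η / 2) + 2)) ≤ 36 * x := by
      rw [show 4 * (E : ℝ) / (η / 2) = 8 * x by rw [hx]; field_simp; ring]
      linarith
    have h2 : (E : ℝ) ^ 3 ≤ x ^ 3 := pow_le_pow_left₀ (by linarith) hEx 3
    calc 9 * Φ * 2 * 320 * K
        ≤ 9 * ((36 * x) ^ 5 * 2 ^ 12 * (1312 * x ^ 3 * (2 ^ 17 * 5 * Lr))) * 2 * 320 * K := by
          rw [hΦ]; gcongr
      _ = _ := by rw [powC]; ring
  have hfrac : pFrac n H ≤ 9 * Φ * q := by
    have hp1 : 0 ≤ 9 * Φ * q := by positivity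
    exact le_trans (csInf_le ⟨0, fun p hp => hp.1.1⟩ ⟨⟨le_min zero_le_one hp1, min_le_left _ _⟩,
      fun F => frac_of_spread hv H hp1 (fun _ => hspread) F⟩) (min_le_right _ _)
  have hcont : pC n H ≤ 320 * L * (9 * Φ * q) := by
    have h := contains_of_spread hn hv H (κ := 9 * Φ * q) (by positivity) (fun _ => hspread)
    exact le_trans (csInf_le ⟨0, fun p hp => hp.1.1⟩
      ⟨⟨le_min zero_le_one (by positivity), min_le_left _ _⟩, h⟩) (min_le_right _ _)
  have hq2' : q ≤ K * (2 * pE n H) := mul_le_mul_of_nonneg_left hq2.le (by linarith)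
  constructor
  · refine hfrac.trans ?_
    calc 9 * Φ * q ≤ 9 * Φ * (K * (2 * pE n H)) := by gcongr
      _ = 9 * Φ * 2 * K * pE n H * 1 := by ring
      _ ≤ 9 * Φ * 2 * K * pE n H * 320 := mul_le_mul_of_nonneg_left (by norm_num) (by positivity)
      _ = 9 * Φ * 2 * 320 * K * pE n H := by ring
      _ ≤ _ := mul_le_mul_of_nonneg_right hΦle hP.le
  · refine hcont.trans ?_
    calc 320 * L * (9 * Φ * q) ≤ 320 * L * (9 * Φ * (K * (2 * pE n H))) := by gcongr
      _ = L * (9 * Φ * 2 * 320 * K) * pE n H := by ring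
      _ ≤ L * (powC * K * x ^ 8 * Lr) * pE n H :=
          mul_le_mul_of_nonneg_right (mul_le_mul_of_nonneg_left hΦle hl.le) hP.le
      _ = _ := by ring

theorem log_ge_one (hn : 3 ≤ n) : 1 ≤ Real.log (n : ℝ) := by
  rw [Real.le_log_iff_exp_le (by exact_mod_cast (by omega : 0 < n))]
  exact Real.exp_one_lt_three.le.trans (by exact_mod_cast hn)

/-- Every power `n ^ (-a)`, from slightly below it to a power above it. -/
theorem power_left (a : ℝ) {ε : ℝ} (hε : 0 < ε) :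
    ∃ δ : ℝ, 0 < δ ∧ ∃ C : ℝ, ∀ (n v : ℕ) (H : SimpleGraph (Fin v)), 3 ≤ n → v ≤ n →
      H.edgeSet.Nonempty → (n : ℝ) ^ (-a) / Real.log n ^ (ε / 2) ≤ pE n H →
        pE n H ≤ (n : ℝ) ^ (-(a - δ)) →
          pFrac n H ≤ C * Real.log n ^ ε * pE n H ∧
            pC n H ≤ C * Real.log n ^ (1 + ε) * pE n H := by
  classical
  obtain ⟨E, hE2, hEε⟩ : ∃ E : ℕ, 2 ≤ E ∧ 2 / ε ≤ E :=
    ⟨max 2 ⌈2 / ε⌉₊, le_max_left _ _, (Nat.le_ceil _).trans (Nat.cast_le.2 (le_max_right _ _))⟩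
  set S := insert (1 : ℝ) (((Finset.range E ×ˢ Finset.range (E + 1)).image
    fun z => a * (z.1 : ℝ) - (z.2 : ℝ)).filter (0 < ·)) with hS
  set m := S.min' (insert_nonempty _ _) with hm
  have hm0 : 0 < m := by
    have := S.min'_mem (insert_nonempty _ _)
    rw [← hm] at this
    rcases mem_insert.1 this with h | h
    · linarith
    · exact (mem_filter.1 h).2
  set η := min 1 (m / 2) with hη
  have hη0 : 0 < η := lt_min one_pos (half_pos hm0)
  have hE0 : (0 : ℝ) < E := by exact_mod_cast (by omega : 0 < E)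
  refine ⟨m / (2 * E), by positivity, powC * ((E : ℝ) / η) ^ 8, fun n v H hn hv hH hlo hhi => ?_⟩
  have hn0 : (0 : ℝ) < n := by exact_mod_cast (by omega : 0 < n)
  have hn1 : (1 : ℝ) ≤ n := by exact_mod_cast (by omega : 1 ≤ n)
  have hlog := log_ge_one hn
  set K := Real.log (n : ℝ) ^ (ε / 2) with hK
  have hK1 : 1 ≤ K := Real.one_le_rpow hlog (by linarith)
  have hP : 0 < pE n H := pE_pos hv H hH
  have hgap : ∀ e k : ℕ, 1 ≤ e → e < E → k ≤ e + 1 →
      (n : ℝ) ^ k * pE n H ^ e ≤ (n : ℝ) ^ (-η) ∨ 1 ≤ (n : ℝ) ^ k * (K * pE n H) ^ e := by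
    intro e k he heE hk
    rcases lt_or_ge ((k : ℝ)) (a * e) with h | h
    · left
      have hmk : m ≤ a * e - k := S.min'_le _ (mem_insert_of_mem (mem_filter.2
        ⟨mem_image.2 ⟨(e, k), by simp; omega, rfl⟩, by linarith⟩))
      have heE' : (e : ℝ) * (m / (2 * E)) ≤ m / 2 := by
        have : (e : ℝ) ≤ E := by exact_mod_cast heE.le
        calc (e : ℝ) * (m / (2 * E)) ≤ (E : ℝ) * (m / (2 * E)) := by gcongr
          _ = _ := by field_simp
      calc (n : ℝ) ^ k * pE n H ^ e ≤ (n : ℝ) ^ k * ((n : ℝ) ^ (-(a - m / (2 * E)))) ^ e := by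
            gcongr
        _ = (n : ℝ) ^ ((k : ℝ) + -(a - m / (2 * E)) * e) := by
            rw [Real.rpow_add hn0, Real.rpow_mul hn0.le, Real.rpow_natCast, Real.rpow_natCast]
        _ ≤ _ := Real.rpow_le_rpow_of_exponent_le hn1 (by
            have := min_le_right (1 : ℝ) (m / 2)
            rw [← hη] at this
            nlinarith)
    · right
      rw [div_le_iff₀ (by linarith), mul_comm (pE n H)] at hlo
      calc (1 : ℝ) ≤ (n : ℝ) ^ ((k : ℝ) + -a * e) := Real.one_le_rpow hn1 (by nlinarith)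
        _ = (n : ℝ) ^ k * ((n : ℝ) ^ (-a)) ^ e := by
            rw [Real.rpow_add hn0, Real.rpow_mul hn0.le, Real.rpow_natCast, Real.rpow_natCast]
        _ ≤ _ := by gcongr
  obtain ⟨h1, h2⟩ := power_exponent (by omega) hv H hH hE2 hη0 (min_le_left _ _) hK1 hgap
  have hexp : 1 / (E : ℝ) ≤ ε / 2 := by
    rw [div_le_iff₀ hε] at hEε
    rw [div_le_iff₀ hE0]
    linarith
  have hC : (0 : ℝ) ≤ powC * ((E : ℝ) / η) ^ 8 := mul_nonneg (by norm_num [powC]) (by positivity)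
  have hpow : ∀ {s t : ℝ}, 0 ≤ s → s ≤ t → K * Real.log n ^ s ≤ Real.log n ^ (ε / 2 + t) :=
    fun {s t} _ hst => by
      rw [Real.rpow_add (by linarith)]
      exact mul_le_mul_of_nonneg_left (Real.rpow_le_rpow_of_exponent_le hlog hst) (by linarith)
  constructor
  · refine h1.trans (mul_le_mul_of_nonneg_right ?_ hP.le)
    calc powC * K * ((E : ℝ) / η) ^ 8 * Real.log n ^ ((1 : ℝ) / E)
        = powC * ((E : ℝ) / η) ^ 8 * (K * Real.log n ^ ((1 : ℝ) / E)) := by ring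
      _ ≤ powC * ((E : ℝ) / η) ^ 8 * Real.log n ^ (ε / 2 + ε / 2) :=
          mul_le_mul_of_nonneg_left (hpow (by positivity) hexp) hC
      _ = _ := by rw [add_halves]
  · refine h2.trans (mul_le_mul_of_nonneg_right ?_ hP.le)
    calc powC * K * ((E : ℝ) / η) ^ 8 * Real.log n ^ (1 + (1 : ℝ) / E)
        = powC * ((E : ℝ) / η) ^ 8 * (K * Real.log n ^ (1 + (1 : ℝ) / E)) := by ring
      _ ≤ powC * ((E : ℝ) / η) ^ 8 * Real.log n ^ (ε / 2 + (1 + ε / 2)) :=
          mul_le_mul_of_nonneg_left (hpow (by positivity) (by linarith)) hC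
      _ = _ := by rw [show ε / 2 + (1 + ε / 2) = 1 + ε by ring]

/-- An irrational exponent, from both sides. -/
theorem power_irrational {a : ℝ} (ha : Irrational a) {ε : ℝ} (hε : 0 < ε) :
    ∃ δ : ℝ, 0 < δ ∧ ∃ C : ℝ, ∀ (n v : ℕ) (H : SimpleGraph (Fin v)), 3 ≤ n → v ≤ n →
      H.edgeSet.Nonempty → (n : ℝ) ^ (-(a + δ)) ≤ pE n H → pE n H ≤ (n : ℝ) ^ (-(a - δ)) →
        pFrac n H ≤ C * Real.log n ^ ε * pE n H ∧
          pC n H ≤ C * Real.log n ^ (1 + ε) * pE n H := by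
  classical
  obtain ⟨E, hE2, hEε⟩ : ∃ E : ℕ, 2 ≤ E ∧ 1 / ε ≤ E :=
    ⟨max 2 ⌈1 / ε⌉₊, le_max_left _ _, (Nat.le_ceil _).trans (Nat.cast_le.2 (le_max_right _ _))⟩
  set S := ((Finset.range E).filter (1 ≤ ·)) ×ˢ Finset.range (E + 1) with hS
  have hSne : S.Nonempty := ⟨(1, 0), by simp [hS]; omega⟩
  obtain ⟨z, hz, hmin⟩ := Finset.exists_min_image S (fun z => |(z.2 : ℝ) - a * z.1|) hSne
  set m := |(z.2 : ℝ) - a * z.1| with hm
  have hm0 : 0 < m := by
    refine abs_pos.2 (sub_ne_zero.2 fun h => ?_)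
    have h1 : 1 ≤ z.1 := by
      simp only [hS, mem_product, mem_filter] at hz
      exact hz.1.2
    exact (ha.mul_natCast (by omega : z.1 ≠ 0)).ne_nat z.2 h.symm
  set η := min 1 (m / 2) with hη
  have hη0 : 0 < η := lt_min one_pos (half_pos hm0)
  have hE0 : (0 : ℝ) < E := by exact_mod_cast (by omega : 0 < E)
  refine ⟨m / (2 * E), by positivity, powC * ((E : ℝ) / η) ^ 8, fun n v H hn hv hH hlo hhi => ?_⟩
  have hn0 : (0 : ℝ) < n := by exact_mod_cast (by omega : 0 < n)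
  have hn1 : (1 : ℝ) ≤ n := by exact_mod_cast (by omega : 1 ≤ n)
  have hlog := log_ge_one hn
  have hP : 0 < pE n H := pE_pos hv H hH
  have hgap : ∀ e k : ℕ, 1 ≤ e → e < E → k ≤ e + 1 →
      (n : ℝ) ^ k * pE n H ^ e ≤ (n : ℝ) ^ (-η) ∨ 1 ≤ (n : ℝ) ^ k * (1 * pE n H) ^ e := by
    intro e k he heE hk
    have hmk := hmin (e, k) (by simp [hS]; omega)
    simp only at hmk
    have heE' : (e : ℝ) * (m / (2 * E)) ≤ m / 2 := by
      have : (e : ℝ) ≤ E := by exact_mod_cast heE.le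
      calc (e : ℝ) * (m / (2 * E)) ≤ (E : ℝ) * (m / (2 * E)) := by gcongr
        _ = _ := by field_simp
    rcases le_or_gt ((k : ℝ) - a * e) 0 with h | h
    · left
      rw [abs_of_nonpos h] at hmk
      calc (n : ℝ) ^ k * pE n H ^ e ≤ (n : ℝ) ^ k * ((n : ℝ) ^ (-(a - m / (2 * E)))) ^ e := by
            gcongr
        _ = (n : ℝ) ^ ((k : ℝ) + -(a - m / (2 * E)) * e) := by
            rw [Real.rpow_add hn0, Real.rpow_mul hn0.le, Real.rpow_natCast, Real.rpow_natCast]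
        _ ≤ _ := Real.rpow_le_rpow_of_exponent_le hn1 (by
            have := min_le_right (1 : ℝ) (m / 2)
            rw [← hη] at this
            nlinarith)
    · right
      rw [abs_of_pos h] at hmk
      rw [one_mul]
      calc (1 : ℝ) ≤ (n : ℝ) ^ ((k : ℝ) + -(a + m / (2 * E)) * e) :=
            Real.one_le_rpow hn1 (by nlinarith)
        _ = (n : ℝ) ^ k * ((n : ℝ) ^ (-(a + m / (2 * E)))) ^ e := by
            rw [Real.rpow_add hn0, Real.rpow_mul hn0.le, Real.rpow_natCast, Real.rpow_natCast]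
        _ ≤ _ := by gcongr
  obtain ⟨h1, h2⟩ := power_exponent (by omega) hv H hH hE2 hη0 (min_le_left _ _) le_rfl hgap
  have hexp : 1 / (E : ℝ) ≤ ε := by
    rw [div_le_iff₀ hε] at hEε
    rw [div_le_iff₀ hE0]
    linarith
  have hC : (0 : ℝ) ≤ powC * ((E : ℝ) / η) ^ 8 := mul_nonneg (by norm_num [powC]) (by positivity)
  rw [mul_one] at h1 h2
  refine ⟨h1.trans ?_, h2.trans ?_⟩ <;> refine mul_le_mul_of_nonneg_right
    (mul_le_mul_of_nonneg_left (Real.rpow_le_rpow_of_exponent_le hlog ?_) hC) hP.le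
  · exact hexp
  · linarith

end Vale.Agent.P064.Blk
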