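import Vale.Agent.P064.Sparse
import Vale.Agent.P064.PowerMain

/-!
P064 for every graph: a loss `(log n)^(1/2)` in the fractional threshold.
-/

namespace Vale.Agent.P064

open Finset

variable {n : ℕ}

/-- The constant for every graph. -/
noncomputable def allC : ℝ :=
  denseC * 320 + Blk.powC * 64 * 4 ^ 8 + 4 * 320 * 9 * 48

theorem log_le_sqrt (hn : 2 ≤ n) : Real.log n ≤ (n : ℝ) ^ ((1 : ℝ) / 2) := by
  have hn0 : (0 : ℝ) < n := by exact_mod_cast (by omega : 0 < n)
  set x := (n : ℝ) ^ ((1 : ℝ) / 4) with hx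
  have hx0 : 0 < x := Real.rpow_pos_of_pos hn0 _
  have h1 := Real.log_le_sub_one_of_pos hx0
  rw [hx, Real.log_rpow hn0, ← hx] at h1
  rw [show (n : ℝ) ^ ((1 : ℝ) / 2) = x * x by rw [hx, ← Real.rpow_add hn0]; norm_num]
  nlinarith [sq_nonneg (x - 2)]

theorem half_loss {v : ℕ} (hn : 2 ≤ n) (hv : v ≤ n) (H : SimpleGraph (Fin v))
    (hH : H.edgeSet.Nonempty) :
    pFrac n H ≤ allC * Real.log n ^ ((1 : ℝ) / 2) * pE n H ∧
      pC n H ≤ allC * Real.log n ^ ((3 : ℝ) / 2) * pE n H := by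
  have hn0 : (0 : ℝ) < n := by exact_mod_cast (by omega : 0 < n)
  set L := Real.log (n : ℝ) with hL
  have hl2 : Real.log 2 ≤ L := Real.log_le_log two_pos (by exact_mod_cast hn)
  have hlg := Real.log_two_gt_d9
  have hl : 0 < L := by linarith
  have hP := Blk.pE_pos hv H hH
  set s := L ^ ((1 : ℝ) / 2) with hs
  have hs2 : s * s = L := by rw [hs, ← Real.rpow_add hl]; norm_num
  have hs0 : 0 < s := Real.rpow_pos_of_pos hl _
  have hs1 : 1 / 2 ≤ s := by nlinarith
  have h32 : L ^ ((3 : ℝ) / 2) = L * s := by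
    rw [hs, show (3 : ℝ) / 2 = 1 + 1 / 2 by norm_num, Real.rpow_add hl, Real.rpow_one]
  rw [h32]
  have hD : (0 : ℝ) < denseC := by norm_num [denseC]
  have hB : (0 : ℝ) < Blk.powC * 64 * 4 ^ 8 := by norm_num [Blk.powC]
  have hC0 : 0 ≤ allC := by rw [allC]; linarith
  rcases le_or_gt L ((n : ℝ) * pE n H ^ 1) with hdense | hmid
  · obtain ⟨h1, h2⟩ := pFrac_dense hn hv H hH hdense
    norm_num at h1 h2
    rw [← hL, ← hs] at h1
    rw [← hL, h32] at h2
    constructor
    · refine h1.trans (mul_le_mul_of_nonneg_right (mul_le_mul_of_nonneg_right ?_ hs0.le) hP.le)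
      rw [allC]; linarith
    · refine h2.trans (mul_le_mul_of_nonneg_right (mul_le_mul_of_nonneg_right ?_ (by positivity))
        hP.le)
      rw [allC]; linarith
  rw [pow_one] at hmid
  rcases le_or_gt 1 (64 * ((n : ℝ) * pE n H)) with hK | hsparse
  · have hgap : ∀ e k : ℕ, 1 ≤ e → e < 2 → k ≤ e + 1 →
        (n : ℝ) ^ k * pE n H ^ e ≤ (n : ℝ) ^ (-((1 : ℝ) / 2)) ∨
          1 ≤ (n : ℝ) ^ k * (64 * pE n H) ^ e := by
      intro e k he he2 hk
      obtain rfl : e = 1 := by omega
      rcases Nat.eq_zero_or_pos k with rfl | hk0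
      · left
        rw [pow_zero, one_mul, pow_one, Real.rpow_neg hn0.le, ← one_div, le_div_iff₀
          (Real.rpow_pos_of_pos hn0 _)]
        refine le_of_mul_le_mul_left ?_ hn0
        have hlr := log_le_sqrt hn
        rw [← hL] at hlr
        have hsn : (n : ℝ) ^ ((1 : ℝ) / 2) * (n : ℝ) ^ ((1 : ℝ) / 2) = n := by
          rw [← Real.rpow_add hn0]; norm_num
        have hr0 := Real.rpow_pos_of_pos hn0 ((1 : ℝ) / 2)
        nlinarith [mul_le_mul_of_nonneg_right (hmid.le.trans hlr) hr0.le]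
      · right
        have hnk : (n : ℝ) ≤ (n : ℝ) ^ k :=
          le_self_pow₀ (by exact_mod_cast (by omega : 1 ≤ n)) (by omega)
        rw [pow_one]
        nlinarith
    obtain ⟨h1, h2⟩ := Blk.power_exponent (E := 2) hn hv H hH le_rfl (η := 1 / 2) (K := 64)
      (by norm_num) (by norm_num) (by norm_num) hgap
    norm_num at h1 h2
    rw [← hL, ← hs] at h1
    rw [← hL, h32] at h2
    constructor
    · refine h1.trans (mul_le_mul_of_nonneg_right (mul_le_mul_of_nonneg_right ?_ hs0.le) hP.le)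
      rw [allC]; linarith
    · refine h2.trans (mul_le_mul_of_nonneg_right (mul_le_mul_of_nonneg_right ?_ (by positivity))
        hP.le)
      rw [allC]; linarith
  -- the host is a forest
  obtain ⟨q, ⟨hq, hyp⟩, hq2⟩ := exists_lt_of_csInf_lt
    (s := {p : ℝ | p ∈ Set.Icc 0 1 ∧ ∀ F : H.Subgraph, 1 / 2 ≤ expCopies n p F.coe})
    ⟨1, one_mem hv H⟩ (show pE n H < min (2 * pE n H) (1 / (64 * n)) from lt_min (by linarith) (by
      rw [lt_div_iff₀ (by positivity)]; nlinarith))
  have hR := rich_of_hyp hv H hq hyp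
  have hq0 := q_pos hv H hH hq hR
  have hq2a : q ≤ 2 * pE n H := (hq2.trans_le (min_le_left _ _)).le
  have hq2b : 64 * ((n : ℝ) * q) ≤ 1 := by
    have := hq2.trans_le (min_le_right _ _)
    rw [lt_div_iff₀ (by positivity)] at this
    linarith
  have hloop : ∀ e ∈ image0 H hv, ¬ e.IsDiag := fun e he => by
    have := image0_subset H hv he
    simpa [pairsOf] using this
  have hspread : ∀ J : Finset (Sym2 (Fin n)),
      ((inside (pairAct n) (image0 H hv) J).card : ℝ) ≤
        (9 * (48 * q)) ^ J.card * (orb (pairAct n) J).card :=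
    spread_of_embs (image0_subset H hv) (by positivity)
      fun w F hF => sparse_embs ⟨0, by omega⟩ hq0 hR hq2b hloop F hF
  have h1 : pFrac n H ≤ 9 * (48 * q) := by
    have hp1 : 0 ≤ 9 * (48 * q) := by positivity
    exact le_trans (csInf_le ⟨0, fun p hp => hp.1.1⟩ ⟨⟨le_min zero_le_one hp1, min_le_left _ _⟩,
      fun F => frac_of_spread hv H hp1 (fun _ => hspread) F⟩) (min_le_right _ _)
  have h2 : pC n H ≤ 320 * L * (9 * (48 * q)) := by
    have h := contains_of_spread hn hv H (κ := 9 * (48 * q)) (by positivity) (fun _ => hspread)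
    exact le_trans (csInf_le ⟨0, fun p hp => hp.1.1⟩
      ⟨⟨le_min zero_le_one (by positivity), min_le_left _ _⟩, h⟩) (min_le_right _ _)
  have hC : 4 * 320 * 9 * 48 * (1 / 2) ≤ allC * s :=
    mul_le_mul (by rw [allC]; linarith) hs1 (by norm_num) hC0
  constructor
  · refine h1.trans ?_
    nlinarith [mul_le_mul_of_nonneg_right hC hP.le]
  · refine h2.trans ?_
    nlinarith [mul_le_mul_of_nonneg_left hq2a hl.le,
      mul_le_mul_of_nonneg_left (mul_le_mul_of_nonneg_right hC hP.le) hl.le]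

end Vale.Agent.P064
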