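import Vale.Agent.P064.Owned

/-!
Units of several vertices: every vertex points to the root of its block and each root to its block,
so that closed sets are unions of blocks. Only blocks with a flagged root pay for the scales.
-/

namespace Vale.Agent.P064.Blk

open Finset Real Vale.Agent.P064

variable {n w : ℕ}

/-- A vertex with its out-edges, its pointers inside its block, its flag, and whether its edges may
lose a factor. -/
structure BUnit (n : ℕ) where
  root : Fin n
  out : Finset (Fin n)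
  ptr : Finset (Fin n)
  flag : Bool
  low : Bool
deriving DecidableEq, Fintype

/-- The successors of a unit. -/
def BUnit.succs (u : BUnit n) : Finset (Fin n) := u.out ∪ u.ptr

/-- The roles of a pattern: out-edges, pointers and flags. -/
structure Roles (w : ℕ) where
  b : Fin w → Finset (Fin w)
  p : Fin w → Finset (Fin w)
  flag : Fin w → Bool
  low : Fin w → Bool

/-- The rate of an edge: `Q` where a loss is allowed and `q` elsewhere. -/
def rate (q Q : ℝ) (b : Bool) : ℝ := if b then Q else q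

theorem rate_nonneg {q Q : ℝ} (hq : 0 ≤ q) (hQ : 0 ≤ Q) (b : Bool) : 0 ≤ rate q Q b := by
  cases b <;> simpa [rate]

theorem rate_pos {q Q : ℝ} (hq : 0 < q) (hQ : 0 < Q) (b : Bool) : 0 < rate q Q b := by
  cases b <;> simpa [rate]

theorem le_rate {q Q : ℝ} (h : q ≤ Q) (b : Bool) : q ≤ rate q Q b := by
  cases b <;> simp [rate, h]

/-- The successors of a role. -/
def Roles.o (T : Roles w) (i : Fin w) : Finset (Fin w) := T.b i ∪ T.p i

/-- The flagged roles of a set. -/
def marksB (T : Roles w) (O : Finset (Fin w)) : Finset (Fin w) := O.filter fun i => T.flag i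

/-- A flagged unit. -/
def MarkB (u : BUnit n) : Prop := u.flag = true

instance : DecidablePred (MarkB (n := n)) := fun u =>
  inferInstanceAs (Decidable (u.flag = true))

/-- Closed sets in which every unit is reached from a flagged one. -/
def Good (J : Finset (BUnit n)) : Prop :=
  (∀ v ∈ J, ∀ z ∈ v.succs, ∃ u ∈ J, u.root = z) ∧
    ∀ Z : Finset (Fin n), (∀ u ∈ J, MarkB u → u.root ∈ Z) →
      (∀ v ∈ J, v.root ∈ Z → v.succs ⊆ Z) → ∀ u ∈ J, u.root ∈ Z

theorem good_union {J K : Finset (BUnit n)} (h1 : Good J) (h2 : Good K) : Good (J ∪ K) := by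
  constructor
  · intro v hv z hz
    rcases mem_union.1 hv with h | h
    · obtain ⟨u, hu, e⟩ := h1.1 v h z hz
      exact ⟨u, mem_union_left _ hu, e⟩
    · obtain ⟨u, hu, e⟩ := h2.1 v h z hz
      exact ⟨u, mem_union_right _ hu, e⟩
  · intro Z hm hc u hu
    rcases mem_union.1 hu with h | h
    · exact h1.2 Z (fun u hu => hm u (mem_union_left _ hu))
        (fun v hv => hc v (mem_union_left _ hv)) u h
    · exact h2.2 Z (fun u hu => hm u (mem_union_right _ hu))
        (fun v hv => hc v (mem_union_right _ hv)) u h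

/-- A good set is determined by its flagged units. -/
theorem good_unique {S J K : Finset (BUnit n)}
    (hinj : Set.InjOn BUnit.root (S : Set (BUnit n))) (hJ : J ⊆ S) (hK : K ⊆ S)
    (gJ : Good J) (gK : Good K) (h : J.filter MarkB ⊆ K) : J ⊆ K := by
  have hmem : ∀ u ∈ J, u.root ∈ K.image BUnit.root → u ∈ K := by
    intro u hu hr
    obtain ⟨u', hu', e⟩ := mem_image.1 hr
    rwa [hinj (hK hu') (hJ hu) e] at hu'
  intro u hu
  refine hmem u hu (gJ.2 _ (fun u hu hm => mem_image_of_mem _ (h (mem_filter.2 ⟨hu, hm⟩))) ?_ u hu)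
  intro v hv hr z hz
  obtain ⟨u', hu', e⟩ := gK.1 v (hmem v hv hr) z hz
  exact mem_image.2 ⟨u', hu', e⟩

/-- Permutations of the vertices acting on units. -/
def bAct (n : ℕ) : Equiv.Perm (Fin n) →* Equiv.Perm (BUnit n) where
  toFun σ :=
    { toFun := fun u => ⟨σ u.root, u.out.image σ, u.ptr.image σ, u.flag, u.low⟩
      invFun := fun u => ⟨σ.symm u.root, u.out.image σ.symm, u.ptr.image σ.symm, u.flag, u.low⟩
      left_inv := fun u => by simp [Finset.image_image]
      right_inv := fun u => by simp [Finset.image_image] }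
  map_one' := Equiv.ext fun u => by simp
  map_mul' σ τ := Equiv.ext fun u => by simp [Finset.image_image]

theorem bAct_apply (σ : Equiv.Perm (Fin n)) (u : BUnit n) :
    bAct n σ u = ⟨σ u.root, u.out.image σ, u.ptr.image σ, u.flag, u.low⟩ := rfl

theorem succs_bAct (σ : Equiv.Perm (Fin n)) (u : BUnit n) :
    (bAct n σ u).succs = u.succs.image σ := by
  simp [bAct_apply, BUnit.succs, image_union]

/-- The unit of a role under a map. -/
def unitOf (T : Roles w) (φ : Fin w → Fin n) (i : Fin w) : BUnit n :=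
  ⟨φ i, (T.b i).image φ, (T.p i).image φ, T.flag i, T.low i⟩

theorem succs_unitOf (T : Roles w) (φ : Fin w → Fin n) (i : Fin w) :
    (unitOf T φ i).succs = (T.o i).image φ := by simp [unitOf, BUnit.succs, Roles.o, image_union]

/-- The units of the roles in `O`. -/
def unitsO (T : Roles w) (O : Finset (Fin w)) (φ : Fin w → Fin n) : Finset (BUnit n) :=
  O.image (unitOf T φ)

/-- The maps on `O` with all their units in `S`. -/
noncomputable def insideO (z₀ : Fin n) (T : Roles w) (S : Finset (BUnit n)) (O : Finset (Fin w)) :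
    Finset (Fin w → Fin n) :=
  (emO z₀ O).filter fun φ => unitsO T O φ ⊆ S

theorem unitsO_move {z₀ : Fin n} {T : Roles w} {O : Finset (Fin w)}
    (hO : Closed T.o O) (σ : Equiv.Perm (Fin n)) (φ : Fin w → Fin n) :
    unitsO T O (moveO z₀ O σ φ) = tr (bAct n) σ (unitsO T O φ) := by
  rw [unitsO, unitsO, tr, Finset.map_eq_image, Finset.image_image]
  refine Finset.image_congr fun i hi => ?_
  simp only [Function.comp_apply, Equiv.coe_toEmbedding, unitOf, bAct_apply, Finset.image_image,
    BUnit.mk.injEq]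
  refine ⟨if_pos hi, Finset.image_congr fun j hj => ?_, Finset.image_congr fun j hj => ?_, trivial, trivial⟩
  · exact if_pos (hO i hi (mem_union_left _ hj))
  · exact if_pos (hO i hi (mem_union_right _ hj))

theorem card_insideO_tr (z₀ : Fin n) {T : Roles w} {O : Finset (Fin w)}
    (hO : Closed T.o O) (σ : Equiv.Perm (Fin n)) (S : Finset (BUnit n)) :
    (insideO z₀ T (tr (bAct n) σ S) O).card = (insideO z₀ T S O).card := by
  symm
  refine Finset.card_bij' (fun φ _ => moveO z₀ O σ φ) (fun φ _ => moveO z₀ O σ⁻¹ φ) ?_ ?_ ?_ ?_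
  · intro φ hφ
    obtain ⟨h1, h2⟩ := mem_filter.1 hφ
    refine mem_filter.2 ⟨moveO_mem σ h1, ?_⟩
    rw [unitsO_move hO]
    exact (tr_subset_iff _ σ).2 h2
  · intro φ hφ
    obtain ⟨h1, h2⟩ := mem_filter.1 hφ
    refine mem_filter.2 ⟨moveO_mem σ⁻¹ h1, ?_⟩
    rw [unitsO_move hO, ← tr_inv_tr (bAct n) σ S]
    exact (tr_subset_iff _ σ⁻¹).2 h2
  · intro φ hφ; exact moveO_inv σ (mem_filter.1 hφ).1
  · intro φ hφ
    simpa using moveO_inv σ⁻¹ (mem_filter.1 hφ).1

theorem good_tr {J : Finset (BUnit n)} (σ : Equiv.Perm (Fin n)) (h : Good J) :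
    Good (tr (bAct n) σ J) := by
  constructor
  · intro v hv z hz
    obtain ⟨v₀, hv₀, rfl⟩ := mem_map.1 hv
    rw [Equiv.coe_toEmbedding, succs_bAct] at hz
    obtain ⟨z₁, hz₁, rfl⟩ := mem_image.1 hz
    obtain ⟨u₀, hu₀, e⟩ := h.1 v₀ hv₀ z₁ hz₁
    exact ⟨_, mem_map_of_mem _ hu₀, congrArg σ e⟩
  · intro Z hm hc u hu
    obtain ⟨u₀, hu₀, rfl⟩ := mem_map.1 hu
    have := h.2 (univ.filter fun x => σ x ∈ Z)
      (fun v hv hmv => mem_filter.2 ⟨mem_univ _, hm _ (mem_map_of_mem _ hv) hmv⟩)
      (fun v hv hr z hz => mem_filter.2 ⟨mem_univ _, hc _ (mem_map_of_mem _ hv)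
        (mem_filter.1 hr).2 (by
          rw [Equiv.coe_toEmbedding, succs_bAct]
          exact mem_image_of_mem σ hz)⟩) u₀ hu₀
    exact (mem_filter.1 this).2

/-- Summing `f` of the union over the sequences of `k` maps in `P`. -/
noncomputable def iterM (T : Roles w) (O : Finset (Fin w))
    (P : Finset (Fin w → Fin n)) :
    ℕ → (Finset (BUnit n) → ℝ) → Finset (BUnit n) → ℝ
  | 0, f, U => f U
  | k + 1, f, U => ∑ φ ∈ P, iterM T O P k f (U ∪ unitsO T O φ)

section Iter

variable (T : Roles w) (O : Finset (Fin w)) (P : Finset (Fin w → Fin n))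

theorem iterM_one : ∀ (k : ℕ) (U), iterM T O P k (fun _ => 1) U = (P.card : ℝ) ^ k
  | 0, U => by simp [iterM]
  | k + 1, U => by
    rw [iterM, Finset.sum_congr rfl fun φ _ => iterM_one k _, sum_const, nsmul_eq_mul, pow_succ']

theorem iterM_linear {β : Type*} (s : Finset β) (c : β → ℝ)
    (f : β → Finset (BUnit n) → ℝ) :
    ∀ (k : ℕ) (U), iterM T O P k (fun V => ∑ b ∈ s, c b * f b V) U =
      ∑ b ∈ s, c b * iterM T O P k (f b) U
  | 0, U => rfl
  | k + 1, U => by
    simp only [iterM]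
    rw [Finset.sum_congr rfl fun φ _ => iterM_linear s c f k _, Finset.sum_comm]
    simp only [Finset.mul_sum]

theorem iterM_mono (Inv : Finset (BUnit n) → Prop)
    (hInv : ∀ U, ∀ φ ∈ P, Inv U → Inv (U ∪ unitsO T O φ))
    {f g : Finset (BUnit n) → ℝ} (hfg : ∀ V, Inv V → f V ≤ g V) :
    ∀ (k : ℕ) (U), Inv U → iterM T O P k f U ≤ iterM T O P k g U
  | 0, U, h => hfg U h
  | k + 1, U, h =>
    Finset.sum_le_sum fun φ hφ => iterM_mono Inv hInv hfg k _ (hInv U φ hφ h)

theorem iterM_hits_eq_zero (J : Finset (BUnit n)) :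
    ∀ (k : ℕ) (U), ¬ U ⊆ J → iterM T O P k (hits J) U = 0
  | 0, U, h => by
    have : U ≠ J := fun e => h (e ▸ subset_rfl)
    simp [iterM, hits, this]
  | k + 1, U, h => Finset.sum_eq_zero fun φ _ => iterM_hits_eq_zero J k _
      fun h' => h (subset_union_left.trans h')

theorem iterM_hits_filter {S J : Finset (BUnit n)} (hJ : J ⊆ S) :
    ∀ (k : ℕ) (U), iterM T O (P.filter fun φ => unitsO T O φ ⊆ S) k (hits J) U =
      iterM T O P k (hits J) U
  | 0, U => rfl
  | k + 1, U => by
    simp only [iterM]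
    rw [Finset.sum_congr rfl fun φ _ => iterM_hits_filter hJ k _]
    refine Finset.sum_subset (filter_subset _ _) fun φ hφ hφ' =>
      iterM_hits_eq_zero T O P J k _ ?_
    exact fun h => hφ' (mem_filter.2 ⟨hφ, (subset_union_right.trans h).trans hJ⟩)

theorem iterM_hits_nonneg (J : Finset (BUnit n)) :
    ∀ (k : ℕ) (U), 0 ≤ iterM T O P k (hits J) U
  | 0, U => by simp only [iterM, hits]; split_ifs <;> norm_num
  | k + 1, U => Finset.sum_nonneg fun φ _ => iterM_hits_nonneg J k _

theorem iterM_hits_le (J : Finset (BUnit n)) :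
    ∀ (k : ℕ) (U), iterM T O P k (hits J) U ≤
      ((P.filter fun φ => unitsO T O φ ⊆ J).card : ℝ) ^ k
  | 0, U => by simp only [iterM, hits, pow_zero]; split_ifs <;> norm_num
  | k + 1, U => by
    rw [← iterM_hits_filter T O P subset_rfl (k + 1) U, iterM, pow_succ', ← nsmul_eq_mul,
      ← Finset.sum_const]
    refine Finset.sum_le_sum fun φ _ => ?_
    rw [iterM_hits_filter T O P subset_rfl k]
    exact iterM_hits_le J k _

theorem iterM_hits_tr (z₀ : Fin n) (hO : Closed T.o O) (σ : Equiv.Perm (Fin n))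
    (J : Finset (BUnit n)) :
    ∀ (k : ℕ) (U), iterM T O (emO z₀ O) k (hits (tr (bAct n) σ J)) (tr (bAct n) σ U) =
      iterM T O (emO z₀ O) k (hits J) U
  | 0, U => by simp [iterM, hits, (tr_injective (bAct n) σ).eq_iff]
  | k + 1, U => by
    simp only [iterM]
    symm
    refine Finset.sum_bij' (fun φ _ => moveO z₀ O σ φ) (fun φ _ => moveO z₀ O σ⁻¹ φ)
      (fun φ h => moveO_mem σ h) (fun φ h => moveO_mem σ⁻¹ h) (fun φ h => moveO_inv σ h)
      (fun φ h => by simpa using moveO_inv σ⁻¹ h) fun φ hφ => ?_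
    rw [unitsO_move hO σ φ, ← tr_union, iterM_hits_tr z₀ hO σ J k]

end Iter

section Units

variable {z₀ : Fin n} {T : Roles w} {O : Finset (Fin w)}
  {φ : Fin w → Fin n}

theorem unitOf_injOn (hφ : φ ∈ emO z₀ O) : Set.InjOn (unitOf T φ) (O : Set (Fin w)) :=
  fun _ hi _ hj e => (mem_filter.1 hφ).2.1 hi hj (congrArg BUnit.root e)

theorem card_snd_unitOf (hO : Closed T.o O) (hφ : φ ∈ emO z₀ O) {i : Fin w} (hi : i ∈ O) :
    (unitOf T φ i).out.card = (T.b i).card :=
  card_image_of_injOn ((mem_filter.1 hφ).2.1.mono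
    (coe_subset.2 (subset_union_left.trans (hO i hi))))

theorem marks_units (hφ : φ ∈ emO z₀ O) :
    ((unitsO T O φ).filter MarkB).card = (marksB T O).card := by
  rw [unitsO, Finset.filter_image,
    card_image_of_injOn ((unitOf_injOn hφ).mono (coe_subset.2 (filter_subset _ _)))]
  rfl

theorem good_units (hO : Closed T.o O) (hcov : cl T.o (marksB T O) = O) :
    Good (unitsO T O φ) := by
  constructor
  · intro u hu z hz
    obtain ⟨i, hi, rfl⟩ := mem_image.1 hu
    rw [succs_unitOf] at hz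
    obtain ⟨j, hj, rfl⟩ := mem_image.1 hz
    exact ⟨_, mem_image_of_mem _ (hO i hi hj), rfl⟩
  · intro Z hm hc u hu
    obtain ⟨i, hi, rfl⟩ := mem_image.1 hu
    have hclosed : Closed T.o (O.filter fun l => φ l ∈ Z) := by
      intro j hj l hl
      obtain ⟨hjO, hjZ⟩ := mem_filter.1 hj
      refine mem_filter.2 ⟨hO j hjO hl, hc _ (mem_image_of_mem _ hjO) hjZ ?_⟩
      rw [succs_unitOf]
      exact mem_image_of_mem φ hl
    have hsub : cl T.o (marksB T O) ⊆ O.filter fun l => φ l ∈ Z := cl_subset hclosed fun j hj =>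
      mem_filter.2 ⟨(mem_filter.1 hj).1,
        hm _ (mem_image_of_mem _ (mem_filter.1 hj).1) (mem_filter.1 hj).2⟩
    exact (mem_filter.1 (hsub (hcov.symm ▸ hi))).2

end Units

section Main

variable {q Q : ℝ} {R : ℕ}

/-- The bound for the maps on `O` when marked units lose `lam`. -/
noncomputable def bd (n : ℕ) (T : Roles w) (lam q Q : ℝ)
    (O : Finset (Fin w)) : ℝ :=
  lam ^ (marksB T O).card * 2 ^ (cl T.o (marksB T O)).card * (n : ℝ) ^ O.card *
    ∏ i ∈ O, rate q Q (T.low i) ^ (T.b i).card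

theorem bd_nonneg (T : Roles w) {lam : ℝ} (hlam : 0 ≤ lam) (hq : 0 ≤ q) (hQ : 0 ≤ Q)
    (O : Finset (Fin w)) : 0 ≤ bd n T lam q Q O :=
  mul_nonneg (by positivity) (Finset.prod_nonneg fun _ _ => pow_nonneg (rate_nonneg hq hQ _) _)

theorem bd_mono (T : Roles w) {lam lam' : ℝ} (h0 : 0 ≤ lam) (h : lam ≤ lam') (hq : 0 ≤ q)
    (hQ : 0 ≤ Q) (O : Finset (Fin w)) : bd n T lam q Q O ≤ bd n T lam' q Q O := by
  unfold bd
  exact mul_le_mul_of_nonneg_right (mul_le_mul_of_nonneg_right (mul_le_mul_of_nonneg_right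
    (pow_le_pow_left₀ h0 h _) (by positivity)) (by positivity))
    (Finset.prod_nonneg fun _ _ => pow_nonneg (rate_nonneg hq hQ _) _)

/-- Roles in blocks: the block of a role is named by its root and is strongly connected, and every
successor outside a block lies in a block of lower rank. -/
structure Layered (T : Roles w) (blk : Fin w → Fin w) (rk : Fin w → ℕ) : Prop where
  up : ∀ i, blk i ≠ i → blk i ∈ T.o i
  down : ∀ i, blk i ≠ i → i ∈ T.o (blk i)
  desc : ∀ i, ∀ j ∈ T.o i, blk j = blk i ∨ rk (blk j) < rk (blk i)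

/-- The bound on the extensions to one block without a flag. -/
def LowExt (S : Finset (BUnit n)) (q Q : ℝ) (T : Roles w) (blk : Fin w → Fin w) : Prop :=
  ∀ (r : Fin w) (ψ : Fin w → Fin n), (∀ i, blk i = r → T.flag i = false) →
    ((univ.filter fun φ : Fin w → Fin n => (∀ i, blk i ≠ r → φ i = ψ i) ∧
      (∀ i j, (blk i = r ∨ ∃ l, blk l = r ∧ i ∈ T.o l) → (blk j = r ∨ ∃ l, blk l = r ∧ j ∈ T.o l) →
        φ i = φ j → i = j) ∧
        ∀ i, blk i = r → unitOf T φ i ∈ S).card : ℝ) ≤
      (n : ℝ) ^ (univ.filter fun i => blk i = r).card *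
        ∏ i ∈ univ.filter (fun i => blk i = r), rate q Q (T.low i) ^ (T.b i).card

/-- Peeling the topmost block that has no flagged block above it. -/
theorem peel_step (z₀ : Fin n) {T : Roles w} {blk : Fin w → Fin w} {rk : Fin w → ℕ}
    (hlay : Layered T blk rk) {S₀ S : Finset (BUnit n)} (hS : S ⊆ S₀)
    (hext : LowExt S₀ q Q T blk) {O : Finset (Fin w)} (hO : Closed T.o O)
    (hne : cl T.o (marksB T O) ≠ O) :
    ∃ D ⊆ O, D.Nonempty ∧ Closed T.o (O \ D) ∧ marksB T (O \ D) = marksB T O ∧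
      ((insideO z₀ T S O).card : ℝ) ≤
        ((n : ℝ) ^ D.card * ∏ i ∈ D, rate q Q (T.low i) ^ (T.b i).card) * (insideO z₀ T S (O \ D)).card := by
  classical
  set C := cl T.o (marksB T O) with hC
  have hsub : C ⊆ O := cl_subset hO (filter_subset _ _)
  have hne' : (O \ C).Nonempty := by
    rw [Finset.sdiff_nonempty]
    exact fun h => hne (hsub.antisymm h)
  obtain ⟨i₀, hi₀, hmax⟩ := Finset.exists_max_image _ (fun i => rk (blk i)) hne'
  obtain ⟨hi₀O, hi₀C⟩ := mem_sdiff.1 hi₀
  set r := blk i₀ with hr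
  set D := (univ : Finset (Fin w)).filter fun i => blk i = r with hD
  have hmemD : ∀ {i}, i ∈ D ↔ blk i = r := by simp [hD]
  have hblock : ∀ {P : Finset (Fin w)}, Closed T.o P → ∀ i, blk i = r → i ∈ P → ∀ j, blk j = r →
      j ∈ P := by
    intro P hP i hi hiP j hj
    have hrP : r ∈ P := by
      by_cases h : blk i = i
      · rwa [← hi, h]
      · exact hi ▸ hP i hiP (hlay.up i h)
    by_cases h : blk j = j
    · rwa [← h, hj]
    · exact hP r hrP (hj ▸ hlay.down j h)
  have hDO : D ⊆ O := fun j hj => hblock hO i₀ rfl hi₀O j (hmemD.1 hj)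
  have hDC : ∀ j ∈ D, j ∉ C := fun j hj hjC =>
    hi₀C (hblock (closed_cl _ _) j (hmemD.1 hj) hjC i₀ rfl)
  have hclosed : Closed T.o (O \ D) := by
    intro j hj l hl
    obtain ⟨hjO, hjD⟩ := mem_sdiff.1 hj
    refine mem_sdiff.2 ⟨hO j hjO hl, fun hlD => ?_⟩
    by_cases hjC : j ∈ C
    · exact hDC l hlD (closed_cl _ _ j hjC hl)
    · have h1 := hmax j (mem_sdiff.2 ⟨hjO, hjC⟩)
      rcases hlay.desc j l hl with h | h
      · exact hjD (hmemD.2 (h.symm.trans (hmemD.1 hlD)))
      · rw [hmemD.1 hlD] at h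
        omega
  have hflag : ∀ i, blk i = r → T.flag i = false := by
    intro i hi
    by_contra h
    exact hDC i (hmemD.2 hi) (subset_cl _ _ (mem_filter.2 ⟨hDO (hmemD.2 hi), by simpa using h⟩))
  refine ⟨D, hDO, ⟨i₀, hmemD.2 rfl⟩, hclosed, ?_, ?_⟩
  · ext j
    simp only [marksB, mem_filter, mem_sdiff]
    exact ⟨fun h => ⟨h.1.1, h.2⟩, fun h => ⟨⟨h.1, fun hjD => by
      have := hflag j (hmemD.1 hjD)
      rw [this] at h
      simp at h⟩, h.2⟩⟩
  · set res : (Fin w → Fin n) → (Fin w → Fin n) := fun φ i => if i ∈ D then z₀ else φ i with hres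
    have hres' : ∀ (φ : Fin w → Fin n), ∀ i, i ∉ D → res φ i = φ i := fun φ i hi => by
      simp [hres, hi]
    have hmaps : ∀ φ ∈ insideO z₀ T S O, res φ ∈ insideO z₀ T S (O \ D) := by
      intro φ hφ
      obtain ⟨h1, h2⟩ := mem_filter.1 hφ
      obtain ⟨h3, h4⟩ := (mem_filter.1 h1).2
      refine mem_filter.2 ⟨mem_filter.2 ⟨mem_univ _, fun a ha b hb e => ?_, fun a ha => ?_⟩, ?_⟩
      · obtain ⟨ha1, ha2⟩ := mem_sdiff.1 (mem_coe.1 ha)
        obtain ⟨hb1, hb2⟩ := mem_sdiff.1 (mem_coe.1 hb)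
        rw [hres' φ a ha2, hres' φ b hb2] at e
        exact h3 ha1 hb1 e
      · by_cases haD : a ∈ D
        · simp [hres, haD]
        · rw [hres' φ a haD]
          exact h4 a fun h => ha (mem_sdiff.2 ⟨h, haD⟩)
      · intro u hu
        obtain ⟨j, hj, rfl⟩ := mem_image.1 hu
        have hnot : ∀ l ∈ T.o j, res φ l = φ l := fun l hl =>
          hres' φ l (mem_sdiff.1 (hclosed j hj hl)).2
        have heq : unitOf T (res φ) j = unitOf T φ j := by
          simp only [unitOf, BUnit.mk.injEq]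
          exact ⟨hres' φ j (mem_sdiff.1 hj).2,
            Finset.image_congr fun l hl => hnot l (mem_union_left _ hl),
            Finset.image_congr fun l hl => hnot l (mem_union_right _ hl), trivial, trivial⟩
        rw [heq]
        exact h2 (mem_image_of_mem _ (mem_sdiff.1 hj).1)
    rw [Finset.card_eq_sum_card_fiberwise hmaps, Nat.cast_sum, mul_comm _ (_ : ℝ), ← nsmul_eq_mul,
      ← sum_const]
    refine Finset.sum_le_sum fun ψ _ => le_trans (Nat.cast_le.2 (card_le_card ?_)) (hext r ψ hflag)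
    intro φ hφ
    obtain ⟨h1, h2⟩ := mem_filter.1 hφ
    obtain ⟨h3, h4⟩ := mem_filter.1 h1
    refine mem_filter.2 ⟨mem_univ _, fun i hi => ?_, fun i j hi hj e => ?_, fun i hi => ?_⟩
    · rw [← h2, hres' φ i fun h => hi (hmemD.1 h)]
    · have hin : ∀ k, (blk k = r ∨ ∃ l, blk l = r ∧ k ∈ T.o l) → k ∈ O := fun k hk => by
        rcases hk with hk | ⟨l, hl, hkl⟩
        · exact hDO (hmemD.2 hk)
        · exact hO l (hDO (hmemD.2 hl)) hkl
      exact (mem_filter.1 h3).2.1 (hin i hi) (hin j hj) e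
    · exact hS (h4 (mem_image_of_mem _ (hDO (hmemD.2 hi))))

/-- The sum over the old sets of a step. -/
theorem pattern_sum (T : Roles w) {lam : ℝ} (hlam : 0 < lam) {M : ℝ} (hM : 0 < M)
    (hq' : 0 ≤ q) (hQ : 0 ≤ Q) {O : Finset (Fin w)} (hcov : cl T.o (marksB T O) = O) :
    ∑ O' ∈ (O.powerset.filter (Closed T.o)).erase O,
      bd n T lam q Q O' * (n : ℝ) ^ (O \ O').card *
        ((lam / M) ^ (marksB T (O \ O')).card * ∏ i ∈ O \ O', rate q Q (T.low i) ^ (T.b i).card) ≤
      bd n T lam q Q O * ((1 + 1 / M) ^ (marksB T O).card - 1) := by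
  classical
  set V := marksB T O with hV
  set Ts := (O.powerset.filter (Closed T.o)).erase O with hTs
  have hTs' : ∀ O' ∈ Ts, O' ≠ O ∧ O' ⊆ O ∧ Closed T.o O' := fun O' h => by
    obtain ⟨h1, h2⟩ := mem_erase.1 h
    exact ⟨h1, mem_powerset.1 (mem_filter.1 h2).1, (mem_filter.1 h2).2⟩
  have hclA : ∀ O' ∈ Ts, cl T.o (marksB T O') ⊆ O' := fun O' h =>
    cl_subset (hTs' O' h).2.2 (filter_subset _ _)
  have hterm : ∀ O' ∈ Ts,
      bd n T lam q Q O' * (n : ℝ) ^ (O \ O').card *
        ((lam / M) ^ (marksB T (O \ O')).card * ∏ i ∈ O \ O', rate q Q (T.low i) ^ (T.b i).card) =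
      bd n T lam q Q O * ((1 / M) ^ (V.card - (marksB T O').card) *
        (1 / 2) ^ (O.card - (cl T.o (marksB T O')).card)) := by
    intro O' hO'
    obtain ⟨-, hsub, hcl⟩ := hTs' O' hO'
    have hn : (n : ℝ) ^ O.card = n ^ O'.card * n ^ (O \ O').card := by
      rw [← pow_add, ← card_union_of_disjoint disjoint_sdiff, union_sdiff_of_subset hsub]
    have hmk : V.card = (marksB T O').card + (marksB T (O \ O')).card := by
      rw [hV, marksB, marksB, marksB, ← card_union_of_disjoint
        (disjoint_filter_filter disjoint_sdiff), ← filter_union, union_sdiff_of_subset hsub]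
    obtain ⟨f, hf⟩ := Nat.exists_eq_add_of_le (card_le_card ((hclA O' hO').trans hsub))
    simp only [bd, ← hV, hcov]
    rw [← Finset.prod_sdiff hsub (f := fun i => rate q Q (T.low i) ^ (T.b i).card), hn, hmk,
      Nat.add_sub_cancel_left, hf, Nat.add_sub_cancel_left, pow_add lam, pow_add (2 : ℝ)]
    simp only [div_pow, one_pow]
    field_simp
  rw [Finset.sum_congr rfl hterm, ← Finset.mul_sum]
  refine mul_le_mul_of_nonneg_left ?_ (bd_nonneg T hlam.le hq' hQ _)
  have hmaps : ∀ O' ∈ Ts, marksB T O' ∈ V.powerset.erase V := by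
    intro O' hO'
    obtain ⟨hne, hsub, hcl⟩ := hTs' O' hO'
    refine mem_erase.2 ⟨fun e => hne ?_, mem_powerset.2 (filter_subset_filter _ hsub)⟩
    refine hsub.antisymm (hcov ▸ cl_subset hcl ?_)
    exact e ▸ filter_subset _ _
  rw [← Finset.sum_fiberwise_of_maps_to hmaps]
  have herase : ∑ A ∈ V.powerset.erase V, (1 / M) ^ (V.card - A.card) =
      (1 + 1 / M) ^ V.card - 1 := by
    rw [Finset.sum_erase_eq_sub (mem_powerset.2 subset_rfl), Nat.sub_self, pow_zero,
      show (1 + 1 / M) ^ V.card =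
        ∑ A ∈ V.powerset, (1 : ℝ) ^ A.card * (1 / M) ^ (V.card - A.card) by
          rw [Finset.sum_pow_mul_eq_add_pow]]
    simp
  rw [← herase]
  refine Finset.sum_le_sum fun A _ => ?_
  set G := Ts.filter fun O' => marksB T O' = A with hG
  rcases G.eq_empty_or_nonempty with h | ⟨O₁, hO₁⟩
  · rw [h, sum_empty]; positivity
  have hAO : cl T.o A ⊆ O :=
    (mem_filter.1 hO₁).2 ▸ (hclA _ (mem_filter.1 hO₁).1).trans (hTs' _ (mem_filter.1 hO₁).1).2.1
  have hcard : (G.card : ℝ) ≤ 2 ^ (O.card - (cl T.o A).card) := by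
    have h1 : G.card ≤ (O \ cl T.o A).powerset.card := by
      refine Finset.card_le_card_of_injOn (fun O' => O' \ cl T.o A) ?_ ?_
      · intro O' hO'
        exact mem_coe.2 (mem_powerset.2 (sdiff_subset_sdiff
          (hTs' _ (mem_filter.1 (mem_coe.1 hO')).1).2.1 subset_rfl))
      · intro O' hO' O'' hO'' e
        obtain ⟨h1, h2⟩ := mem_filter.1 (mem_coe.1 hO')
        obtain ⟨h3, h4⟩ := mem_filter.1 (mem_coe.1 hO'')
        have a1 : cl T.o A ⊆ O' := h2 ▸ hclA _ h1
        have a2 : cl T.o A ⊆ O'' := h4 ▸ hclA _ h3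
        simp only at e
        rw [← Finset.sdiff_union_of_subset a1, e, Finset.sdiff_union_of_subset a2]
    rw [card_powerset, card_sdiff_of_subset hAO] at h1
    exact_mod_cast h1
  rw [Finset.sum_congr rfl (g := fun _ => (1 / M) ^ (V.card - A.card) *
    (1 / 2 : ℝ) ^ (O.card - (cl T.o A).card)) (fun O' hO' => by rw [(mem_filter.1 hO').2]), sum_const,
    nsmul_eq_mul]
  calc (G.card : ℝ) * ((1 / M) ^ (V.card - A.card) * (1 / 2) ^ (O.card - (cl T.o A).card))
      ≤ 2 ^ (O.card - (cl T.o A).card) *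
          ((1 / M) ^ (V.card - A.card) * (1 / 2) ^ (O.card - (cl T.o A).card)) :=
        mul_le_mul_of_nonneg_right hcard (by positivity)
    _ = (1 / M) ^ (V.card - A.card) * (2 * (1 / 2)) ^ (O.card - (cl T.o A).card) := by
        rw [mul_pow]; ring
    _ = _ := by norm_num

/-- The weight of a unit in a sequence. -/
noncomputable def unitW (wt q Q : ℝ) (u : BUnit n) : ℝ :=
  (if MarkB u then wt else 1) * rate q Q u.low ^ u.out.card

theorem wprod_unitW (wt q Q : ℝ) (J : Finset (BUnit n)) :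
    wprod (unitW wt q Q) J = wt ^ (J.filter MarkB).card * ∏ u ∈ J, rate q Q u.low ^ u.out.card := by
  simp only [wprod, unitW, Finset.prod_mul_distrib]
  rw [← Finset.prod_filter, prod_const]

theorem unitW_inv (wt q Q : ℝ) (σ : Equiv.Perm (Fin n)) (u : BUnit n) :
    unitW wt q Q (bAct n σ u) = unitW wt q Q u := by
  simp only [unitW, MarkB, bAct_apply, card_image_of_injective _ σ.injective]; congr 2

/-- The host of the units. -/
structure Host (q : ℝ) (S : Finset (BUnit n)) : Prop where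
  inj : Set.InjOn BUnit.root (S : Set (BUnit n))
  hyp : ∀ J ⊆ S, 1 / 2 ≤ ((orb (bAct n) J).card : ℝ) * ∏ u ∈ J, q ^ u.out.card

theorem Host.good_card {S₀ : Finset (BUnit n)} (hH : Host q S₀)
    {S : Finset (BUnit n)} (hS : S ⊆ S₀) {Js : Finset (Finset (BUnit n))}
    (hJs : ∀ J ∈ Js, J ⊆ S ∧ Good J) : Js.card ≤ 2 ^ (S.filter MarkB).card := by
  rw [← card_powerset]
  refine Finset.card_le_card_of_injOn (fun J => J.filter MarkB) ?_ ?_
  · intro J hJ
    exact mem_coe.2 (mem_powerset.2 (filter_subset_filter _ (hJs J hJ).1))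
  · intro J hJ K hK e
    obtain ⟨h1, h2⟩ := hJs J hJ
    obtain ⟨h3, h4⟩ := hJs K hK
    simp only at e
    have hi := hH.inj.mono (coe_subset.2 hS)
    exact (good_unique hi h1 h3 h2 h4 (e ▸ filter_subset _ _)).antisymm
      (good_unique hi h3 h1 h4 h2 (e.symm ▸ filter_subset _ _))

theorem owned_zero (z₀ : Fin n) (T : Roles w)
    {S₀ : Finset (BUnit n)} (hH : Host q S₀) (hq : 0 ≤ q) (hqQ : q ≤ Q)
    {S : Finset (BUnit n)} (hSH : S ⊆ S₀) (hS : (S.filter MarkB).card ≤ 1)
    {O : Finset (Fin w)} (hO : Closed T.o O) (hcov : cl T.o (marksB T O) = O)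
    (hv : 0 < (marksB T O).card) {lam : ℝ} (hlam : 2 ≤ lam) :
    ((insideO z₀ T S O).card : ℝ) ≤ bd n T lam q Q O := by
  classical
  have hQ : 0 ≤ Q := hq.trans hqQ
  rcases (insideO z₀ T S O).eq_empty_or_nonempty with h | ⟨φ₀, hφ₀⟩
  · rw [h, card_empty, Nat.cast_zero]
    exact bd_nonneg T (by linarith) hq hQ O
  obtain ⟨h0e, h0S⟩ := mem_filter.1 hφ₀
  set U₀ := unitsO T O φ₀ with hU₀
  have hfull : ∀ φ ∈ insideO z₀ T S O, (unitsO T O φ).filter MarkB = S.filter MarkB := by
    intro φ hφ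
    obtain ⟨he, hsub⟩ := mem_filter.1 hφ
    refine eq_of_subset_of_card_le (filter_subset_filter _ hsub) ?_
    rw [marks_units he]
    omega
  have hconst : ∀ φ ∈ insideO z₀ T S O, unitsO T O φ = U₀ := by
    intro φ hφ
    obtain ⟨he, hsub⟩ := mem_filter.1 hφ
    have hi := hH.inj.mono (coe_subset.2 hSH)
    have g1 := good_units (φ := φ) hO hcov
    have g2 := good_units (φ := φ₀) hO hcov
    refine (good_unique hi hsub h0S g1 g2 ?_).antisymm
      (good_unique hi h0S hsub g2 g1 ?_)
    · rw [hfull φ hφ, ← hfull φ₀ hφ₀]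
      exact filter_subset _ _
    · rw [hfull φ₀ hφ₀, ← hfull φ hφ]
      exact filter_subset _ _
  have hfib : ∀ U ∈ orb (bAct n) U₀, (insideO z₀ T S O).card ≤
      ((emO z₀ O).filter fun φ => unitsO T O φ = U).card := by
    intro U hU
    obtain ⟨σ, rfl⟩ := (mem_orb _).1 hU
    refine card_le_card_of_injOn (moveO z₀ O σ) ?_ ?_
    · intro φ hφ
      obtain ⟨he, -⟩ := mem_filter.1 (mem_coe.1 hφ)
      refine mem_coe.2 (mem_filter.2 ⟨moveO_mem σ he, ?_⟩)
      rw [unitsO_move hO, hconst φ (mem_coe.1 hφ)]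
    · intro φ hφ ψ hψ e
      rw [← moveO_inv σ (mem_filter.1 (mem_coe.1 hφ)).1, e,
        moveO_inv σ (mem_filter.1 (mem_coe.1 hψ)).1]
  have hcount : (insideO z₀ T S O).card * (orb (bAct n) U₀).card ≤ n ^ O.card := by
    refine le_trans ?_ (card_emO_le z₀ O)
    rw [mul_comm, ← smul_eq_mul, ← sum_const]
    refine (Finset.sum_le_sum hfib).trans ?_
    rw [← card_biUnion fun a _ b _ hab => disjoint_filter.2 fun φ _ e1 e2 => hab (e1.symm.trans e2)]
    exact card_le_card (biUnion_subset.2 fun _ _ => filter_subset _ _)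
  have hyp := hH.hyp U₀ (h0S.trans hSH)
  have hprod : ∏ u ∈ U₀, rate q Q u.low ^ u.out.card = ∏ i ∈ O, rate q Q (T.low i) ^ (T.b i).card := by
    rw [hU₀, unitsO, Finset.prod_image (unitOf_injOn h0e)]
    exact Finset.prod_congr rfl fun i hi => by rw [card_snd_unitOf hO h0e hi]; rfl
  have hmono : ∏ u ∈ U₀, q ^ u.out.card ≤ ∏ u ∈ U₀, rate q Q u.low ^ u.out.card :=
    Finset.prod_le_prod (fun u _ => pow_nonneg hq _) fun u _ => pow_le_pow_left₀ hq (le_rate hqQ _) _
  rw [hprod] at hmono
  have hP : (0 : ℝ) ≤ ∏ i ∈ O, rate q Q (T.low i) ^ (T.b i).card := Finset.prod_nonneg fun _ _ => pow_nonneg (rate_nonneg hq hQ _) _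
  have hc : ((insideO z₀ T S O).card : ℝ) * (orb (bAct n) U₀).card ≤ (n : ℝ) ^ O.card := by
    exact_mod_cast hcount
  calc ((insideO z₀ T S O).card : ℝ) = (insideO z₀ T S O).card * 1 := (mul_one _).symm
    _ ≤ (insideO z₀ T S O).card *
        (2 * ((orb (bAct n) U₀).card * ∏ i ∈ O, rate q Q (T.low i) ^ (T.b i).card)) := by
        refine mul_le_mul_of_nonneg_left ?_ (Nat.cast_nonneg _)
        linarith [mul_le_mul_of_nonneg_left hmono (Nat.cast_nonneg (α := ℝ) (orb (bAct n) U₀).card)]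
    _ = ((insideO z₀ T S O).card * (orb (bAct n) U₀).card : ℝ) *
        (2 * ∏ i ∈ O, rate q Q (T.low i) ^ (T.b i).card) := by ring
    _ ≤ (n : ℝ) ^ O.card * (2 * ∏ i ∈ O, rate q Q (T.low i) ^ (T.b i).card) :=
        mul_le_mul_of_nonneg_right hc (by positivity)
    _ ≤ (n : ℝ) ^ O.card * (lam ^ (marksB T O).card * 2 ^ (cl T.o (marksB T O)).card *
        ∏ i ∈ O, rate q Q (T.low i) ^ (T.b i).card) := by
        refine mul_le_mul_of_nonneg_left (mul_le_mul_of_nonneg_right ?_ hP) (by positivity)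
        refine hlam.trans ?_
        refine (le_self_pow₀ (by linarith) hv.ne').trans (le_mul_of_one_le_right (by positivity) ?_)
        exact one_le_pow₀ one_le_two
    _ = _ := by rw [bd]; ring

set_option maxHeartbeats 1600000 in
/-- One scale of marks. -/
theorem owned_step (z₀ : Fin n) (T : Roles w)
    {S₀ : Finset (BUnit n)} (hH : Host q S₀) (hq : 0 < q) (hqQ : q ≤ Q)
    (hR : 0 < R) {r : ℕ} {S : Finset (BUnit n)} (hSH : S ⊆ S₀)
    (hS : (S.filter MarkB).card ≤ 2 ^ (r + 1)) (hS' : 2 ^ r < (S.filter MarkB).card)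
    {O : Finset (Fin w)} (hO : Closed T.o O) (hcov : cl T.o (marksB T O) = O)
    (hv : 0 < (marksB T O).card)
    (prev : ∀ J ⊆ S₀, (J.filter MarkB).card ≤ 2 ^ r →
      ((insideO z₀ T J O).card : ℝ) ≤ bd n T (2 ^ 14 * R * exp (2 * r / R)) q Q O)
    (ihO : ∀ O' ⊂ O, Closed T.o O' → ((insideO z₀ T S O').card : ℝ) ≤
      bd n T (2 ^ 14 * R * exp (2 * ((r + 1 : ℕ) : ℝ) / R)) q Q O') :
    ((insideO z₀ T S O).card : ℝ) ≤
      bd n T (2 ^ 14 * R * exp (2 * ((r + 1 : ℕ) : ℝ) / R)) q Q O := by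
  classical
  have hQ0 : 0 < Q := lt_of_lt_of_le hq hqQ
  have hR' : (0 : ℝ) < R := by exact_mod_cast hR
  set lam : ℝ := 2 ^ 14 * R * exp (2 * ((r + 1 : ℕ) : ℝ) / R) with hlam
  set lam' : ℝ := 2 ^ 14 * R * exp (2 * (r : ℝ) / R) with hlam'
  have hlr : lam = lam' * exp (2 / R) := by
    rw [hlam, hlam', show 2 * ((r + 1 : ℕ) : ℝ) / R = 2 * (r : ℝ) / R + 2 / R by push_cast; ring,
      exp_add]
    ring
  have hlam'0 : 0 < lam' := by positivity
  have hlam0 : 0 < lam := by positivity
  by_contra hcon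
  rw [not_le] at hcon
  set v := (marksB T O).card with hvdef
  set m := (S.filter MarkB).card with hm
  set P : ℝ := bd n T lam q Q O with hP
  set c : ℝ := ((insideO z₀ T S O).card : ℝ) with hc
  have hc0 : 0 < c := lt_of_le_of_lt (bd_nonneg T hlam0.le hq.le hQ0.le O) hcon
  have hm0 : 0 < m := lt_of_le_of_lt (Nat.zero_le _) hS'
  have hvm : v ≤ m := by
    obtain ⟨φ, hφ⟩ : (insideO z₀ T S O).Nonempty :=
      card_pos.1 (by rw [hc] at hc0; exact_mod_cast hc0)
    obtain ⟨h1, h2⟩ := mem_filter.1 hφ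
    rw [hvdef, ← marks_units h1]
    exact card_le_card (filter_subset_filter _ h2)
  set k := (m * R + v - 1) / v with hk
  have hk1 : m * R ≤ k * v := by
    have := Nat.lt_div_mul_add hv (a := m * R + v - 1)
    rw [← hk] at this
    omega
  have hk2 : k * v ≤ 2 * (m * R) := by
    have h1 := Nat.div_mul_le_self (m * R + v - 1) v
    rw [← hk] at h1
    have : m ≤ m * R := Nat.le_mul_of_pos_right m hR
    omega
  set wt : ℝ := lam / R with hwt
  have hwt0 : 0 < wt := by positivity
  set W : BUnit n → ℝ := unitW wt q Q with hW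
  have hWpos : ∀ u, 0 < W u := fun u => by
    have := rate_pos hq hQ0 u.low
    rw [hW, unitW]; split_ifs <;> positivity
  set shapes : Finset (Finset (BUnit n)) :=
    (S.powerset.biUnion fun J => orb (bAct n) J).filter (Good) with hshapes
  have mem_shapes : ∀ {U}, U ∈ shapes ↔ (∃ g, tr (bAct n) g U ⊆ S) ∧ Good U := by
    intro U
    simp only [hshapes, mem_filter, mem_biUnion, mem_powerset, mem_orb, and_congr_left_iff]
    intro _
    constructor
    · rintro ⟨J, hJ, g, rfl⟩
      exact ⟨g⁻¹, by rwa [tr_inv_tr]⟩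
    · rintro ⟨g, hg⟩
      exact ⟨_, hg, g⁻¹, tr_inv_tr (bAct n) g U⟩
  set ψ : Finset (BUnit n) → ℝ :=
    fun U => if U ∈ shapes then wprod W U else 0 with hψ
  set a : ℝ := c * (1 + 1 / (R : ℝ)) ^ v with ha
  have ha0 : 0 ≤ a := by positivity
  have hstep : ∀ U, Good U → ∑ φ ∈ emO z₀ O, ψ (U ∪ unitsO T O φ) ≤ a * ψ U := by
    intro U hUgood
    by_cases hU : U ∈ shapes
    swap
    · have : ∀ φ, ψ (U ∪ unitsO T O φ) = 0 := by
        intro φ
        rw [hψ]; dsimp only
        rw [if_neg]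
        intro h
        obtain ⟨⟨g, hg⟩, -⟩ := mem_shapes.1 h
        rw [tr_union] at hg
        exact hU (mem_shapes.2 ⟨⟨g, subset_union_left.trans hg⟩, hUgood⟩)
      rw [Finset.sum_eq_zero fun φ _ => this φ, hψ]
      simp [hU]
    obtain ⟨⟨g, hg⟩, -⟩ := mem_shapes.1 hU
    have htrans : ∀ O', Closed T.o O' →
        ((insideO z₀ T U O').card : ℝ) ≤ (insideO z₀ T S O').card := by
      intro O' hO'
      rw [← card_insideO_tr z₀ hO' g U]
      exact Nat.cast_le.2 (card_le_card fun φ hφ =>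
        mem_filter.2 ⟨(mem_filter.1 hφ).1, (mem_filter.1 hφ).2.trans hg⟩)
    set Sh := (emO z₀ O).filter (fun φ => U ∪ unitsO T O φ ∈ shapes) with hSh
    set old : (Fin w → Fin n) → Finset (Fin w) :=
      fun φ => O.filter fun i => unitOf T φ i ∈ U with hold
    set wg : Finset (Fin w) → ℝ := fun O' =>
      wt ^ (marksB T (O \ O')).card * ∏ i ∈ O \ O', rate q Q (T.low i) ^ (T.b i).card with hwg
    set Ts := O.powerset.filter (Closed T.o) with hTs
    have hclosed : ∀ φ ∈ Sh, old φ ∈ Ts := by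
      intro φ hφ
      refine mem_filter.2 ⟨mem_powerset.2 (filter_subset _ _), ?_⟩
      intro i hi j hj
      obtain ⟨-, hφs⟩ := mem_filter.1 hφ
      obtain ⟨⟨g', hg'⟩, -⟩ := mem_shapes.1 hφs
      obtain ⟨hiO, hiU⟩ := mem_filter.1 hi
      obtain ⟨u, hu, hu1⟩ := hUgood.1 _ hiU (φ j) (succs_unitOf T φ i ▸ mem_image_of_mem φ hj)
      refine mem_filter.2 ⟨hO i hiO hj, ?_⟩
      have h1 : tr (bAct n) g' (U ∪ unitsO T O φ) ⊆ S₀ := hg'.trans hSH
      have e : bAct n g' u = bAct n g' (unitOf T φ j) :=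
        hH.inj (mem_coe.2 (h1 (mem_map_of_mem _ (mem_union_left _ hu))))
          (mem_coe.2 (h1 (mem_map_of_mem _ (mem_union_right _
            (mem_image_of_mem _ (hO i hiO hj)))))) (congrArg g' hu1)
      rwa [(bAct n g').injective e] at hu
    have hval : ∀ φ ∈ Sh, ψ (U ∪ unitsO T O φ) = wprod W U * wg (old φ) := by
      intro φ hφ
      obtain ⟨hφe, hφs⟩ := mem_filter.1 hφ
      rw [hψ]; dsimp only
      rw [if_pos hφs, union_comm, wprod_union_sdiff, mul_comm]
      have hd : unitsO T O φ \ U = (O \ old φ).image (unitOf T φ) := by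
        ext u
        simp only [unitsO, hold, mem_sdiff, mem_image, mem_filter]
        constructor
        · rintro ⟨⟨i, hi, rfl⟩, hu⟩
          exact ⟨i, ⟨hi, fun h => hu h.2⟩, rfl⟩
        · rintro ⟨i, ⟨hi, h⟩, rfl⟩
          exact ⟨⟨i, hi, rfl⟩, fun hu => h ⟨hi, hu⟩⟩
      rw [hd]
      simp only [wprod]
      rw [Finset.prod_image ((unitOf_injOn hφe).mono (coe_subset.2 sdiff_subset))]
      refine congrArg (wprod W U * ·) ?_
      simp only [hW, hwg, unitW, marksB, Finset.prod_mul_distrib]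
      rw [← Finset.prod_filter, prod_const]
      refine congrArg₂ (· * ·) (congrArg (fun x => wt ^ x) (congrArg Finset.card
        (filter_congr fun i hi => ?_))) (Finset.prod_congr rfl fun i hi => ?_)
      · exact Iff.rfl
      · rw [card_snd_unitOf hO hφe (mem_sdiff.1 hi).1]; rfl
    have hfib : ∀ O' ∈ Ts.erase O, ((Sh.filter fun φ => old φ = O').card : ℝ) ≤
        bd n T lam q Q O' * (n : ℝ) ^ (O \ O').card := by
      intro O' hO'
      obtain ⟨hne, hO'⟩ := mem_erase.1 hO'
      obtain ⟨hsub, hcl⟩ := mem_filter.1 hO'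
      rw [mem_powerset] at hsub
      refine le_trans ?_ (mul_le_mul_of_nonneg_right
        ((htrans O' hcl).trans (ihO O' (hsub.ssubset_of_ne hne) hcl)) (by positivity))
      have : (Sh.filter fun φ => old φ = O').card ≤
          (insideO z₀ T U O' ×ˢ (univ : Finset (↥(O \ O') → Fin n))).card := by
        refine Finset.card_le_card_of_injOn
          (fun φ => (fun i => if i ∈ O' then φ i else z₀, fun i => φ i)) ?_ ?_
        · intro φ hφ
          obtain ⟨h1, h2⟩ := mem_filter.1 (mem_coe.1 hφ)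
          obtain ⟨h3, h4⟩ := (mem_filter.1 (mem_filter.1 h1).1).2
          refine mem_coe.2 (mem_product.2 ⟨mem_filter.2 ⟨mem_filter.2 ⟨mem_univ _,
            fun x hx y hy e => ?_, fun x hx => if_neg hx⟩, ?_⟩, mem_univ _⟩)
          · simp only [if_pos (mem_coe.1 hx), if_pos (mem_coe.1 hy)] at e
            exact h3 (hsub hx) (hsub hy) e
          · intro u hu
            obtain ⟨i, hi, rfl⟩ := mem_image.1 hu
            have heq : unitOf T (fun j => if j ∈ O' then φ j else z₀) i = unitOf T φ i := by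
              simp only [unitOf, if_pos hi, BUnit.mk.injEq, true_and, and_true]
              exact ⟨Finset.image_congr fun l hl => if_pos (hcl i hi (mem_union_left _ hl)),
                Finset.image_congr fun l hl => if_pos (hcl i hi (mem_union_right _ hl))⟩
            rw [heq]
            rw [← h2] at hi
            exact (mem_filter.1 hi).2
        · intro φ hφ φ' hφ' e
          simp only [Prod.mk.injEq] at e
          have hp := (mem_filter.1 (mem_filter.1 (mem_filter.1 (mem_coe.1 hφ)).1).1).2.2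
          have hp' := (mem_filter.1 (mem_filter.1 (mem_filter.1 (mem_coe.1 hφ')).1).1).2.2
          funext i
          by_cases hi : i ∈ O'
          · simpa [hi] using congrFun e.1 i
          · by_cases hiO : i ∈ O
            · exact congrFun e.2 ⟨i, mem_sdiff.2 ⟨hiO, hi⟩⟩
            · rw [hp i hiO, hp' i hiO]
      simp only [card_product, card_univ, Fintype.card_fun, Fintype.card_fin,
        Fintype.card_coe] at this
      exact_mod_cast this
    have hfibO : ((Sh.filter fun φ => old φ = O).card : ℝ) ≤ c := by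
      refine le_trans ?_ (htrans O hO)
      refine Nat.cast_le.2 (card_le_card fun φ hφ => ?_)
      obtain ⟨h1, h2⟩ := mem_filter.1 hφ
      refine mem_filter.2 ⟨(mem_filter.1 h1).1, fun u hu => ?_⟩
      obtain ⟨i, hi, rfl⟩ := mem_image.1 hu
      rw [← h2] at hi
      exact (mem_filter.1 hi).2
    have hOTs : O ∈ Ts := mem_filter.2 ⟨mem_powerset.2 subset_rfl, hO⟩
    have hwgO : wg O = 1 := by simp [hwg, marksB]
    calc ∑ φ ∈ emO z₀ O, ψ (U ∪ unitsO T O φ)
        = ∑ φ ∈ Sh, wprod W U * wg (old φ) := by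
          rw [hSh, ← Finset.sum_congr rfl hval, Finset.sum_filter]
          refine Finset.sum_congr rfl fun φ _ => ?_
          split_ifs with h
          · rfl
          · rw [hψ]; dsimp only; rw [if_neg h]
      _ = wprod W U * ∑ O' ∈ Ts, ((Sh.filter fun φ => old φ = O').card : ℝ) * wg O' := by
          rw [← Finset.mul_sum, ← Finset.sum_fiberwise_of_maps_to hclosed]
          refine congrArg _ (Finset.sum_congr rfl fun O' _ => ?_)
          rw [Finset.sum_congr rfl fun φ hφ => by rw [(mem_filter.1 hφ).2], sum_const,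
            nsmul_eq_mul]
      _ ≤ wprod W U * a := by
          refine mul_le_mul_of_nonneg_left ?_ (wprod_pos hWpos U).le
          rw [← Finset.add_sum_erase Ts _ hOTs, hwgO, mul_one]
          have hps := pattern_sum (n := n) (Q := Q) T hlam0 hR' hq.le hQ0.le hcov
          have h1 : ∑ O' ∈ Ts.erase O, ((Sh.filter fun φ => old φ = O').card : ℝ) * wg O' ≤
              P * ((1 + 1 / (R : ℝ)) ^ v - 1) := by
            refine le_trans ?_ hps
            exact Finset.sum_le_sum fun O' h =>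
              mul_le_mul_of_nonneg_right (hfib O' h) (mul_nonneg (by positivity)
                (Finset.prod_nonneg fun i _ => pow_nonneg (rate_nonneg hq.le hQ0.le _) _))
          have h2 : (0 : ℝ) ≤ (1 + 1 / (R : ℝ)) ^ v - 1 :=
            sub_nonneg.2 (one_le_pow₀ (le_add_of_nonneg_right (by positivity)))
          rw [ha]
          linarith [mul_le_mul_of_nonneg_right hcon.le h2]
      _ = a * ψ U := by rw [hψ]; dsimp only; rw [if_pos hU, mul_comm]
  have hiter : ∀ (j : ℕ) (U), Good U → iterM T O (emO z₀ O) j ψ U ≤ a ^ j * ψ U := by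
    intro j
    induction j with
    | zero => intro U _; simp [iterM]
    | succ j ihj =>
      intro U hU
      calc iterM T O (emO z₀ O) (j + 1) ψ U
          ≤ ∑ φ ∈ emO z₀ O, a ^ j * ψ (U ∪ unitsO T O φ) :=
            Finset.sum_le_sum fun φ hφ => ihj _ (good_union hU (good_units hO hcov))
        _ ≤ a ^ j * (a * ψ U) := by
            rw [← Finset.mul_sum]
            exact mul_le_mul_of_nonneg_left (hstep U hU) (by positivity)
        _ = a ^ (j + 1) * ψ U := by ring
  have hgood0 : Good (∅ : Finset (BUnit n)) := by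
    constructor <;> simp
  set t : Finset (BUnit n) → ℝ :=
    fun J => iterM T O (emO z₀ O) k (hits J) ∅ with ht
  have ht0 : ∀ J, 0 ≤ t J := fun J => iterM_hits_nonneg _ _ _ _ _ _
  set Gd := S.powerset.filter (Good) with hGd
  have hGd' : ∀ J ∈ Gd, J ⊆ S ∧ Good J := fun J h =>
    ⟨mem_powerset.1 (mem_filter.1 h).1, (mem_filter.1 h).2⟩
  have hsplit : c ^ k ≤ ∑ J ∈ Gd, t J := by
    rw [hc, ← iterM_one T O (insideO z₀ T S O) k ∅]
    refine le_trans (iterM_mono T O _ (fun V => V ⊆ S ∧ Good V)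
      (fun U φ hφ hU => ⟨union_subset hU.1 (mem_filter.1 hφ).2,
        good_union hU.2 (good_units hO hcov)⟩)
      (g := fun V => ∑ J ∈ Gd, 1 * hits J V) ?_ k ∅ ⟨empty_subset _, hgood0⟩) (le_of_eq ?_)
    · intro V hV
      rw [Finset.sum_eq_single V]
      · simp [hits]
      · intro J _ hJ; simp [hits, Ne.symm hJ]
      · exact fun h => absurd (mem_filter.2 ⟨mem_powerset.2 hV.1, hV.2⟩) h
    · rw [iterM_linear]
      refine Finset.sum_congr rfl fun J hJ => ?_
      rw [one_mul, ht]
      exact iterM_hits_filter T O _ (hGd' J hJ).1 k ∅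
  have hall : ∑ J ∈ shapes, wprod W J * t J ≤ a ^ k := by
    rw [ht, ← iterM_linear T O (emO z₀ O) shapes (fun J => wprod W J) hits k ∅]
    refine le_trans (iterM_mono T O _ (fun _ => True) (fun _ _ _ _ => trivial) (g := ψ)
      (fun V _ => le_of_eq ?_) k ∅ trivial) ((hiter k ∅ hgood0).trans ?_)
    · simp [hits, hψ, Finset.sum_ite_eq, mul_ite]
    · refine mul_le_of_le_one_right (by positivity) ?_
      rw [hψ]; dsimp only
      split_ifs <;> simp [wprod_empty]
  have hqw : 1 / wt ≤ (1 / 2) ^ 14 := by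
    rw [hwt, one_div_div, div_le_iff₀ hlam0, hlam]
    have h1 : (1 : ℝ) ≤ exp (2 * ((r + 1 : ℕ) : ℝ) / R) := one_le_exp (by positivity)
    calc (R : ℝ) = R * 1 := (mul_one _).symm
      _ ≤ R * exp (2 * ((r + 1 : ℕ) : ℝ) / R) := mul_le_mul_of_nonneg_left h1 hR'.le
      _ = _ := by ring
  have hak : a ^ k ≤ c ^ k * 8 ^ m := by
    rw [ha, mul_pow, ← pow_mul]
    refine mul_le_mul_of_nonneg_left ?_ (by positivity)
    have h8 : exp 2 ≤ (8 : ℝ) := by
      have h1 := exp_one_lt_d9
      rw [show (2 : ℝ) = 1 + 1 by norm_num, exp_add]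
      nlinarith [exp_pos (1 : ℝ)]
    calc (1 + 1 / (R : ℝ)) ^ (v * k) ≤ exp (1 / R) ^ (v * k) :=
          pow_le_pow_left₀ (by positivity) (by linarith [add_one_le_exp (1 / (R : ℝ))]) _
      _ = exp (((v * k : ℕ) : ℝ) * (1 / R)) := (exp_nat_mul _ _).symm
      _ ≤ exp ((m : ℝ) * 2) := by
          refine exp_le_exp.2 ?_
          rw [mul_one_div, div_le_iff₀ hR']
          have : ((k * v : ℕ) : ℝ) ≤ ((2 * (m * R) : ℕ) : ℝ) := by exact_mod_cast hk2
          push_cast at this ⊢
          linarith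
      _ ≤ 8 ^ m := by rw [exp_nat_mul]; exact pow_le_pow_left₀ (exp_pos _).le h8 m
  set big := Gd.filter (fun J => 2 ^ r < (J.filter MarkB).card) with hbig
  set sml := Gd.filter (fun J => ¬ 2 ^ r < (J.filter MarkB).card) with hsml
  have hbc : (big.card : ℝ) ≤ 2 ^ m := by
    exact_mod_cast hH.good_card hSH fun J hJ => hGd' J (filter_subset _ _ hJ)
  have hsc : (sml.card : ℝ) ≤ 2 ^ m := by
    exact_mod_cast hH.good_card hSH fun J hJ => hGd' J (filter_subset _ _ hJ)
  have hB : ∑ J ∈ big, t J ≤ c ^ k / 2 := by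
    calc ∑ J ∈ big, t J
        ≤ ∑ J ∈ big, 2 * ((1 / 2) ^ (7 * m) * ∑ J' ∈ shapes, wprod W J' * t J') := by
          refine Finset.sum_le_sum fun J hJ => ?_
          obtain ⟨hJG, hJr⟩ := mem_filter.1 hJ
          obtain ⟨hJS, hJg⟩ := hGd' J hJG
          have htinv : ∀ J' ∈ orb (bAct n) J, t J' = t J := by
            intro J' hJ'
            obtain ⟨g, rfl⟩ := (mem_orb _).1 hJ'
            rw [ht]; dsimp only
            have := iterM_hits_tr T O z₀ hO g J k ∅
            rwa [tr_empty] at this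
          have hsumorb : ∑ J' ∈ orb (bAct n) J, wprod W J' * t J' =
              (orb (bAct n) J).card * (wprod W J * t J) := by
            rw [Finset.sum_congr rfl fun J' hJ' => by
                rw [htinv J' hJ', wprod_orb (bAct n) (unitW_inv wt q Q) hJ'],
              Finset.sum_const, nsmul_eq_mul]
          have hsub : ∑ J' ∈ orb (bAct n) J, wprod W J' * t J' ≤
              ∑ J' ∈ shapes, wprod W J' * t J' := by
            refine Finset.sum_le_sum_of_subset_of_nonneg ?_
              (fun J' _ _ => mul_nonneg (wprod_pos hWpos J').le (ht0 _))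
            intro J' hJ'
            obtain ⟨g, rfl⟩ := (mem_orb _).1 hJ'
            exact mem_shapes.2 ⟨⟨g⁻¹, by rwa [tr_inv_tr]⟩, good_tr g hJg⟩
          have hmono : ∏ u ∈ J, q ^ u.out.card ≤ ∏ u ∈ J, rate q Q u.low ^ u.out.card :=
            Finset.prod_le_prod (fun u _ => pow_nonneg hq.le _) fun u _ =>
              pow_le_pow_left₀ hq.le (le_rate hqQ _) _
          have hj : ∏ u ∈ J, rate q Q u.low ^ u.out.card ≤ (1 / 2) ^ (7 * m) * wprod W J := by
            have hlt : 7 * m ≤ 14 * (J.filter MarkB).card := by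
              rw [pow_succ] at hS
              omega
            calc ∏ u ∈ J, rate q Q u.low ^ u.out.card = (1 / wt) ^ (J.filter MarkB).card * wprod W J := by
                  rw [hW, wprod_unitW, ← mul_assoc, ← mul_pow, one_div_mul_cancel hwt0.ne',
                    one_pow, one_mul]
              _ ≤ _ := by
                  refine mul_le_mul_of_nonneg_right ?_ (wprod_pos hWpos J).le
                  refine (pow_le_pow_left₀ (by positivity) hqw _).trans ?_
                  rw [← pow_mul]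
                  exact pow_le_pow_of_le_one (by norm_num) (by norm_num) hlt
          have hyp' := hH.hyp J (hJS.trans hSH)
          have hy2 := mul_le_mul_of_nonneg_left (hmono.trans hj)
            (Nat.cast_nonneg (α := ℝ) (orb (bAct n) J).card)
          calc t J = 1 * t J := (one_mul _).symm
            _ ≤ (2 * (((orb (bAct n) J).card : ℝ) * ((1 / 2) ^ (7 * m) * wprod W J))) * t J :=
                mul_le_mul_of_nonneg_right (by linarith) (ht0 J)
            _ = 2 * ((1 / 2) ^ (7 * m) * ∑ J' ∈ orb (bAct n) J, wprod W J' * t J') := by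
                rw [hsumorb]; ring
            _ ≤ _ := by gcongr
      _ ≤ (2 ^ m : ℝ) * (2 * ((1 / 2) ^ (7 * m) * (c ^ k * 8 ^ m))) := by
          rw [Finset.sum_const, nsmul_eq_mul]
          refine mul_le_mul hbc ?_ ?_ (by positivity)
          · gcongr
            exact hall.trans hak
          · refine mul_nonneg zero_le_two (mul_nonneg (by positivity) ?_)
            exact Finset.sum_nonneg fun J _ => mul_nonneg (wprod_pos hWpos J).le (ht0 _)
      _ = 2 * c ^ k * (1 / 8) ^ m := by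
          have h3 : (8 : ℝ) ^ m * (1 / 2) ^ (7 * m) * 2 ^ m = (1 / 8) ^ m := by
            rw [pow_mul, ← mul_pow, ← mul_pow]; norm_num
          rw [← h3]; ring
      _ ≤ c ^ k / 2 := by
          have h4 : ((1 : ℝ) / 8) ^ m ≤ 1 / 8 :=
            pow_le_of_le_one (by norm_num) (by norm_num) hm0.ne'
          nlinarith [pow_pos hc0 k]
  set P' : ℝ := bd n T lam' q Q O with hP'
  have hP'0 : 0 ≤ P' := bd_nonneg T hlam'0.le hq.le hQ0.le O
  have hSm : ∑ J ∈ sml, t J ≤ 2 ^ m * P' ^ k := by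
    calc ∑ J ∈ sml, t J ≤ ∑ J ∈ sml, P' ^ k := by
          refine Finset.sum_le_sum fun J hJ => ?_
          obtain ⟨hJG, hJr⟩ := mem_filter.1 hJ
          exact (iterM_hits_le T O _ J k ∅).trans (pow_le_pow_left₀ (by positivity)
            (prev J ((hGd' J hJG).1.trans hSH) (not_lt.1 hJr)) k)
      _ ≤ 2 ^ m * P' ^ k := by
          rw [Finset.sum_const, nsmul_eq_mul]
          exact mul_le_mul_of_nonneg_right hsc (by positivity)
  have htot : c ^ k ≤ (2 ^ m * 2) * P' ^ k := by
    have := hsplit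
    rw [← Finset.sum_filter_add_sum_filter_not Gd (fun J => 2 ^ r < (J.filter MarkB).card),
      ← hbig, ← hsml] at this
    nlinarith
  have hfin : c ^ k ≤ (exp (2 / R) ^ v * P') ^ k := by
    refine htot.trans ?_
    rw [mul_pow (exp (2 / (R : ℝ)) ^ v) P' k]
    refine mul_le_mul_of_nonneg_right ?_ (pow_nonneg hP'0 k)
    rw [← pow_mul, ← exp_nat_mul]
    calc (2 : ℝ) ^ m * 2 ≤ 2 ^ m * 2 ^ m :=
          mul_le_mul_of_nonneg_left (le_self_pow₀ (show (1 : ℝ) ≤ 2 by norm_num) hm0.ne')
            (by positivity)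
      _ ≤ exp 2 ^ m := by
          rw [← mul_pow]
          refine pow_le_pow_left₀ (by norm_num) ?_ m
          rw [show (2 : ℝ) = 1 + 1 by norm_num, exp_add]
          nlinarith [exp_one_gt_d9]
      _ ≤ exp (((v * k : ℕ) : ℝ) * (2 / R)) := by
          rw [← exp_nat_mul]
          refine exp_le_exp.2 ?_
          rw [← mul_div_assoc, le_div_iff₀ hR']
          have : ((m * R : ℕ) : ℝ) ≤ ((k * v : ℕ) : ℝ) := by exact_mod_cast hk1
          push_cast at this ⊢
          linarith
  have hkpos : k ≠ 0 := by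
    intro h0
    rw [h0, zero_mul] at hk1
    have := Nat.mul_pos hm0 hR
    omega
  have hfinal := le_of_pow_le_pow_left₀ hkpos
    (mul_nonneg (pow_nonneg (exp_pos _).le _) hP'0) hfin
  have hPP : exp (2 / R) ^ v * P' = P := by
    rw [hP', hP, bd, bd, hlr, mul_pow, hvdef]
    ring
  rw [hPP] at hfinal
  linarith

/-- The bound at every scale. -/
theorem owned_le (z₀ : Fin n) (T : Roles w) {blk : Fin w → Fin w} {rk : Fin w → ℕ}
    (hlay : Layered T blk rk) {S₀ : Finset (BUnit n)} (hext : LowExt S₀ q Q T blk)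
    (hH : Host q S₀) (hq : 0 < q) (hqQ : q ≤ Q) (hR : 0 < R) :
    ∀ (r : ℕ) (S : Finset (BUnit n)), S ⊆ S₀ →
      (S.filter MarkB).card ≤ 2 ^ r → ∀ O, Closed T.o O →
      ((insideO z₀ T S O).card : ℝ) ≤ bd n T (2 ^ 14 * R * exp (2 * r / R)) q Q O := by
  classical
  have hQ0 : 0 < Q := lt_of_lt_of_le hq hqQ
  intro r
  induction r with
  | zero => exact fun S hSH hS O => covered 0 S hSH O fun O hO hcov hv _ =>
      owned_zero z₀ T hH hq.le hqQ hSH (by simpa using hS) hO hcov hv (by
        have hR1 : (1 : ℝ) ≤ R := by exact_mod_cast hR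
        simp only [Nat.cast_zero, mul_zero, zero_div, exp_zero, mul_one]
        linarith)
  | succ r ih =>
    intro S hSH hS O hO
    by_cases hsmall : (S.filter MarkB).card ≤ 2 ^ r
    · refine (ih S hSH hsmall O hO).trans (bd_mono T (by positivity) ?_ hq.le hQ0.le O)
      refine mul_le_mul_of_nonneg_left (exp_le_exp.2 ?_) (by positivity)
      gcongr
      exact Nat.le_succ r
    · exact covered (r + 1) S hSH O (fun O hO hcov hv ihO => owned_step z₀ T hH hq hqQ hR hSH hS
        (not_le.1 hsmall) hO hcov hv (fun J hJ hm => ih J hJ hm O hO) ihO) hO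
where
  covered (r : ℕ) (S : Finset (BUnit n)) (hSH : S ⊆ S₀) (O : Finset (Fin w))
      (key : ∀ O, Closed T.o O → cl T.o (marksB T O) = O → 0 < (marksB T O).card →
        (∀ O' ⊂ O, Closed T.o O' → ((insideO z₀ T S O').card : ℝ) ≤
          bd n T (2 ^ 14 * R * exp (2 * (r : ℝ) / R)) q Q O') →
        ((insideO z₀ T S O).card : ℝ) ≤ bd n T (2 ^ 14 * R * exp (2 * (r : ℝ) / R)) q Q O) :
      Closed T.o O → ((insideO z₀ T S O).card : ℝ) ≤
        bd n T (2 ^ 14 * R * exp (2 * (r : ℝ) / R)) q Q O := by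
    classical
    have hQ0 : 0 ≤ Q := hq.le.trans hqQ
    induction O using Finset.strongInduction with
    | _ O ihO =>
    intro hO
    by_cases hcl : cl T.o (marksB T O) = O
    · rcases Nat.eq_zero_or_pos (marksB T O).card with hv | hv
      · have hOe : O = ∅ := by
          rw [← hcl, card_eq_zero.1 hv]
          exact subset_empty.1
            (cl_subset (fun i hi => absurd hi (notMem_empty i)) subset_rfl)
        have hone : (insideO z₀ T S O).card ≤ 1 := by
          refine (card_le_card (filter_subset _ _)).trans ((card_emO_le z₀ O).trans ?_)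
          rw [hOe, card_empty, pow_zero]
        rw [bd, hcl, hv]
        subst hOe
        simpa using hone
      · exact key O hO hcl hv ihO
    · obtain ⟨D, hD, hDne, hcl', hmk, hle⟩ := peel_step z₀ hlay hSH hext hO hcl
      refine hle.trans ?_
      refine (mul_le_mul_of_nonneg_left (ihO _ (Finset.sdiff_ssubset hD hDne) hcl')
        (mul_nonneg (by positivity)
          (Finset.prod_nonneg fun i _ => pow_nonneg (rate_nonneg hq.le hQ0 _) _))).trans
        (le_of_eq ?_)
      rw [bd, bd, hmk, ← card_sdiff_add_card_eq_card hD, pow_add, ← Finset.prod_sdiff hD]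
      ring

/-- All scales together. -/
theorem owned_final (z₀ : Fin n) (T : Roles w) {blk : Fin w → Fin w} {rk : Fin w → ℕ}
    (hlay : Layered T blk rk) {S₀ : Finset (BUnit n)} (hext : LowExt S₀ q Q T blk)
    (hH : Host q S₀) (hq : 0 < q) (hqQ : q ≤ Q) (hR : 0 < R)
    (hS : (S₀.filter MarkB).card ≤ 2 ^ R) :
    ((insideO z₀ T S₀ univ).card : ℝ) ≤
      (2 ^ 17 * R : ℝ) ^ (marksB T (univ : Finset (Fin w))).card * 2 ^ w * (n : ℝ) ^ w *
        ∏ i, rate q Q (T.low i) ^ (T.b i).card := by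
  refine (owned_le z₀ T hlay hext hH hq hqQ hR R S₀ subset_rfl hS univ
    fun _ _ => subset_univ _).trans ?_
  have hQ0 : 0 ≤ Q := hq.le.trans hqQ
  have hR' : (0 : ℝ) < R := by exact_mod_cast hR
  rw [bd, card_univ, Fintype.card_fin]
  have h1 : (2 : ℝ) ^ 14 * R * exp (2 * R / R) ≤ 2 ^ 17 * R := by
    rw [mul_div_assoc, div_self hR'.ne', mul_one, show (2 : ℝ) = 1 + 1 by norm_num, exp_add]
    nlinarith [mul_le_mul exp_one_lt_d9.le exp_one_lt_d9.le (exp_pos (1 : ℝ)).le (by norm_num)]
  refine mul_le_mul_of_nonneg_right (mul_le_mul_of_nonneg_right ?_ (by positivity))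
    (Finset.prod_nonneg fun i _ => pow_nonneg (rate_nonneg hq.le hQ0 _) _)
  gcongr
  · exact one_le_two
  · simpa using card_le_univ (cl T.o (marksB T (univ : Finset (Fin w))))

end Main

end Vale.Agent.P064.Blk
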