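import Vale.Agent.P064.DenseMain

/-!
P064 for bounded maximum degree: a largest family of vertex-disjoint copies of a connected
pattern is small by the hypothesis, and few copies meet a given vertex.
-/

namespace Vale.Agent.P064

open Finset

variable {n w : ℕ}

/-- The pattern edges inside `O`. -/
def edgesIn (F : Finset (Sym2 (Fin w))) (O : Finset (Fin w)) : Finset (Sym2 (Fin w)) :=
  F.filter (· ∈ O.sym2)

/-- Maps of the pattern on `O` into `H0`, padded outside. -/
noncomputable def embsO (z₀ : Fin n) (H0 : Finset (Sym2 (Fin n))) (F : Finset (Sym2 (Fin w)))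
    (O : Finset (Fin w)) : Finset (Fin w → Fin n) :=
  (emO z₀ O).filter fun φ => ∀ e ∈ edgesIn F O, Sym2.map φ e ∈ H0

/-- No edge of the pattern leaves `O`. -/
def Sealed (F : Finset (Sym2 (Fin w))) (O : Finset (Fin w)) : Prop :=
  ∀ i j, s(i, j) ∈ F → i ∈ O → j ∈ O

theorem edgesIn_mono {F : Finset (Sym2 (Fin w))} {A B : Finset (Fin w)} (h : A ⊆ B) :
    edgesIn F A ⊆ edgesIn F B := fun e he => by
  obtain ⟨h1, h2⟩ := mem_filter.1 he
  exact mem_filter.2 ⟨h1, sym2_mono h h2⟩

/-- The component of a vertex. -/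
theorem exists_component (F : Finset (Sym2 (Fin w))) {O : Finset (Fin w)} (hO : Sealed F O)
    {i : Fin w} (hi : i ∈ O) : ∃ C ⊆ O, i ∈ C ∧ Sealed F C ∧
      ∀ A ⊆ C, A.Nonempty → A ≠ C → ∃ a ∈ A, ∃ b ∈ C \ A, s(a, b) ∈ F := by
  classical
  set C := univ.filter fun j => Relation.ReflTransGen (fun a b => s(a, b) ∈ F) i j with hC
  refine ⟨C, fun j hj => ?_, mem_filter.2 ⟨mem_univ _, .refl⟩, fun a b hab ha =>
    mem_filter.2 ⟨mem_univ _, (mem_filter.1 ha).2.tail hab⟩, fun A hA hne hproper => ?_⟩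
  · have h := (mem_filter.1 hj).2
    induction h with
    | refl => exact hi
    | tail h1 h2 ih => exact hO _ _ h2 (ih (mem_filter.2 ⟨mem_univ _, h1⟩))
  · by_contra hno
    push Not at hno
    have key : ∀ j, Relation.ReflTransGen (fun a b => s(a, b) ∈ F) i j → (i ∈ A ↔ j ∈ A) := by
      intro j h
      induction h with
      | refl => exact Iff.rfl
      | tail h1 h2 ih =>
        rename_i a b
        refine ih.trans ⟨fun ha => ?_, fun hb => ?_⟩
        · by_contra hb
          exact hno a ha b (mem_sdiff.2 ⟨mem_filter.2 ⟨mem_univ _, h1.tail h2⟩, hb⟩) h2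
        · by_contra ha
          exact hno b hb a (mem_sdiff.2 ⟨mem_filter.2 ⟨mem_univ _, h1⟩, ha⟩)
            (by rwa [Sym2.eq_swap])
    obtain ⟨x, hx⟩ := hne
    have hiA : i ∈ A := (key x (mem_filter.1 (hA hx)).2).2 hx
    exact hproper (hA.antisymm fun j hj => (key j (mem_filter.1 hj).2).1 hiA)

/-- A connected pattern grows by one edge at each vertex, each with at most `D` choices. -/
theorem grow {z₀ : Fin n} {H0 : Finset (Sym2 (Fin n))} {D : ℕ}
    (hD : ∀ x, ((univ : Finset (Fin n)).filter fun y => s(x, y) ∈ H0).card ≤ D)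
    (F : Finset (Sym2 (Fin w))) {C : Finset (Fin w)}
    (hconn : ∀ A ⊆ C, A.Nonempty → A ≠ C → ∃ a ∈ A, ∃ b ∈ C \ A, s(a, b) ∈ F)
    {i : Fin w} (hi : i ∈ C) (x : Fin n) :
    C.card - 1 ≤ (edgesIn F C).card ∧
      ((embsO z₀ H0 F C).filter fun φ => φ i = x).card ≤ D ^ (C.card - 1) := by
  classical
  have main : ∀ k, k + 1 ≤ C.card → ∃ A ⊆ C, i ∈ A ∧ A.card = k + 1 ∧ k ≤ (edgesIn F A).card ∧
      ((embsO z₀ H0 F A).filter fun φ => φ i = x).card ≤ D ^ k := by
    intro k
    induction k with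
    | zero =>
      intro _
      refine ⟨{i}, singleton_subset_iff.2 hi, mem_singleton_self i, card_singleton i,
        Nat.zero_le _, ?_⟩
      rw [pow_zero]
      refine card_le_one.2 fun φ hφ ψ hψ => funext fun j => ?_
      obtain ⟨h1, h2⟩ := mem_filter.1 hφ
      obtain ⟨h3, h4⟩ := mem_filter.1 hψ
      rcases eq_or_ne j i with rfl | hj
      · rw [h2, h4]
      · rw [(mem_filter.1 (mem_filter.1 h1).1).2.2 j (by simpa using hj),
          (mem_filter.1 (mem_filter.1 h3).1).2.2 j (by simpa using hj)]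
    | succ k ih =>
      intro hk
      obtain ⟨A, hA, hiA, hcard, hedge, hcount⟩ := ih (by omega)
      obtain ⟨a, ha, b, hb, hab⟩ := hconn A hA ⟨i, hiA⟩ (fun e => by rw [e] at hcard; omega)
      obtain ⟨hbC, hbA⟩ := mem_sdiff.1 hb
      refine ⟨insert b A, insert_subset hbC hA, mem_insert_of_mem hiA,
        by rw [card_insert_of_notMem hbA, hcard], ?_, ?_⟩
      · have hss : edgesIn F A ⊂ edgesIn F (insert b A) := by
          refine (ssubset_iff_of_subset (edgesIn_mono (subset_insert b A))).2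
            ⟨s(a, b), mem_filter.2 ⟨hab, mk_mem_sym2_iff.2 ⟨mem_insert_of_mem ha,
              mem_insert_self b A⟩⟩, fun h => hbA (mk_mem_sym2_iff.1 (mem_filter.1 h).2).2⟩
        have := card_lt_card hss
        omega
      set res : (Fin w → Fin n) → (Fin w → Fin n) := fun φ => Function.update φ b z₀ with hres
      have hmaps : ∀ φ ∈ (embsO z₀ H0 F (insert b A)).filter (fun φ => φ i = x),
          res φ ∈ (embsO z₀ H0 F A).filter (fun φ => φ i = x) := by
        intro φ hφ
        obtain ⟨h1, h2⟩ := mem_filter.1 hφ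
        obtain ⟨h3, h4⟩ := mem_filter.1 h1
        obtain ⟨h5, h6⟩ := (mem_filter.1 h3).2
        have hoff : ∀ j ∈ A, res φ j = φ j := fun j hj =>
          Function.update_of_ne (by rintro rfl; exact hbA hj) _ _
        refine mem_filter.2 ⟨mem_filter.2 ⟨mem_filter.2 ⟨mem_univ _, fun p hp q hq e => ?_,
          fun p hp => ?_⟩, fun e he => ?_⟩, by rw [hoff i hiA, h2]⟩
        · rw [hoff p hp, hoff q hq] at e
          exact h5 (mem_coe.2 (mem_insert_of_mem hp)) (mem_coe.2 (mem_insert_of_mem hq)) e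
        · rcases eq_or_ne p b with rfl | hpb
          · exact Function.update_self _ _ _
          · rw [hres]
            simp only [Function.update_of_ne hpb]
            exact h6 p (by simp [hpb, hp])
        · have heq : Sym2.map (res φ) e = Sym2.map φ e := Sym2.map_congr fun z hz =>
            hoff z (mem_sym2_iff.1 (mem_filter.1 he).2 z hz)
          rw [heq]
          exact h4 e (edgesIn_mono (subset_insert b A) he)
      rw [Finset.card_eq_sum_card_fiberwise hmaps]
      refine (Finset.sum_le_card_nsmul _ _ D fun ψ _ => ?_).trans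
        (by rw [smul_eq_mul, pow_succ]; exact Nat.mul_le_mul_right _ hcount)
      refine le_trans (card_le_card_of_injOn (fun φ => φ b) ?_ ?_) (hD (ψ a))
      · intro φ hφ
        obtain ⟨h1, h2⟩ := mem_filter.1 (mem_coe.1 hφ)
        refine mem_coe.2 (mem_filter.2 ⟨mem_univ _, ?_⟩)
        rw [← h2, show res φ a = φ a from Function.update_of_ne (by rintro rfl; exact hbA ha) _ _]
        have := (mem_filter.1 (mem_filter.1 h1).1).2 s(a, b) (mem_filter.2 ⟨hab,
          mk_mem_sym2_iff.2 ⟨mem_insert_of_mem ha, mem_insert_self b A⟩⟩)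
        simpa using this
      · intro φ hφ φ' hφ' e
        funext j
        rcases eq_or_ne j b with rfl | hj
        · exact e
        · have := congrFun ((mem_filter.1 (mem_coe.1 hφ)).2.trans
            (mem_filter.1 (mem_coe.1 hφ')).2.symm) j
          simpa [hres, Function.update_of_ne hj] using this
  have hC0 : 0 < C.card := card_pos.2 ⟨i, hi⟩
  obtain ⟨A, hA, -, hcard, hedge, hcount⟩ := main (C.card - 1) (by omega)
  obtain rfl : A = C := eq_of_subset_of_card_le hA (by omega)
  exact ⟨hedge, hcount⟩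

/-- The bound for one component. -/
theorem component_bound (z₀ : Fin n) {H0 : Finset (Sym2 (Fin n))} {q : ℝ} (hq : 0 < q)
    (hR : Rich q H0) {D : ℕ} (hD0 : 0 < D)
    (hD : ∀ x, ((univ : Finset (Fin n)).filter fun y => s(x, y) ∈ H0).card ≤ D)
    (F : Finset (Sym2 (Fin w))) {C : Finset (Fin w)}
    (hconn : ∀ A ⊆ C, A.Nonempty → A ≠ C → ∃ a ∈ A, ∃ b ∈ C \ A, s(a, b) ∈ F)
    (hne : C.Nonempty) :
    ((embsO z₀ H0 F C).card : ℝ) ≤
      (n : ℝ) ^ C.card * (24 * D * q) ^ (edgesIn F C).card := by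
  classical
  obtain ⟨i, hi⟩ := hne
  set E := embsO z₀ H0 F C with hE
  set e := (edgesIn F C).card with he
  have hedge : C.card - 1 ≤ e := (grow (z₀ := z₀) hD F hconn hi z₀).1
  rcases Nat.eq_zero_or_pos e with he0 | he0
  · rw [he0, pow_zero, mul_one]
    exact_mod_cast (card_le_card (filter_subset _ _)).trans (card_emO_le z₀ C)
  -- a largest family of disjoint copies
  obtain ⟨P, hP, hmax⟩ : ∃ P ∈ E.powerset.filter (fun P : Finset (Fin w → Fin n) =>
      (↑P : Set (Fin w → Fin n)).Pairwise fun φ ψ => Disjoint (C.image φ) (C.image ψ)),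
      ∀ P' ∈ E.powerset.filter (fun P : Finset (Fin w → Fin n) =>
        (↑P : Set (Fin w → Fin n)).Pairwise fun φ ψ => Disjoint (C.image φ) (C.image ψ)),
        P'.card ≤ P.card :=
    Finset.exists_max_image _ _ ⟨∅, mem_filter.2 ⟨empty_mem_powerset _, by simp⟩⟩
  obtain ⟨hPE, hPd⟩ := mem_filter.1 hP
  rw [mem_powerset] at hPE
  have hmeet : ∀ ψ ∈ E, ∃ φ ∈ P, ∃ a ∈ C, ∃ b ∈ C, ψ a = φ b := by
    intro ψ hψ
    by_contra hno
    push Not at hno
    have hψP : ψ ∉ P := fun h => hno ψ h i hi i hi rfl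
    have hdis : ∀ φ ∈ P, Disjoint (C.image ψ) (C.image φ) := fun φ hφ => by
      rw [Finset.disjoint_left]
      intro z hz hz'
      obtain ⟨a, ha, rfl⟩ := mem_image.1 hz
      obtain ⟨b, hb, h⟩ := mem_image.1 hz'
      exact hno φ hφ a ha b hb h.symm
    have := hmax (insert ψ P) (mem_filter.2 ⟨mem_powerset.2 (insert_subset hψ hPE), by
      rw [coe_insert]
      exact hPd.insert fun φ hφ _ => ⟨hdis φ hφ, (hdis φ hφ).symm⟩⟩)
    rw [card_insert_of_notMem hψP] at this
    omega
  have hEP : E.card ≤ P.card * (C.card * (C.card * D ^ e)) := by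
    refine le_trans (card_le_card (t := P.biUnion fun φ => C.biUnion fun a => C.biUnion fun b =>
      E.filter fun ψ => ψ a = φ b) ?_) ?_
    · intro ψ hψ
      obtain ⟨φ, hφ, a, ha, b, hb, h⟩ := hmeet ψ hψ
      exact mem_biUnion.2 ⟨φ, hφ, mem_biUnion.2 ⟨a, ha, mem_biUnion.2 ⟨b, hb,
        mem_filter.2 ⟨hψ, h⟩⟩⟩⟩
    · refine card_biUnion_le_card_mul _ _ _ fun φ _ => ?_
      refine card_biUnion_le_card_mul _ _ _ fun a ha => ?_
      refine card_biUnion_le_card_mul _ _ _ fun b _ => ?_
      exact ((grow (z₀ := z₀) hD F hconn ha (φ b)).2).trans (Nat.pow_le_pow_right hD0 hedge)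
  -- few disjoint copies
  set N := (emO z₀ C).card with hN
  have hNn : (N : ℝ) ≤ (n : ℝ) ^ C.card := by exact_mod_cast card_emO_le z₀ C
  have hPle : (P.card : ℝ) ≤ 6 * N * q ^ e := by
    set edgesOf : (Fin w → Fin n) → Finset (Sym2 (Fin n)) :=
      fun φ => (edgesIn F C).image (Sym2.map φ) with hedges
    set J := P.biUnion edgesOf with hJ
    have hJH : J ⊆ H0 := by
      intro e he
      obtain ⟨φ, hφ, he⟩ := mem_biUnion.1 he
      obtain ⟨e', he', rfl⟩ := mem_image.1 he
      exact (mem_filter.1 (hPE hφ)).2 e' he'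
    have hJc : J.card = P.card * e := by
      rw [hJ, card_biUnion, Finset.sum_congr rfl (g := fun _ => e), sum_const, smul_eq_mul]
      · intro φ hφ
        refine card_image_of_injOn fun a ha b hb h => ?_
        have hinj := (mem_filter.1 (mem_filter.1 (hPE hφ)).1).2.1
        have ha' := mem_sym2_iff.1 (mem_filter.1 (mem_coe.1 ha)).2
        have hb' := mem_sym2_iff.1 (mem_filter.1 (mem_coe.1 hb)).2
        induction a using Sym2.ind with
        | _ a₁ a₂ =>
          induction b using Sym2.ind with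
          | _ b₁ b₂ =>
            simp only [Sym2.mem_iff, forall_eq_or_imp, forall_eq] at ha' hb'
            rw [Sym2.map_mk, Sym2.map_mk] at h
            rcases Sym2.eq_iff.1 h with ⟨h1, h2⟩ | ⟨h1, h2⟩
            · exact Sym2.eq_iff.2 (Or.inl ⟨hinj ha'.1 hb'.1 h1, hinj ha'.2 hb'.2 h2⟩)
            · exact Sym2.eq_iff.2 (Or.inr ⟨hinj ha'.1 hb'.2 h1, hinj ha'.2 hb'.1 h2⟩)
      · intro φ hφ ψ hψ hne
        rw [Function.onFun, Finset.disjoint_left]
        intro z hz hz'
        obtain ⟨a, ha, rfl⟩ := mem_image.1 hz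
        obtain ⟨b, hb, h⟩ := mem_image.1 hz'
        have ha' := mem_sym2_iff.1 (mem_filter.1 ha).2
        have hb' := mem_sym2_iff.1 (mem_filter.1 hb).2
        induction a using Sym2.ind with
        | _ a₁ a₂ =>
          induction b using Sym2.ind with
          | _ b₁ b₂ =>
            have hmem : φ a₁ ∈ s(ψ b₁, ψ b₂) := by
              rw [← Sym2.map_mk, h, Sym2.map_mk]
              exact Sym2.mem_mk_left _ _
            refine Finset.disjoint_left.1 (hPd hφ hψ hne)
              (mem_image_of_mem φ (ha' a₁ (Sym2.mem_mk_left _ _))) ?_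
            rcases Sym2.mem_iff.1 hmem with h' | h' <;> rw [h']
            · exact mem_image_of_mem ψ (hb' b₁ (Sym2.mem_mk_left _ _))
            · exact mem_image_of_mem ψ (hb' b₂ (Sym2.mem_mk_right _ _))
    have horb : (orb (pairAct n) J).card ≤ N.choose P.card := by
      rw [hN, ← card_powersetCard]
      refine le_trans (card_le_card (t := ((emO z₀ C).powersetCard P.card).image
        fun T => T.biUnion edgesOf) ?_) card_image_le
      intro T hT
      obtain ⟨σ, rfl⟩ := (mem_orb _).1 hT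
      refine mem_image.2 ⟨P.image (moveO z₀ C σ), mem_powersetCard.2 ⟨?_, ?_⟩, ?_⟩
      · exact image_subset_iff.2 fun φ hφ => moveO_mem σ (mem_filter.1 (hPE hφ)).1
      · refine card_image_of_injOn fun φ hφ ψ hψ h => ?_
        rw [← moveO_inv σ (mem_filter.1 (hPE (mem_coe.1 hφ))).1, h,
          moveO_inv σ (mem_filter.1 (hPE (mem_coe.1 hψ))).1]
      · rw [tr_pairAct, hJ, image_biUnion, Finset.biUnion_image]
        refine Finset.biUnion_congr rfl fun φ _ => ?_
        rw [hedges]
        dsimp only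
        rw [Finset.image_image]
        refine Finset.image_congr fun e he => ?_
        rw [Function.comp_apply, Sym2.map_map]
        exact Sym2.map_congr fun z hz => if_pos (mem_sym2_iff.1 (mem_filter.1 he).2 z hz)
    by_contra hcon
    rw [not_le] at hcon
    set M : ℝ := (N : ℝ) * q ^ e with hM
    have hM0 : 0 ≤ M := by positivity
    have hP1 : 1 ≤ P.card := by
      by_contra h0
      rw [show P.card = 0 by omega, Nat.cast_zero] at hcon
      nlinarith
    have hhyp := hR J hJH
    rw [hJc, mul_comm P.card e, pow_mul] at hhyp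
    have hch : ((orb (pairAct n) J).card : ℝ) * (q ^ e) ^ P.card ≤
        M ^ P.card / (P.card.factorial : ℝ) := by
      rw [hM, mul_pow, le_div_iff₀ (by positivity)]
      calc ((orb (pairAct n) J).card : ℝ) * (q ^ e) ^ P.card * (P.card.factorial : ℝ)
          ≤ (N.choose P.card : ℝ) * (q ^ e) ^ P.card * (P.card.factorial : ℝ) := by
            gcongr
        _ ≤ (N : ℝ) ^ P.card / (P.card.factorial : ℝ) * (q ^ e) ^ P.card *
              (P.card.factorial : ℝ) := by
            gcongr
            exact Nat.choose_le_pow_div P.card N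
        _ = (N : ℝ) ^ P.card * (q ^ e) ^ P.card := by field_simp
    have hfac : ((P.card : ℝ) / 3) ^ P.card ≤ (P.card.factorial : ℝ) := by
      have h := Real.pow_div_factorial_le_exp (P.card : ℝ) (Nat.cast_nonneg _) P.card
      have hexp : Real.exp (P.card : ℝ) ≤ 3 ^ P.card := by
        rw [← mul_one (P.card : ℝ), Real.exp_nat_mul]
        exact pow_le_pow_left₀ (Real.exp_pos _).le (by linarith [Real.exp_one_lt_d9]) _
      rw [div_le_iff₀ (by positivity)] at h
      rw [div_pow, div_le_iff₀ (by positivity), mul_comm]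
      exact h.trans (mul_le_mul_of_nonneg_right hexp (by positivity))
    have hlt : M ^ P.card < (1 / 2) * (P.card.factorial : ℝ) := by
      refine lt_of_lt_of_le (pow_lt_pow_left₀ (show M < (P.card : ℝ) / 6 by linarith) hM0
        (by omega)) ?_
      calc ((P.card : ℝ) / 6) ^ P.card = (1 / 2) ^ P.card * ((P.card : ℝ) / 3) ^ P.card := by
            rw [← mul_pow]; ring
        _ ≤ (1 / 2) * (P.card.factorial : ℝ) :=
            mul_le_mul (pow_le_of_le_one (by norm_num) (by norm_num) (by omega)) hfac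
              (by positivity) (by norm_num)
    have h3 := hhyp.trans hch
    rw [le_div_iff₀ (by positivity)] at h3
    linarith
  have hw : C.card ≤ 2 ^ e := le_trans (by omega) (Nat.lt_two_pow_self)
  have hsmall : 6 * (C.card * C.card) ≤ 24 ^ e := by
    have h6 : 6 ≤ 6 ^ e := Nat.le_self_pow (by omega) 6
    have h4 : C.card * C.card ≤ 4 ^ e := by
      rw [show 4 = 2 * 2 by rfl, mul_pow]
      exact Nat.mul_le_mul hw hw
    calc 6 * (C.card * C.card) ≤ 6 ^ e * 4 ^ e := Nat.mul_le_mul h6 h4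
      _ = 24 ^ e := by rw [← mul_pow]; norm_num
  calc (E.card : ℝ) ≤ (P.card : ℝ) * ((C.card : ℝ) * ((C.card : ℝ) * (D : ℝ) ^ e)) := by
        exact_mod_cast hEP
    _ ≤ (6 * (n : ℝ) ^ C.card * q ^ e) * ((C.card : ℝ) * ((C.card : ℝ) * (D : ℝ) ^ e)) := by
        refine mul_le_mul_of_nonneg_right (hPle.trans ?_) (by positivity)
        gcongr
    _ = ((6 * (C.card * C.card) : ℕ) : ℝ) * ((n : ℝ) ^ C.card * ((D : ℝ) * q) ^ e) := by
        push_cast; rw [mul_pow]; ring
    _ ≤ ((24 ^ e : ℕ) : ℝ) * ((n : ℝ) ^ C.card * ((D : ℝ) * q) ^ e) :=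
        mul_le_mul_of_nonneg_right (Nat.cast_le.2 hsmall) (by positivity)
    _ = _ := by push_cast; rw [show (24 : ℝ) * D * q = 24 * (D * q) by ring, mul_pow 24]; ring

/-- A bound for connected patterns gives one for every pattern. -/
theorem embs_of_components (z₀ : Fin n) {H0 : Finset (Sym2 (Fin n))} {Q : ℝ} (hQ : 0 ≤ Q)
    (F : Finset (Sym2 (Fin w)))
    (hcomp : ∀ C : Finset (Fin w),
      (∀ A ⊆ C, A.Nonempty → A ≠ C → ∃ a ∈ A, ∃ b ∈ C \ A, s(a, b) ∈ F) → C.Nonempty →
        ((embsO z₀ H0 F C).card : ℝ) ≤ (n : ℝ) ^ C.card * Q ^ (edgesIn F C).card) :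
    ((embs H0 F).card : ℝ) ≤ (n : ℝ) ^ w * Q ^ F.card := by
  classical
  have main : ∀ O : Finset (Fin w), Sealed F O → ((embsO z₀ H0 F O).card : ℝ) ≤
      (n : ℝ) ^ O.card * Q ^ (edgesIn F O).card := by
    intro O
    induction O using Finset.strongInduction with
    | _ O ih =>
    intro hO
    rcases O.eq_empty_or_nonempty with rfl | ⟨i, hi⟩
    · have h0 : edgesIn F (∅ : Finset (Fin w)) = ∅ := by simp [edgesIn]
      rw [h0, card_empty, card_empty, pow_zero, pow_zero, one_mul]
      exact_mod_cast (card_le_card (filter_subset _ _)).trans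
        ((card_emO_le z₀ ∅).trans (by simp))
    obtain ⟨C, hC, hiC, hCs, hconn⟩ := exists_component F hO hi
    set O' := O \ C with hO'
    have hO's : Sealed F O' := fun a b hab ha => by
      obtain ⟨ha1, ha2⟩ := mem_sdiff.1 ha
      exact mem_sdiff.2 ⟨hO a b hab ha1,
        fun hb => ha2 (hCs b a (by rwa [Sym2.eq_swap]) hb)⟩
    have hlt : O' ⊂ O := (ssubset_iff_of_subset sdiff_subset).2
      ⟨i, hi, fun h => (mem_sdiff.1 h).2 hiC⟩
    have hsplit : (embsO z₀ H0 F O).card ≤
        (embsO z₀ H0 F C).card * (embsO z₀ H0 F O').card := by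
      rw [← card_product]
      refine card_le_card_of_injOn (fun φ => (moveO z₀ C 1 φ, moveO z₀ O' 1 φ)) ?_ ?_
      · intro φ hφ
        obtain ⟨h1, h2⟩ := mem_filter.1 (mem_coe.1 hφ)
        have hmem : ∀ A ⊆ O, moveO z₀ A 1 φ ∈ embsO z₀ H0 F A := by
          intro A hA
          refine mem_filter.2 ⟨mem_filter.2 ⟨mem_univ _, fun p hp r hr e => ?_,
            fun p hp => if_neg hp⟩, fun e he => ?_⟩
          · simp only [moveO, if_pos (mem_coe.1 hp), if_pos (mem_coe.1 hr)] at e
            exact (mem_filter.1 h1).2.1 (hA hp) (hA hr) (by simpa using e)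
          · rw [show Sym2.map (moveO z₀ A 1 φ) e = Sym2.map φ e from Sym2.map_congr fun z hz => by
              simp [moveO, mem_sym2_iff.1 (mem_filter.1 he).2 z hz]]
            exact h2 e (edgesIn_mono hA he)
        exact mem_coe.2 (mem_product.2 ⟨hmem C hC, hmem O' sdiff_subset⟩)
      · intro φ hφ ψ hψ e
        simp only [Prod.mk.injEq] at e
        funext j
        by_cases hjO : j ∈ O
        · by_cases hjC : j ∈ C
          · simpa [moveO, hjC] using congrFun e.1 j
          · simpa [moveO, hO', hjC, hjO] using congrFun e.2 j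
        · rw [(mem_filter.1 (mem_filter.1 (mem_coe.1 hφ)).1).2.2 j hjO,
            (mem_filter.1 (mem_filter.1 (mem_coe.1 hψ)).1).2.2 j hjO]
    have hedges : (edgesIn F C).card + (edgesIn F O').card ≤ (edgesIn F O).card := by
      rw [← card_union_of_disjoint]
      · exact card_le_card (union_subset (edgesIn_mono hC) (edgesIn_mono sdiff_subset))
      · rw [Finset.disjoint_left]
        intro e h1 h2
        induction e using Sym2.ind with
        | _ a b =>
          exact (mem_sdiff.1 (mk_mem_sym2_iff.1 (mem_filter.1 h2).2).1).2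
            ((mk_mem_sym2_iff.1 (mem_filter.1 h1).2).1)
    have hedges' : (edgesIn F O).card ≤ (edgesIn F C).card + (edgesIn F O').card := by
      refine le_trans (card_le_card ?_) (card_union_le _ _)
      intro e he
      obtain ⟨heF, heO⟩ := mem_filter.1 he
      induction e using Sym2.ind with
      | _ a b =>
        obtain ⟨haO, hbO⟩ := mk_mem_sym2_iff.1 heO
        by_cases haC : a ∈ C
        · exact mem_union_left _ (mem_filter.2 ⟨heF,
            mk_mem_sym2_iff.2 ⟨haC, hCs a b heF haC⟩⟩)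
        · exact mem_union_right _ (mem_filter.2 ⟨heF,
            mk_mem_sym2_iff.2 ⟨mem_sdiff.2 ⟨haO, haC⟩,
              hO's a b heF (mem_sdiff.2 ⟨haO, haC⟩)⟩⟩)
    refine (Nat.cast_le.2 hsplit).trans ?_
    push_cast
    refine (mul_le_mul (hcomp C hconn ⟨i, hiC⟩) (ih O' hlt hO's)
      (Nat.cast_nonneg _) (by positivity)).trans (le_of_eq ?_)
    rw [le_antisymm hedges' hedges, pow_add, ← card_sdiff_add_card_eq_card hC, ← hO', pow_add]
    ring
  have hall : edgesIn F (univ : Finset (Fin w)) = F := by simp [edgesIn]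
  have := main univ fun _ _ _ _ => mem_univ _
  rw [hall, card_univ, Fintype.card_fin] at this
  refine le_trans (Nat.cast_le.2 ?_) this
  refine card_le_card_of_injOn (fun φ : Fin w ↪ Fin n => (φ : Fin w → Fin n)) ?_
    (fun φ _ ψ _ h => DFunLike.coe_injective h)
  intro φ hφ
  exact mem_coe.2 (mem_filter.2 ⟨mem_filter.2 ⟨mem_univ _, φ.injective.injOn,
    fun i hi => absurd (mem_univ i) hi⟩, fun e he => (mem_filter.1 hφ).2 e (mem_filter.1 he).1⟩)

/-- The bound for every pattern. -/
theorem deg_embs (z₀ : Fin n) {H0 : Finset (Sym2 (Fin n))} {q : ℝ} (hq : 0 < q) (hR : Rich q H0)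
    {D : ℕ} (hD0 : 0 < D)
    (hD : ∀ x, ((univ : Finset (Fin n)).filter fun y => s(x, y) ∈ H0).card ≤ D)
    (F : Finset (Sym2 (Fin w))) :
    ((embs H0 F).card : ℝ) ≤ (n : ℝ) ^ w * (24 * D * q) ^ F.card :=
  embs_of_components z₀ (by positivity) F fun _ hconn hne =>
    component_bound z₀ hq hR hD0 hD F hconn hne

theorem image0_deg {v : ℕ} (hv : v ≤ n) (H : SimpleGraph (Fin v)) {D : ℕ}
    (hD : ∀ a, (H.neighborSet a).ncard ≤ D) (x : Fin n) :
    ((univ : Finset (Fin n)).filter fun y => s(x, y) ∈ image0 H hv).card ≤ D := by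
  classical
  rcases ((univ : Finset (Fin n)).filter fun y => s(x, y) ∈ image0 H hv).eq_empty_or_nonempty with
    h | ⟨y, hy⟩
  · rw [h, card_empty]; exact Nat.zero_le _
  obtain ⟨a, b, hab, ha, -⟩ := mk_mem_image0.1 (mem_filter.1 hy).2
  refine le_trans ?_ ((Set.ncard_eq_toFinset_card' _).symm.trans_le (hD a))
  refine le_trans (card_le_card (t := (H.neighborSet a).toFinset.image (Fin.castLE hv)) ?_)
    card_image_le
  intro z hz
  obtain ⟨a', b', hab', ha', hb'⟩ := mk_mem_image0.1 (mem_filter.1 hz).2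
  obtain rfl : a' = a := Fin.castLE_injective hv (ha'.trans ha.symm)
  exact mem_image.2 ⟨b', Set.mem_toFinset.2 hab', hb'⟩

/-- Both thresholds for maximum degree at most `D`. -/
theorem bounded_degree {v : ℕ} (hn : 2 ≤ n) (hv : v ≤ n) (H : SimpleGraph (Fin v))
    (hH : H.edgeSet.Nonempty) {D : ℕ} (hD : ∀ a, (H.neighborSet a).ncard ≤ D) :
    pFrac n H ≤ 216 * D * pE n H ∧ pC n H ≤ 320 * 216 * D * Real.log n * pE n H := by
  have hD0 : 0 < D := by
    obtain ⟨e, he⟩ := hH
    induction e using Sym2.ind with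
    | _ a b => exact lt_of_lt_of_le ((Set.ncard_pos (Set.toFinite _)).2 ⟨b, he⟩) (hD a)
  have hl : 0 < Real.log (n : ℝ) := Real.log_pos (by exact_mod_cast (by omega : 1 < n))
  set c : ℝ := 216 * D with hc
  have hc0 : 0 < c := by positivity
  have key : ∀ q : ℝ, q ∈ Set.Icc (0 : ℝ) 1 →
      (∀ F : H.Subgraph, 1 / 2 ≤ expCopies n q F.coe) → 0 < q ∧
      ∀ J : Finset (Sym2 (Fin n)), ((inside (pairAct n) (image0 H hv) J).card : ℝ) ≤
        (c * q) ^ J.card * (orb (pairAct n) J).card := by
    intro q hq hyp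
    have hR := rich_of_hyp hv H hq hyp
    have hq0 := q_pos hv H hH hq hR
    refine ⟨hq0, fun J => ?_⟩
    rw [show c * q = 9 * (24 * D * q) by rw [hc]; ring]
    exact spread_of_embs (image0_subset H hv) (by positivity)
      (fun w F _ => deg_embs ⟨0, by omega⟩ hq0 hR hD0 (image0_deg hv H hD) F) J
  constructor
  · rw [← div_le_iff₀' hc0]
    refine le_csInf ⟨1, one_mem hv H⟩ fun q hq => ?_
    rw [div_le_iff₀' hc0]
    obtain ⟨hq0, hk⟩ := key q hq.1 hq.2
    have hp1 : 0 ≤ c * q := by positivity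
    exact le_trans (csInf_le ⟨0, fun p hp => hp.1.1⟩ ⟨⟨le_min zero_le_one hp1, min_le_left _ _⟩,
      fun F => frac_of_spread hv H hp1 (fun _ => hk) F⟩) (min_le_right _ _)
  · have hd : 320 * 216 * (D : ℝ) * Real.log n = 320 * Real.log n * c := by rw [hc]; ring
    have hd0 : 0 < 320 * Real.log n * c := by positivity
    rw [hd, ← div_le_iff₀' hd0]
    refine le_csInf ⟨1, one_mem hv H⟩ fun q hq => ?_
    rw [div_le_iff₀' hd0]
    obtain ⟨hq0, hk⟩ := key q hq.1 hq.2
    have h := contains_of_spread hn hv H (κ := c * q) (by positivity) (fun _ => hk)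
    rw [← mul_assoc] at h
    exact le_trans (csInf_le ⟨0, fun p hp => hp.1.1⟩
      ⟨⟨le_min zero_le_one (by positivity), min_le_left _ _⟩, h⟩) (min_le_right _ _)

end Vale.Agent.P064
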