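import Vale.Agent.P064.Twins

/-!
The number of maps of one shape: a hub is completed to all of its twins, and the added copies weigh
so little that their choices cost only a constant for each edge of the copies in the map.
-/

namespace Vale.Agent.P064.Blk

open Finset Vale.Agent.P064

variable {n W : ℕ} {H0 : Finset (Sym2 (Fin n))} {q : ℝ} {E : ℕ} {thr : ℕ → ℕ → ℕ}

/-- The hypotheses of the count. -/
structure Setting (n : ℕ) (H0 : Finset (Sym2 (Fin n))) (q : ℝ) (E : ℕ) (st : St n)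
    (thr : ℕ → ℕ → ℕ) (R : ℕ) (ρ P : ℝ) : Prop where
  hn : 2 ≤ n
  hE : 2 ≤ E
  hq : 0 < q
  rich : Rich q H0
  loop : ∀ e ∈ H0, ¬ e.IsDiag
  inv : Inv H0 q E st
  hU : st.U = ∅
  hlive : st.live = ∅
  hR : 0 < R
  hnR : n ≤ 2 ^ R
  hρ : 1 ≤ ρ
  hρR : 2 ^ 17 * (R : ℝ) ≤ ρ ^ E
  hP : q ≤ P
  hP18 : 18 * q ≤ P
  hPρ : ρ * q ≤ P
  thr_wt : ∀ v e, 80 * ((2 * n : ℝ) ^ v * q ^ e) ≤ thr v e
  thr_R : ∀ v e, 2 ^ 17 * (R : ℝ) ≤ Real.exp (thr v e)
  thr_low : ∀ v e, 1 ≤ e → e < E → v ≤ e + 1 → 1 ≤ (n : ℝ) ^ v * q ^ e →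
    (thr v e : ℝ) * (2 * E : ℝ) ^ (2 * e) ≤ (n : ℝ) ^ v * P ^ e

variable {st : St n} {R : ℕ} {ρ P : ℝ}

theorem Setting.P_pos (hs : Setting n H0 q E st thr R ρ P) : 0 < P := hs.hq.trans_le hs.hP

/-- The bound for the maps of a shape. -/
noncomputable def shapeBound (n : ℕ) (q P : ℝ) (R : ℕ) {W : ℕ} (X : Shape W) : ℝ :=
  (2 * n : ℝ) ^ W * (2 ^ 17 * R : ℝ) ^ (X.top ∩ X.dn).card *
    ∏ i, (if X.blk i ∈ X.dn then q else P) ^ (X.b i).card

/-- The root role of the bundled block. -/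
noncomputable def blkH (st : St n) (X : Shape W) (ψ : Fin W ↪ Fin n) (i : Fin W) : Fin W := by
  classical
  exact if h : X.blk i ∈ X.hub ∧ (grp st X ψ (X.blk i) ∩ X.top).Nonempty then h.2.choose
    else X.blk i

variable {X : Shape W} {ψ : Fin W ↪ Fin n}

theorem Fits.blk_idem (h : Fits st E thr X ψ) (hinv : Inv H0 q E st) (i : Fin W) :
    X.blk (X.blk i) = X.blk i := by
  rw [← h.root_iff, h.root i, hinv.idem]

theorem Fits.hub_root (h : Fits st E thr X ψ) {i : Fin W} (hi : i ∈ X.hub) : X.blk i = i :=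
  (h.root_iff i).1 ((h.hub i).1 hi).1

theorem Fits.top_hub (h : Fits st E thr X ψ) {i : Fin W} (hi : i ∈ X.top) : i ∈ X.hub :=
  (h.hub i).2 ((h.top i).1 hi).1

theorem top_unique (hinv : Inv H0 q E st) (hU : st.U = ∅) {a b : Fin n} (ha : st.root a = a)
    (hat : IsTop st a) (hbt : IsTop st b) (h : Twin st a b) : a = b :=
  hinv.tm_injective hU (le_antisymm (hbt a (mem_cls.2 (twin_symm ha h))) (hat b (mem_cls.2 h)))

theorem Fits.blkH_spec (h : Fits st E thr X ψ) (hinv : Inv H0 q E st) (hdone : X.hub ⊆ X.dn)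
    {i : Fin W} (hi : X.blk i ∈ X.hub) :
    blkH st X ψ i ∈ grp st X ψ (X.blk i) ∩ X.top := by
  classical
  have hne : (grp st X ψ (X.blk i) ∩ X.top).Nonempty := by
    obtain ⟨t, ht, htop⟩ := exists_top ((h.root_iff _).2 (h.blk_idem hinv i))
    obtain ⟨c, -, rfl⟩ := (h.dn _ (hdone hi)).2 t ht
    have hc : X.blk c = c := (h.root_iff c).1 (mem_cls.1 ht).1
    exact ⟨c, mem_inter.2 ⟨mem_grp.2 ⟨hc, mem_cls.1 ht⟩,
      (h.top c).2 ⟨((h.hub _).1 hi).twin (mem_cls.1 ht), htop⟩⟩⟩
  rw [blkH, dif_pos ⟨hi, hne⟩]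
  exact (show X.blk i ∈ X.hub ∧ _ from ⟨hi, hne⟩).2.choose_spec

theorem Fits.blkH_eq (h : Fits st E thr X ψ) (hinv : Inv H0 q E st) (hU : st.U = ∅)
    (hdone : X.hub ⊆ X.dn) {i c : Fin W} (hi : X.blk i ∈ X.hub) (hc : c ∈ X.top)
    (ht : Twin st (ψ (X.blk i)) (ψ c)) : blkH st X ψ i = c := by
  obtain ⟨h1, h2⟩ := mem_inter.1 (h.blkH_spec hinv hdone hi)
  have hr : st.root (ψ (X.blk i)) = ψ (X.blk i) := (h.root_iff _).2 (h.blk_idem hinv i)
  obtain ⟨hb, htb⟩ := mem_grp.1 h1
  exact ψ.injective (top_unique hinv hU ((h.root_iff _).2 hb) ((h.top _).1 h2).2 ((h.top c).1 hc).2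
    (twin_trans (twin_symm hr htb) ht))

theorem blkH_not_hub {i : Fin W} (hi : X.blk i ∉ X.hub) : blkH st X ψ i = X.blk i := by
  rw [blkH, dif_neg fun e => hi e.1]

theorem Fits.flag_blkH (h : Fits st E thr X ψ) (hinv : Inv H0 q E st) (hdone : X.hub ⊆ X.dn)
    {i : Fin W} (hi : X.blk i ∈ X.hub) : (rolesH st E X ψ).flag (blkH st X ψ i) = true := by
  have ht := (mem_inter.1 (h.blkH_spec hinv hdone hi)).2
  simp [rolesH, h.hub_root (h.top_hub ht), h.top_hub ht, ht]

theorem Fits.blkH_idem (h : Fits st E thr X ψ) (hinv : Inv H0 q E st) (hU : st.U = ∅)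
    (hdone : X.hub ⊆ X.dn) (i : Fin W) : blkH st X ψ (blkH st X ψ i) = blkH st X ψ i := by
  by_cases hi : X.blk i ∈ X.hub
  · obtain ⟨h1, h2⟩ := mem_inter.1 (h.blkH_spec hinv hdone hi)
    obtain ⟨hb, -⟩ := mem_grp.1 h1
    exact h.blkH_eq hinv hU hdone (by rw [hb]; exact h.top_hub h2) h2
      (by rw [hb]; exact twin_refl ((h.root_iff _).2 hb))
  · rw [blkH_not_hub hi, blkH_not_hub (by rw [h.blk_idem hinv i]; exact hi), h.blk_idem hinv i]

theorem Fits.layered (h : Fits st E thr X ψ) (hinv : Inv H0 q E st) (hU : st.U = ∅)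
    (hdone : X.hub ⊆ X.dn) :
    Layered (rolesH st E X ψ) (blkH st X ψ) fun i => n - st.tm (ψ i) := by
  classical
  refine ⟨fun i hi => mem_union_right _ ?_, fun i hi => mem_union_right _ ?_, fun i j hj => ?_⟩
  · by_cases hh : X.blk i ∈ X.hub
    · have hnt : i ∉ X.top := fun ht => by
        have hb := h.hub_root (h.top_hub ht)
        exact hi (h.blkH_eq hinv hU hdone hh ht (by rw [hb]; exact twin_refl ((h.root_iff i).2 hb)))
      simp only [rolesH, if_pos hh, if_neg hnt]
      exact h.blkH_spec hinv hdone hh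
    · rw [blkH_not_hub hh] at hi ⊢
      simp only [rolesH, if_neg hh, if_neg hi, mem_singleton]
  · by_cases hh : X.blk i ∈ X.hub
    · obtain ⟨h1, h2⟩ := mem_inter.1 (h.blkH_spec hinv hdone hh)
      obtain ⟨hb, htb⟩ := mem_grp.1 h1
      simp only [rolesH, hb, h.top_hub h2, h2, ↓reduceIte, mem_biUnion, mem_grp]
      exact ⟨X.blk i, ⟨h.blk_idem hinv i,
        twin_symm ((h.root_iff _).2 (h.blk_idem hinv i)) htb⟩, Shape.mem_mem.2 rfl⟩
    · rw [blkH_not_hub hh]
      simp only [rolesH, h.blk_idem hinv i, hh, ↓reduceIte, Shape.mem_mem]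
  · rcases mem_union.1 hj with hj | hj
    · have hz : ψ j ∈ outs st (ψ i) := by rw [h.out i]; exact mem_image_of_mem ψ hj
      by_cases hin : X.blk j = X.blk i
      · left
        by_cases hh : X.blk i ∈ X.hub
        · obtain ⟨h1, h2⟩ := mem_inter.1 (h.blkH_spec hinv hdone hh)
          exact h.blkH_eq hinv hU hdone (hin ▸ hh) h2 (hin ▸ (mem_grp.1 h1).2)
        · rw [blkH_not_hub hh, blkH_not_hub (hin ▸ hh), hin]
      have hne : st.root (ψ j) ≠ st.root (ψ i) := fun e => by
        rw [← h.root, ← h.root] at e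
        exact hin (ψ.injective e)
      -- the block of the last twin still points upwards
      have key : st.tm (ψ (blkH st X ψ i)) < st.tm (ψ j) ∨ blkH st X ψ j = blkH st X ψ i := by
        by_cases hh : X.blk i ∈ X.hub
        · obtain ⟨h1, h2⟩ := mem_inter.1 (h.blkH_spec hinv hdone hh)
          obtain ⟨hb, -, f, hf, hfb, hfo⟩ := mem_grp.1 h1
          have hyi : ψ i ∈ st.verts (ψ (X.blk i)) := by rw [St.mem_verts, ← h.root i]
          have hj' : ψ j ∈ outs st (f (ψ i)) \ st.verts (ψ (blkH st X ψ i)) := by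
            rw [(hfo _ hyi).2, mem_sdiff, St.mem_verts, h.root i]
            exact ⟨hz, hne⟩
          have hroot : st.root (f (ψ i)) = ψ (blkH st X ψ i) :=
            St.mem_verts.1 (hfb.mapsTo hyi)
          obtain ⟨hj1, hj2⟩ := mem_sdiff.1 hj'
          rcases outs_later hinv hj1 with h' | h'
          · rw [hroot] at h'
            exact absurd (St.mem_verts.2 h') hj2
          · rw [hroot] at h'
            exact Or.inl h'
        · left
          rw [blkH_not_hub hh, h.root i]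
          exact (outs_later hinv hz).resolve_left hne
      rcases key with key | key
      · by_cases hsame : blkH st X ψ j = blkH st X ψ i
        · exact Or.inl hsame
        right
        have hlt := hinv.tm_lt hU (ψ (blkH st X ψ j))
        have hle : st.tm (ψ j) ≤ st.tm (ψ (blkH st X ψ j)) := by
          have h0 := (hinv.old (ψ j) (by simp [hU])).2.2
          rw [← h.root j] at h0
          by_cases hh : X.blk j ∈ X.hub
          · obtain ⟨h1, h2⟩ := mem_inter.1 (h.blkH_spec hinv hdone hh)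
            obtain ⟨hb, htb⟩ := mem_grp.1 h1
            exact h0.trans (((h.top _).1 h2).2 _ (mem_cls.2
              (twin_symm ((h.root_iff _).2 (h.blk_idem hinv j)) htb)))
          · rwa [blkH_not_hub hh]
        omega
      · exact Or.inl key
    · left
      by_cases hh : X.blk i ∈ X.hub
      · obtain ⟨h1, h2⟩ := mem_inter.1 (h.blkH_spec hinv hdone hh)
        have hspec := (mem_grp.1 h1).2
        by_cases ht : i ∈ X.top
        · simp only [rolesH, if_pos hh, if_pos ht, mem_biUnion, mem_grp, Shape.mem_mem] at hj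
          obtain ⟨c, ⟨hc, hct⟩, hjc⟩ := hj
          rw [← h.hub_root (h.top_hub ht)] at hct
          refine h.blkH_eq hinv hU hdone ?_ h2 ?_ <;> rw [hjc]
          · exact (h.hub c).2 (((h.hub _).1 hh).twin hct)
          · exact twin_trans (twin_symm ((h.root_iff _).2 (h.blk_idem hinv i)) hct) hspec
        · simp only [rolesH, if_pos hh, if_neg ht, mem_inter, mem_grp] at hj
          obtain ⟨⟨hc, hct⟩, hctop⟩ := hj
          rw [h.blkH_eq hinv hU hdone (by rw [hc]; exact h.top_hub hctop) hctop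
            (by rw [hc]; exact twin_refl ((h.root_iff _).2 hc)), h.blkH_eq hinv hU hdone hh hctop hct]
      · simp only [rolesH, if_neg hh] at hj
        split_ifs at hj with hi
        · rw [Shape.mem_mem] at hj
          have hh' : X.blk j ∉ X.hub := by rw [hj, ← hi]; exact hh
          rw [blkH_not_hub hh, blkH_not_hub hh', hj, hi]
        · rw [mem_singleton] at hj
          rw [hj, blkH_not_hub hh, blkH_not_hub (by rwa [h.blk_idem hinv i]), h.blk_idem hinv i]

theorem lowExt (hs : Setting n H0 q E st thr R ρ P) (h : Fits st E thr X ψ)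
    (hdone : X.hub ⊆ X.dn) :
    LowExt (hostUnits st E thr) q P (rolesH st E X ψ) (blkH st X ψ) := by
  classical
  intro r ζ hflag
  set T := rolesH st E X ψ with hT
  set blk := blkH st X ψ with hblk
  set D := (univ : Finset (Fin W)).filter fun i => blk i = r with hD
  have hmemD : ∀ {i}, i ∈ D ↔ blk i = r := by simp [hD]
  set Xs := (univ : Finset (Fin W → Fin n)).filter fun φ => (∀ i, blk i ≠ r → φ i = ζ i) ∧
      (∀ i j, (blk i = r ∨ ∃ l, blk l = r ∧ i ∈ T.o l) →
        (blk j = r ∨ ∃ l, blk l = r ∧ j ∈ T.o l) → φ i = φ j → i = j) ∧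
        ∀ i, blk i = r → unitOf T φ i ∈ hostUnits st E thr with hXs
  have hrate : ∀ i ∈ D, 0 ≤ rate q P (T.low i) ^ (T.b i).card := fun i _ =>
    pow_nonneg (rate_nonneg hs.hq.le hs.P_pos.le _) _
  rcases Xs.eq_empty_or_nonempty with h0 | ⟨φ₁, hφ₁⟩
  · rw [h0, card_empty, Nat.cast_zero]
    exact mul_nonneg (by positivity) (Finset.prod_nonneg hrate)
  rcases D.eq_empty_or_nonempty with hDe | ⟨i₀, hi₀⟩
  · rw [hDe, card_empty, prod_empty, pow_zero, one_mul]
    have : Xs.card ≤ 1 := card_le_one.2 fun φ hφ φ' hφ' => funext fun i => by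
      have hi : blk i ≠ r := fun h => notMem_empty i (hDe ▸ hmemD.2 h)
      rw [(mem_filter.1 hφ).2.1 i hi, (mem_filter.1 hφ').2.1 i hi]
    exact_mod_cast this
  -- the block is an old block that is no hub and not big
  have hnh : ∀ i ∈ D, X.blk i ∉ X.hub := by
    intro i hi hh
    have e := h.flag_blkH hs.inv hdone hh
    rw [← hblk, ← hT, hmemD.1 hi] at e
    have := hflag r (by rw [← hmemD.1 hi, hblk]; exact h.blkH_idem hs.inv hs.hU hdone i)
    rw [this] at e
    exact Bool.false_ne_true e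
  have hbl : ∀ i ∈ D, X.blk i = r := fun i hi => by
    rw [← blkH_not_hub (st := st) (ψ := ψ) (hnh i hi)]; exact hmemD.1 hi
  have hrr : X.blk r = r := by rw [← hbl i₀ hi₀, h.blk_idem hs.inv]
  have hrh : r ∉ X.hub := hbl i₀ hi₀ ▸ hnh i₀ hi₀
  have hDmem : D = X.mem r := by
    ext i
    rw [Shape.mem_mem]
    refine ⟨hbl i, fun e => hmemD.2 ?_⟩
    rw [hblk, blkH_not_hub (by rw [e]; exact hrh), e]
  have hrD : r ∈ D := by rw [hDmem, Shape.mem_mem]; exact hrr
  have hrb : r ∉ X.big := by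
    intro hb
    have := hflag r (hmemD.1 hrD)
    simp [hT, rolesH, hrr, hrh, hb] at this
  have hlow : ∀ i ∈ D, T.low i = true := fun i hi => by
    simp [hT, rolesH, hbl i hi, hrh, hrb]
  set e := ∑ i ∈ D, (T.b i).card with he
  rw [Finset.prod_congr rfl fun i hi => by rw [hlow i hi, rate, if_pos rfl],
    Finset.prod_pow_eq_pow_sum, ← he]
  -- what a member determines
  have hunit : ∀ φ ∈ Xs, ∀ i ∈ D, unitOf T φ i = unitH st E thr (φ i) := fun φ hφ i hi =>
    mem_hostUnits.1 ((mem_filter.1 hφ).2.2.2 i (hmemD.1 hi))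
  have hinjD : ∀ φ ∈ Xs, Set.InjOn φ D := fun φ hφ i hi j hj h =>
    (mem_filter.1 hφ).2.2.1 i j (Or.inl (hmemD.1 hi)) (Or.inl (hmemD.1 hj)) h
  have hout : ∀ φ ∈ Xs, ∀ i ∈ D, outs st (φ i) = (T.b i).image φ := fun φ hφ i hi => by
    have := congrArg BUnit.out (hunit φ hφ i hi)
    rw [unitH_out] at this
    exact this.symm
  have hblock : ∀ φ ∈ Xs, st.root (φ r) = φ r ∧ st.verts (φ r) = D.image φ ∧
      eW st (φ r) = e ∧ e < E ∧ ¬ Hub st E thr (φ r) := by
    intro φ hφ
    have hr := hunit φ hφ r hrD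
    have hnhub : ¬ Hub st E thr (st.root (φ r)) := by
      intro hh
      have h' := congrArg BUnit.low hr
      rw [unitH, if_pos hh] at h'
      simp only [unitOf, hlow r hrD] at h'
      exact Bool.noConfusion h'
    rw [unitH, if_neg hnhub] at hr
    have hp : (if st.root (φ r) = φ r then st.verts (φ r) else {st.root (φ r)}) = D.image φ := by
      rw [hDmem]
      have := (congrArg BUnit.ptr hr).symm
      simpa [unitOf, hT, rolesH, hrr, hrh] using this
    have hrt : st.root (φ r) = φ r := by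
      by_contra h
      rw [if_neg h] at hp
      exact h (mem_singleton.1 (hp.symm ▸ mem_image_of_mem φ hrD)).symm
    rw [if_pos hrt] at hp
    rw [hrt] at hnhub
    have hlt : eW st (φ r) < E := by
      have h' := congrArg BUnit.low hr
      simp only [unitOf, hlow r hrD, hrt] at h'
      exact of_decide_eq_true h'.symm
    have heq : eW st (φ r) = e := by
      rw [eW, hp, sum_image (hinjD φ hφ), he]
      refine sum_congr rfl fun i hi => ?_
      rw [hout φ hφ i hi]
      refine card_image_of_injOn fun a ha b hb hab => ?_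
      exact (mem_filter.1 hφ).2.2.1 a b (Or.inr ⟨i, hmemD.1 hi, mem_union_left _ ha⟩)
        (Or.inr ⟨i, hmemD.1 hi, mem_union_left _ hb⟩) hab
    exact ⟨hrt, hp, heq, heq ▸ hlt, hnhub⟩
  have hvc : ∀ φ ∈ Xs, (st.verts (φ r)).card = D.card := fun φ hφ => by
    rw [(hblock φ hφ).2.1, card_image_of_injOn (hinjD φ hφ)]
  obtain ⟨hrt₁, hv₁, he₁, heE, hnh₁⟩ := hblock φ₁ hφ₁
  have hnotU : ∀ x : Fin n, x ∉ st.U := fun x => by simp [hs.hU]
  have hedc : (st.ed (φ₁ r)).card = e := by rw [ed_card hs.inv hs.hU hs.loop, he₁]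
  have hsize : D.card ≤ e + 1 := by
    have := (hs.inv.size (φ₁ r) (hnotU _) hrt₁).trans
      (Nat.add_le_add_right (inner_card_le st _) 1)
    rwa [hvc φ₁ hφ₁, hedc] at this
  rcases Nat.eq_zero_or_pos e with he0 | he0
  · have hD1 : D.card = 1 := le_antisymm (by omega) (card_pos.2 ⟨r, hrD⟩)
    rw [he0, pow_zero, mul_one, hD1, pow_one]
    have hDr : D = {r} := Finset.eq_singleton_iff_unique_mem.2 ⟨hrD, fun j hj =>
      card_le_one.1 hD1.le j hj r hrD⟩
    have : Xs.card ≤ n := by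
      refine le_trans (card_le_card_of_injOn (fun φ => φ r) (fun _ _ => mem_coe.2 (mem_univ _)) ?_)
        (by simp : (univ : Finset (Fin n)).card ≤ n)
      intro φ hφ φ' hφ' hr
      funext i
      by_cases hi : blk i = r
      · have : i = r := by simpa [hDr] using hmemD.2 hi
        rw [this]; exact hr
      · rw [(mem_filter.1 (mem_coe.1 hφ)).2.1 i hi, (mem_filter.1 (mem_coe.1 hφ')).2.1 i hi]
    exact_mod_cast this
  have hθ1 : 1 ≤ (n : ℝ) ^ D.card * q ^ e := by
    rcases hs.inv.dead (φ₁ r) (hnotU _) hrt₁ (by simp [hs.hlive]) with h' | h'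
    · omega
    · rwa [blockWt, hvc φ₁ hφ₁, hedc] at h'
  -- the possible roots are twins of each other
  set Rs := Xs.image fun φ => φ r with hRs
  have hsub : Rs ⊆ cls st (φ₁ r) := by
    intro x hx
    obtain ⟨φ, hφ, rfl⟩ := mem_image.1 hx
    obtain ⟨hrt, hv, -, -, -⟩ := hblock φ hφ
    have : Nonempty (Fin W) := ⟨r⟩
    set g : Fin n → Fin n := fun y => φ (Function.invFunOn φ₁ (D : Set (Fin W)) y) with hg
    have hgl : ∀ a ∈ D, g (φ₁ a) = φ a := fun a ha => by
      rw [hg]; dsimp only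
      rw [(hinjD φ₁ hφ₁).leftInvOn_invFunOn (mem_coe.2 ha)]
    refine mem_cls.2 ⟨hrt, g, hgl r hrD, ?_, ?_⟩
    · rw [hv₁, hv]
      refine ⟨fun y hy => ?_, fun y hy z hz e' => ?_, fun y hy => ?_⟩
      · obtain ⟨a, ha, rfl⟩ := mem_image.1 (mem_coe.1 hy)
        rw [hgl a ha]; exact mem_coe.2 (mem_image_of_mem φ ha)
      · obtain ⟨a, ha, rfl⟩ := mem_image.1 (mem_coe.1 hy)
        obtain ⟨b, hb, rfl⟩ := mem_image.1 (mem_coe.1 hz)
        rw [hgl a ha, hgl b hb] at e'
        rw [hinjD φ hφ ha hb e']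
      · obtain ⟨a, ha, rfl⟩ := mem_image.1 (mem_coe.1 hy)
        exact ⟨φ₁ a, mem_coe.2 (mem_image_of_mem φ₁ ha), hgl a ha⟩
    · intro y hy
      rw [hv₁] at hy
      obtain ⟨a, ha, rfl⟩ := mem_image.1 hy
      have hsplit : ∀ χ ∈ Xs, outs st (χ a) ∩ D.image χ = (T.b a ∩ D).image χ ∧
          outs st (χ a) \ D.image χ = (T.b a \ D).image χ := by
        intro χ hχ
        have hin : Set.InjOn χ (↑(T.b a ∪ D) : Set (Fin W)) := by
          have hm : ∀ l ∈ T.b a ∪ D, blk l = r ∨ ∃ k, blk k = r ∧ l ∈ T.o k := fun l hl => by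
            rcases mem_union.1 hl with h' | h'
            · exact Or.inr ⟨a, hmemD.1 ha, mem_union_left _ h'⟩
            · exact Or.inl (hmemD.1 h')
          exact fun b hb c hc e' => (mem_filter.1 hχ).2.2.1 b c (hm b hb) (hm c hc) e'
        rw [coe_union] at hin
        refine ⟨?_, ?_⟩
        · rw [hout χ hχ a ha, ← image_inter_of_injOn _ _ hin]
        · rw [hout χ hχ a ha]
          ext z
          simp only [mem_sdiff, mem_image]
          constructor
          · rintro ⟨⟨c, hc, rfl⟩, h2⟩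
            exact ⟨c, ⟨hc, fun hcD => h2 ⟨c, hcD, rfl⟩⟩, rfl⟩
          · rintro ⟨c, ⟨hc, hcD⟩, rfl⟩
            exact ⟨⟨c, hc, rfl⟩, fun ⟨c', hc', e'⟩ =>
              hcD (hin (Or.inr hc') (Or.inl hc) e' ▸ hc')⟩
      rw [hgl a ha, hv₁, hv, (hsplit φ hφ).1, (hsplit φ hφ).2, (hsplit φ₁ hφ₁).1,
        (hsplit φ₁ hφ₁).2, image_image]
      refine ⟨image_congr fun b hb => (hgl b (mem_inter.1 hb).2).symm,
        image_congr fun b hb => ?_⟩
      have hb' : blk b ≠ r := fun e' => (mem_sdiff.1 hb).2 (hmemD.2 e')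
      rw [(mem_filter.1 hφ).2.1 b hb', (mem_filter.1 hφ₁).2.1 b hb']
  have hk : Rs.card ≤ thr D.card e := by
    refine (card_le_card hsub).trans (not_lt.1 fun hlt => hnh₁ ⟨hrt₁, ?_, ?_, ?_⟩) <;> rw [he₁]
    · exact he0
    · exact heE
    · rwa [hvc φ₁ hφ₁]
  have hfib : ∀ x ∈ Rs, (Xs.filter fun φ => φ r = x).card ≤ D.card ^ D.card := by
    intro x hx
    obtain ⟨g, h1, h2⟩ := mem_image.1 hx
    refine le_trans (card_le_card_of_injOn (t := Fintype.piFinset fun _ : ↥D => st.verts x)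
      (fun φ i => φ i) ?_ ?_) (le_of_eq ?_)
    · intro φ hφ
      obtain ⟨h3, h4⟩ := mem_filter.1 (mem_coe.1 hφ)
      refine mem_coe.2 (Fintype.mem_piFinset.2 fun i => ?_)
      rw [← h4, (hblock φ h3).2.1]
      exact mem_image_of_mem φ i.2
    · intro φ hφ φ' hφ' hh
      funext i
      by_cases hi : i ∈ D
      · exact congrFun hh ⟨i, hi⟩
      · have hi' : blk i ≠ r := fun h => hi (hmemD.2 h)
        rw [(mem_filter.1 (mem_filter.1 (mem_coe.1 hφ)).1).2.1 i hi',
          (mem_filter.1 (mem_filter.1 (mem_coe.1 hφ')).1).2.1 i hi']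
    · rw [Fintype.card_piFinset, prod_const, card_univ, Fintype.card_coe, ← h2, hvc _ h1]
  have hXc : Xs.card ≤ thr D.card e * (2 * E) ^ (2 * e) := by
    rw [Finset.card_eq_sum_card_fiberwise (f := fun φ => φ r) (t := Rs)
      fun φ hφ => mem_image_of_mem _ hφ]
    refine (Finset.sum_le_sum hfib).trans ?_
    rw [sum_const, smul_eq_mul]
    exact Nat.mul_le_mul hk
      ((Nat.pow_le_pow_left (by omega) _).trans (Nat.pow_le_pow_right (by omega) (by omega)))
  calc (Xs.card : ℝ) ≤ ((thr D.card e * (2 * E) ^ (2 * e) : ℕ) : ℝ) := by exact_mod_cast hXc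
    _ ≤ _ := by push_cast; exact hs.thr_low _ _ he0 heE hsize hθ1

theorem fit_base (hs : Setting n H0 q E st thr R ρ P) (hdone : X.hub ⊆ X.dn) :
    ((fitMaps st E thr X).card : ℝ) ≤ shapeBound n q P R X := by
  classical
  have hP0 := hs.P_pos
  rcases (fitMaps st E thr X).eq_empty_or_nonempty with h0 | ⟨ψ, hψ⟩
  · rw [h0, card_empty, Nat.cast_zero, shapeBound]
    exact mul_nonneg (by positivity) (prod_nonneg fun i _ => pow_nonneg (by
      split_ifs <;> linarith [hs.hq]) _)
  rw [mem_fitMaps] at hψ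
  have hdn : X.dn = X.hub := subset_antisymm (fun i hi => (hψ.dn i hi).1) hdone
  set T := rolesH st E X ψ with hT
  have hmarks : ((hostUnits st E thr).filter MarkB).card ≤ 2 ^ R :=
    (card_filter_le _ _).trans ((card_image_le.trans (by simp)).trans hs.hnR)
  have hfin := owned_final (⟨0, by have := hs.hn; omega⟩ : Fin n) T
    (hψ.layered hs.inv hs.hU hdone) (lowExt hs hψ hdone) (host_units hs.rich hs.inv) hs.hq
    hs.hP hs.hR hmarks
  refine (le_trans (Nat.cast_le.2 (card_le_card_of_injOn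
    (fun φ : Fin W ↪ Fin n => (φ : Fin W → Fin n)) ?_
    (fun φ _ ψ' _ h => DFunLike.coe_injective h))) hfin).trans ?_
  · intro φ hφ
    refine mem_coe.2 (mem_filter.2 ⟨mem_filter.2 ⟨mem_univ _, φ.injective.injOn,
      fun i hi => absurd (mem_univ i) hi⟩, ?_⟩)
    intro u hu
    obtain ⟨i, -, rfl⟩ := mem_image.1 hu
    rw [hT, hψ.unit_eq (mem_fitMaps.1 (mem_coe.1 hφ)) hs.inv hdone i]
    exact mem_image_of_mem _ (mem_univ _)
  have hnb : ∀ i ∈ X.big, i ∉ X.hub := fun i hi hh => by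
    have h1 := ((hψ.big i).1 hi).2
    have h2 := ((hψ.hub i).1 hh).2.2.1
    omega
  have hM : (marksB T (univ : Finset (Fin W))).card ≤ (X.top ∩ X.dn).card + X.big.card := by
    refine le_trans (card_le_card (t := (X.top ∩ X.dn) ∪ X.big) fun i hi => ?_) (card_union_le _ _)
    have hf := of_decide_eq_true (mem_filter.1 hi).2
    split_ifs at hf with hh
    · exact mem_union_left _ (mem_inter.2 ⟨hf, hdone (hψ.top_hub hf)⟩)
    · exact mem_union_right _ hf
  set B := (univ : Finset (Fin W)).filter fun i => X.blk i ∈ X.big with hB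
  have hbig : E * X.big.card ≤ ∑ i ∈ B, (X.b i).card := by
    rw [← sum_fiberwise_of_maps_to (g := X.blk) (t := X.big) fun i hi => (mem_filter.1 hi).2,
      mul_comm, ← smul_eq_mul, ← sum_const]
    refine sum_le_sum fun r hr => ?_
    obtain ⟨hrb, hrE⟩ := (hψ.big r).1 hr
    rw [hψ.eW_eq hrb] at hrE
    refine hrE.trans (le_of_eq (sum_congr ?_ fun _ _ => rfl))
    ext a
    simp only [Shape.mem_mem, mem_filter, mem_univ, true_and]
    exact ⟨fun e => ⟨e ▸ hr, e⟩, fun e => e.2⟩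
  have hR1 : (1 : ℝ) ≤ 2 ^ 17 * R := by
    have : (1 : ℝ) ≤ R := by exact_mod_cast hs.hR
    linarith
  have hρ0 : (0 : ℝ) ≤ ρ := zero_le_one.trans hs.hρ
  rw [shapeBound, mul_pow (2 : ℝ) (n : ℝ)]
  calc (2 ^ 17 * R : ℝ) ^ (marksB T univ).card * 2 ^ W * (n : ℝ) ^ W *
        ∏ i, rate q P (T.low i) ^ (T.b i).card
      ≤ (2 ^ 17 * R : ℝ) ^ (X.top ∩ X.dn).card * (ρ ^ ∑ i ∈ B, (X.b i).card) * 2 ^ W *
          (n : ℝ) ^ W * ∏ i, rate q P (T.low i) ^ (T.b i).card := by
        refine mul_le_mul_of_nonneg_right (mul_le_mul_of_nonneg_right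
          (mul_le_mul_of_nonneg_right ?_ (by positivity)) (by positivity))
          (prod_nonneg fun i _ => pow_nonneg (rate_nonneg hs.hq.le hP0.le _) _)
        refine (pow_le_pow_right₀ hR1 hM).trans ?_
        rw [pow_add]
        refine mul_le_mul_of_nonneg_left ?_ (by positivity)
        refine (pow_le_pow_left₀ (by positivity) hs.hρR _).trans ?_
        rw [← pow_mul]
        exact pow_le_pow_right₀ hs.hρ hbig
    _ ≤ 2 ^ W * (n : ℝ) ^ W * (2 ^ 17 * R : ℝ) ^ (X.top ∩ X.dn).card *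
          ∏ i, (if X.blk i ∈ X.dn then q else P) ^ (X.b i).card := by
        rw [← prod_pow_eq_pow_sum, hB, prod_filter]
        have key : (∏ i, if X.blk i ∈ X.big then ρ ^ (X.b i).card else 1) *
            ∏ i, rate q P (T.low i) ^ (T.b i).card ≤
            ∏ i, (if X.blk i ∈ X.dn then q else P) ^ (X.b i).card := by
          rw [← prod_mul_distrib]
          refine prod_le_prod (fun i _ => mul_nonneg (by split_ifs <;> positivity)
            (pow_nonneg (rate_nonneg hs.hq.le hP0.le _) _)) fun i _ => ?_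
          by_cases hh : X.blk i ∈ X.hub
          · have hb : X.blk i ∉ X.big := fun hb => hnb _ hb hh
            simp [hT, rolesH, rate, hh, hb, hdn]
          · by_cases hb : X.blk i ∈ X.big
            · simp only [hT, rolesH, rate, hh, hb, hdn, not_false_eq_true, not_true, and_false,
                decide_false, Bool.false_eq_true, ↓reduceIte, ← mul_pow]
              exact pow_le_pow_left₀ (mul_nonneg hρ0 hs.hq.le) hs.hPρ _
            · simp [hT, rolesH, rate, hh, hb, hdn]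
        calc _ = 2 ^ W * (n : ℝ) ^ W * (2 ^ 17 * R : ℝ) ^ (X.top ∩ X.dn).card *
              ((∏ i, if X.blk i ∈ X.big then ρ ^ (X.b i).card else 1) *
                ∏ i, rate q P (T.low i) ^ (T.b i).card) := by ring
          _ ≤ _ := mul_le_mul_of_nonneg_left key (by positivity)

end Vale.Agent.P064.Blk
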