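import Vale.Agent.P064.Bundle

/-!
Completing a hub: a map that holds some of the twins is sent to the maps that hold all of them.
-/

namespace Vale.Agent.P064.Blk

open Finset Vale.Agent.P064

variable {n W j : ℕ} {H0 : Finset (Sym2 (Fin n))} {q : ℝ} {E : ℕ} {thr : ℕ → ℕ → ℕ}
  {st : St n} {R : ℕ} {ρ P : ℝ}

/-- A map between twin blocks. -/
noncomputable def twMap (st : St n) (r r' : Fin n) : Fin n → Fin n := by
  classical exact if h : Twin st r r' then h.2.choose else id

theorem twMap_spec {r r' : Fin n} (h : Twin st r r') :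
    twMap st r r' r = r' ∧ Set.BijOn (twMap st r r') (st.verts r) (st.verts r') ∧
      ∀ y ∈ st.verts r, outs st (twMap st r r' y) ∩ st.verts r' =
          (outs st y ∩ st.verts r).image (twMap st r r') ∧
        outs st (twMap st r r' y) \ st.verts r' = outs st y \ st.verts r := by
  rw [twMap, dif_pos h]
  exact h.2.choose_spec

/-- The roles after adding `j` copies of the block of `i`. -/
noncomputable def cEquiv (X : Shape W) (i : Fin W) (j : ℕ) :
    (Fin W ⊕ (Fin j × ↥(X.mem i))) ≃ Fin (W + j * (X.mem i).card) :=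
  Fintype.equivFinOfCardEq (by simp)

/-- An old role. -/
noncomputable def oldR (X : Shape W) (i : Fin W) (j : ℕ) (a : Fin W) :
    Fin (W + j * (X.mem i).card) := cEquiv X i j (Sum.inl a)

/-- A copied role. -/
noncomputable def newR (X : Shape W) (i : Fin W) (j : ℕ) (t : Fin j) (a : ↥(X.mem i)) :
    Fin (W + j * (X.mem i).card) := cEquiv X i j (Sum.inr (t, a))

theorem oldR_injective (X : Shape W) (i : Fin W) (j : ℕ) : Function.Injective (oldR X i j) :=
  fun _ _ h => Sum.inl_injective ((cEquiv X i j).injective h)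

theorem newR_inj {X : Shape W} {i : Fin W} {t t' : Fin j} {a a' : ↥(X.mem i)} :
    newR X i j t a = newR X i j t' a' ↔ t = t' ∧ a = a' := by
  simp [newR]

theorem old_ne_new {X : Shape W} {i : Fin W} {a : Fin W} {t : Fin j} {a' : ↥(X.mem i)} :
    oldR X i j a ≠ newR X i j t a' := by
  simp [oldR, newR]

theorem role_cases {X : Shape W} {i : Fin W} (x : Fin (W + j * (X.mem i).card)) :
    (∃ a, x = oldR X i j a) ∨ ∃ t a, x = newR X i j t a := by
  obtain ⟨y, rfl⟩ := (cEquiv X i j).surjective x
  rcases y with a | ⟨t, a⟩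
  · exact Or.inl ⟨a, rfl⟩
  · exact Or.inr ⟨t, a, rfl⟩

/-- The shape with the hub of `i` completed by `j` copies, the last twin being the copy `k`. -/
noncomputable def cShape (X : Shape W) {i : Fin W} (hi : i ∈ X.mem i) (G : Finset (Fin W)) (j : ℕ)
    (k : Option (Fin j)) : Shape (W + j * (X.mem i).card) where
  b x := Sum.elim (fun a => (X.b a).image (oldR X i j))
    (fun p : Fin j × ↥(X.mem i) => (X.b p.2).image fun c =>
      if h : c ∈ X.mem i then newR X i j p.1 ⟨c, h⟩ else oldR X i j c) ((cEquiv X i j).symm x)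
  blk x := Sum.elim (fun a => oldR X i j (X.blk a))
    (fun p : Fin j × ↥(X.mem i) => newR X i j p.1 ⟨i, hi⟩) ((cEquiv X i j).symm x)
  big := X.big.image (oldR X i j)
  hub := X.hub.image (oldR X i j) ∪ univ.image fun t => newR X i j t ⟨i, hi⟩
  top := k.elim (X.top.image (oldR X i j))
    fun t => insert (newR X i j t ⟨i, hi⟩) ((X.top \ G).image (oldR X i j))
  dn := (X.dn ∪ G).image (oldR X i j) ∪ univ.image fun t => newR X i j t ⟨i, hi⟩

section Step

variable {X : Shape W} {i : Fin W} {hi : i ∈ X.mem i} {G : Finset (Fin W)} {k : Option (Fin j)}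

theorem cShape_b_old (a : Fin W) :
    (cShape X hi G j k).b (oldR X i j a) = (X.b a).image (oldR X i j) := by
  simp [cShape, oldR]

theorem cShape_b_new (t : Fin j) (a : ↥(X.mem i)) :
    (cShape X hi G j k).b (newR X i j t a) = (X.b a).image fun c =>
      if h : c ∈ X.mem i then newR X i j t ⟨c, h⟩ else oldR X i j c := by
  simp [cShape, newR]

theorem cShape_blk_old (a : Fin W) :
    (cShape X hi G j k).blk (oldR X i j a) = oldR X i j (X.blk a) := by
  simp [cShape, oldR]

theorem cShape_blk_new (t : Fin j) (a : ↥(X.mem i)) :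
    (cShape X hi G j k).blk (newR X i j t a) = newR X i j t ⟨i, hi⟩ := by
  simp [cShape, newR]

/-- The twins outside a map. -/
noncomputable def outside (st : St n) (ψ : Fin W ↪ Fin n) (i : Fin W) : Finset (Fin n) :=
  cls st (ψ i) \ univ.map ψ

/-- A map with copies in the places `f`. -/
noncomputable def cMap (st : St n) (X : Shape W) (i : Fin W) (j : ℕ) (ψ : Fin W → Fin n)
    (f : Fin j → Fin n) (x : Fin (W + j * (X.mem i).card)) : Fin n :=
  Sum.elim ψ (fun p : Fin j × ↥(X.mem i) => twMap st (ψ i) (f p.1) (ψ p.2)) ((cEquiv X i j).symm x)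

theorem cMap_old (ψ : Fin W → Fin n) (f : Fin j → Fin n) (a : Fin W) :
    cMap st X i j ψ f (oldR X i j a) = ψ a := by simp [cMap, oldR]

theorem cMap_new (ψ : Fin W → Fin n) (f : Fin j → Fin n) (t : Fin j) (a : ↥(X.mem i)) :
    cMap st X i j ψ f (newR X i j t a) = twMap st (ψ i) (f t) (ψ a) := by simp [cMap, newR]

variable {ψ : Fin W ↪ Fin n} {f : Fin j ↪ Fin n}

theorem cMap_injective (h : Fits st E thr X ψ) (hi' : X.blk i = i)
    (hf : ∀ t, f t ∈ outside st ψ i) : Function.Injective (cMap st X i j ψ f) := by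
  have htw : ∀ t, Twin st (ψ i) (f t) := fun t => mem_cls.1 (mem_sdiff.1 (hf t)).1
  have hin : ∀ t (a : ↥(X.mem i)), twMap st (ψ i) (f t) (ψ a) ∈ st.verts (f t) := fun t a =>
    (twMap_spec (htw t)).2.1.mapsTo (mem_coe.2 (by
      rw [h.verts i hi']; exact mem_image_of_mem ψ a.2))
  have hne : ∀ t (a : ↥(X.mem i)) c, twMap st (ψ i) (f t) (ψ a) ≠ ψ c := fun t a c e => by
    have h1 := St.mem_verts.1 (hin t a)
    rw [e, ← h.root c] at h1
    exact (mem_sdiff.1 (hf t)).2 (h1 ▸ mem_map_of_mem _ (mem_univ _))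
  intro x y e
  rcases role_cases x with ⟨a, rfl⟩ | ⟨t, a, rfl⟩ <;>
    rcases role_cases y with ⟨c, rfl⟩ | ⟨u, c, rfl⟩ <;> simp only [cMap_old, cMap_new] at e
  · rw [ψ.injective e]
  · exact absurd e.symm (hne u c a)
  · exact absurd e (hne t a c)
  · have htu : t = u := by
      have h1 := St.mem_verts.1 (hin t a)
      rw [e, St.mem_verts.1 (hin u c)] at h1
      exact (f.injective h1).symm
    subst htu
    have := (twMap_spec (htw t)).2.1.injOn
      (mem_coe.2 (by rw [h.verts i hi']; exact mem_image_of_mem ψ a.2))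
      (mem_coe.2 (by rw [h.verts i hi']; exact mem_image_of_mem ψ c.2)) e
    rw [Subtype.ext (ψ.injective this)]

theorem cls_inter (h : Fits st E thr X ψ) {y : Fin n} (hy : y ∈ cls st (ψ i))
    (hmem : y ∈ univ.map ψ) : ∃ g ∈ grp st X ψ i, ψ g = y := by
  obtain ⟨g, -, rfl⟩ := mem_map.1 hmem
  exact ⟨g, mem_grp.2 ⟨(h.root_iff g).1 (mem_cls.1 hy).1, mem_cls.1 hy⟩, rfl⟩

theorem cls_card (h : Fits st E thr X ψ) :
    (cls st (ψ i)).card = (grp st X ψ i).card + (outside st ψ i).card := by
  rw [outside, ← card_image_of_injective (grp st X ψ i) ψ.injective,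
    ← card_union_of_disjoint ?_]
  · congr 1
    ext y
    simp only [mem_union, mem_image, mem_sdiff]
    constructor
    · intro hy
      by_cases hm : y ∈ univ.map ψ
      · exact Or.inl (cls_inter h hy hm)
      · exact Or.inr ⟨hy, hm⟩
    · rintro (⟨g, hg, rfl⟩ | ⟨hy, -⟩)
      · exact mem_cls.2 (mem_grp.1 hg).2
      · exact hy
  · rw [Finset.disjoint_left]
    intro y hy hy'
    obtain ⟨g, -, rfl⟩ := mem_image.1 hy
    exact (mem_sdiff.1 hy').2 (mem_map_of_mem _ (mem_univ g))

/-- The copy that holds the last twin, if a copy does. -/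
noncomputable def topPos (st : St n) (X : Shape W) (ψ : Fin W ↪ Fin n) (i : Fin W)
    (f : Fin j ↪ Fin n) : Option (Fin j) := by
  classical
  exact if h : ¬ (grp st X ψ i ∩ X.top).Nonempty ∧ ∃ t, IsTop st (f t) then some h.2.choose else none

theorem cMap_fits (hinv : Inv H0 q E st) (hU : st.U = ∅) (h : Fits st E thr X ψ)
    (hih : i ∈ X.hub) (hG : grp st X ψ i = G) (hcard : (outside st ψ i).card = j)
    (hf : ∀ t, f t ∈ outside st ψ i) (hinj : Function.Injective (cMap st X i j ψ f)) :
    Fits st E thr (cShape X hi G j (topPos st X ψ i f)) ⟨cMap st X i j ψ f, hinj⟩ := by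
  classical
  set ψ' : Fin (W + j * (X.mem i).card) ↪ Fin n := ⟨cMap st X i j ψ f, hinj⟩ with hψ'
  have hO : ∀ a, ψ' (oldR X i j a) = ψ a := cMap_old ψ f
  have hN : ∀ t a, ψ' (newR X i j t a) = twMap st (ψ i) (f t) (ψ a) := cMap_new ψ f
  have hi' : X.blk i = i := h.hub_root hih
  have hHub : Hub st E thr (ψ i) := (h.hub i).1 hih
  have htw : ∀ t, Twin st (ψ i) (f t) := fun t => mem_cls.1 (mem_sdiff.1 (hf t)).1
  have hvi : ∀ a : ↥(X.mem i), ψ a ∈ st.verts (ψ i) := fun a => by
    rw [h.verts i hi']; exact mem_image_of_mem ψ a.2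
  have hroot : ∀ t a, st.root (ψ' (newR X i j t a)) = f t := fun t a => by
    rw [hN]; exact St.mem_verts.1 ((twMap_spec (htw t)).2.1.mapsTo (mem_coe.2 (hvi a)))
  have hNi : ∀ t, ψ' (newR X i j t ⟨i, hi⟩) = f t := fun t => by
    rw [hN]; exact (twMap_spec (htw t)).1
  have hisroot : ∀ t a, st.root (ψ' (newR X i j t a)) = ψ' (newR X i j t a) → a = ⟨i, hi⟩ := by
    intro t a e
    rw [hroot, ← hNi t] at e
    exact ((newR_inj.1 (ψ'.injective e)).2).symm
  have hblkN : ∀ t a, (cShape X hi G j (topPos st X ψ i f)).blk (newR X i j t a) =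
      newR X i j t a ↔ a = ⟨i, hi⟩ := fun t a => by
    rw [cShape_blk_new, newR_inj]; simp [eq_comm]
  -- the copies are onto the twins outside
  have honto : ∀ y ∈ outside st ψ i, ∃ t, f t = y := by
    intro y hy
    have : univ.map f = outside st ψ i := eq_of_subset_of_card_le
      (fun z hz => by obtain ⟨t, -, rfl⟩ := mem_map.1 hz; exact hf t) (by simp [hcard])
    obtain ⟨t, -, e⟩ := mem_map.1 (this ▸ hy)
    exact ⟨t, e⟩
  refine ⟨fun x => ?_, fun x => ?_, fun x hx => ?_, fun x => ?_, fun x => ?_, fun x => ?_,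
    fun x hx => ?_⟩
  · -- out
    rcases role_cases x with ⟨a, rfl⟩ | ⟨t, a, rfl⟩
    · rw [hO, cShape_b_old, h.out, image_image]
      exact image_congr fun c _ => (hO c).symm
    · obtain ⟨-, -, hπ⟩ := twMap_spec (htw t)
      obtain ⟨h1, h2⟩ := hπ _ (hvi a)
      rw [h.out, h.verts i hi', ← image_inter _ _ ψ.injective, image_image] at h1
      rw [h.out, h.verts i hi', ← image_sdiff _ _ ψ.injective] at h2
      rw [hN, cShape_b_new, image_image, ← sdiff_union_inter (outs st _) (st.verts (f t)), h2, h1]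
      ext z
      simp only [mem_union, mem_image, mem_inter, mem_sdiff, Function.comp_apply]
      constructor
      · rintro (⟨c, ⟨hc, hc'⟩, rfl⟩ | ⟨c, ⟨hc, hc'⟩, rfl⟩)
        · exact ⟨c, hc, by rw [dif_neg hc', hO]⟩
        · exact ⟨c, hc, by rw [dif_pos hc', hN]⟩
      · rintro ⟨c, hc, rfl⟩
        by_cases hc' : c ∈ X.mem i
        · exact Or.inr ⟨c, ⟨hc, hc'⟩, by rw [dif_pos hc', hN]⟩
        · exact Or.inl ⟨c, ⟨hc, hc'⟩, by rw [dif_neg hc', hO]⟩
  · -- root
    rcases role_cases x with ⟨a, rfl⟩ | ⟨t, a, rfl⟩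
    · rw [cShape_blk_old, hO, hO, h.root]
    · rw [cShape_blk_new, hNi, hroot]
  · -- verts
    rcases role_cases x with ⟨a, rfl⟩ | ⟨t, a, rfl⟩
    · rw [cShape_blk_old] at hx
      have ha := oldR_injective X i j hx
      rw [hO, h.verts a ha]
      ext y
      simp only [mem_image, Shape.mem_mem]
      constructor
      · rintro ⟨c, hc, rfl⟩
        exact ⟨oldR X i j c, by rw [cShape_blk_old, hc], hO c⟩
      · rintro ⟨z, hz, rfl⟩
        rcases role_cases z with ⟨c, rfl⟩ | ⟨u, c, rfl⟩
        · rw [cShape_blk_old] at hz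
          exact ⟨c, oldR_injective X i j hz, (hO c).symm⟩
        · rw [cShape_blk_new] at hz
          exact absurd hz.symm old_ne_new
    · obtain rfl := (hblkN t a).1 hx
      rw [hNi]
      ext y
      simp only [mem_image, Shape.mem_mem]
      constructor
      · intro hy
        obtain ⟨z, hz, rfl⟩ := (twMap_spec (htw t)).2.1.surjOn (mem_coe.2 hy)
        rw [mem_coe, h.verts i hi'] at hz
        obtain ⟨c, hc, rfl⟩ := mem_image.1 hz
        exact ⟨newR X i j t ⟨c, hc⟩, by rw [cShape_blk_new], hN _ _⟩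
      · rintro ⟨z, hz, rfl⟩
        rcases role_cases z with ⟨c, rfl⟩ | ⟨u, c, rfl⟩
        · rw [cShape_blk_old] at hz
          exact absurd hz old_ne_new
        · rw [cShape_blk_new, newR_inj] at hz
          rw [St.mem_verts, hroot, hz.1]
  · -- big
    rcases role_cases x with ⟨a, rfl⟩ | ⟨t, a, rfl⟩
    · rw [hO, cShape_blk_old, (oldR_injective X i j).eq_iff, ← h.big]
      simp only [cShape, (oldR_injective X i j).mem_finset_image]
    · refine iff_of_false (fun hm => ?_) ?_
      · obtain ⟨c, -, e⟩ := mem_image.1 hm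
        exact old_ne_new e
      · rintro ⟨hx, hE⟩
        obtain rfl := (hblkN t a).1 hx
        rw [hNi, (htw t).eW_eq.1] at hE
        have := hHub.2.2.1
        omega
  · -- hub
    rcases role_cases x with ⟨a, rfl⟩ | ⟨t, a, rfl⟩
    · rw [hO, ← h.hub]
      simp only [cShape, mem_union, (oldR_injective X i j).mem_finset_image, mem_image]
      exact ⟨fun e => e.resolve_right fun ⟨u, _, hu⟩ => old_ne_new hu.symm, Or.inl⟩
    · simp only [cShape, mem_union, mem_image]
      constructor
      · rintro (⟨c, -, e⟩ | ⟨u, -, e⟩)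
        · exact absurd e old_ne_new
        · rw [← e, hNi]
          exact hHub.twin (htw u)
      · intro hh
        obtain rfl := hisroot t a hh.1
        exact Or.inr ⟨t, mem_univ _, rfl⟩
  · -- top
    have hnotop : (grp st X ψ i ∩ X.top).Nonempty → ∀ u, ¬ IsTop st (f u) := by
      rintro ⟨c, hc⟩ u hu
      obtain ⟨hc1, hc2⟩ := mem_inter.1 hc
      obtain ⟨hcb, hct⟩ := mem_grp.1 hc1
      refine (mem_sdiff.1 (hf u)).2 ?_
      rw [← top_unique hinv hU ((h.root_iff c).2 hcb) ((h.top c).1 hc2).2 hu
        (twin_trans (twin_symm ((h.root_iff i).2 hi') hct) (htw u))]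
      exact mem_map_of_mem _ (mem_univ c)
    rcases role_cases x with ⟨a, rfl⟩ | ⟨t, a, rfl⟩
    · rw [hO, ← h.top]
      unfold topPos
      split_ifs with hh
      · simp only [cShape, Option.elim_some, mem_insert, old_ne_new, false_or,
          (oldR_injective X i j).mem_finset_image, mem_sdiff]
        refine ⟨And.left, fun ha => ⟨ha, fun haG => hh.1 ⟨a, mem_inter.2 ⟨hG ▸ haG, ha⟩⟩⟩⟩
      · simp only [cShape, Option.elim_none, (oldR_injective X i j).mem_finset_image]
    · unfold topPos
      split_ifs with hh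
      · simp only [cShape, Option.elim_some, mem_insert, mem_image]
        constructor
        · rintro (e | ⟨c, -, e⟩)
          · rw [e, hNi]; exact ⟨hHub.twin (htw _), hh.2.choose_spec⟩
          · exact absurd e old_ne_new
        · rintro ⟨hh1, hh2⟩
          obtain rfl := hisroot t a hh1.1
          rw [hNi] at hh2
          refine Or.inl (newR_inj.2 ⟨f.injective ?_, rfl⟩)
          exact top_unique hinv hU (htw t).1 hh2 hh.2.choose_spec
            (twin_trans (twin_symm ((h.root_iff i).2 hi') (htw t)) (htw _))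
      · simp only [cShape, Option.elim_none, mem_image]
        refine iff_of_false (fun ⟨c, _, e⟩ => old_ne_new e) ?_
        rintro ⟨hh1, hh2⟩
        obtain rfl := hisroot t a hh1.1
        rw [hNi] at hh2
        exact hh ⟨fun hne => hnotop hne t hh2, t, hh2⟩
  · -- done
    have hnew : ∀ y ∈ cls st (ψ i), ∃ z ∈ (cShape X hi G j (topPos st X ψ i f)).dn, ψ' z = y := by
      intro y hy
      by_cases hm : y ∈ univ.map ψ
      · obtain ⟨g, hg, rfl⟩ := cls_inter h hy hm
        exact ⟨oldR X i j g, mem_union_left _ (mem_image_of_mem _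
          (mem_union_right _ (hG ▸ hg))), hO g⟩
      · obtain ⟨t, rfl⟩ := honto y (mem_sdiff.2 ⟨hy, hm⟩)
        exact ⟨newR X i j t ⟨i, hi⟩, mem_union_right _ (mem_image_of_mem _ (mem_univ t)), hNi t⟩
    have hri : st.root (ψ i) = ψ i := (h.root_iff i).2 hi'
    simp only [cShape, mem_union, mem_image] at hx
    rcases hx with ⟨a, ha, rfl⟩ | ⟨t, -, rfl⟩
    · rw [hO]
      rcases ha with ha | ha
      · obtain ⟨ha1, ha2⟩ := h.dn a ha
        refine ⟨mem_union_left _ (mem_image_of_mem _ ha1), fun y hy => ?_⟩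
        obtain ⟨c, hc, rfl⟩ := ha2 y hy
        exact ⟨oldR X i j c, mem_union_left _ (mem_image_of_mem _ (mem_union_left _ hc)), hO c⟩
      · rw [← hG, mem_grp] at ha
        refine ⟨mem_union_left _ (mem_image_of_mem _ ((h.hub a).2 (hHub.twin ha.2))), ?_⟩
        rw [cls_eq hri ha.2]
        exact hnew
    · rw [hNi, cls_eq hri (htw t)]
      exact ⟨mem_union_right _ (mem_image_of_mem _ (mem_univ t)), hnew⟩

end Step

theorem sum_copies {A : ℝ} (hA : 0 ≤ A) {T C : ℝ} (hT : 80 * A ≤ T) (hC0 : 0 ≤ C)
    (hC : C ≤ Real.exp T) {m : ℕ} (hm : 1 ≤ m) (J : Finset ℕ) (hJ : ∀ j ∈ J, T ≤ (m + j : ℕ)) :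
    ∑ j ∈ J, ((j : ℝ) + 1) * C * A ^ j / j.factorial ≤ 18 ^ m := by
  have hexp : ∀ k : ℕ, Real.exp (k : ℝ) ≤ 3 ^ k := fun k => by
    rw [← mul_one (k : ℝ), Real.exp_nat_mul]
    exact pow_le_pow_left₀ (Real.exp_pos _).le (by linarith [Real.exp_one_lt_d9]) k
  have hterm : ∀ j ∈ J, ((j : ℝ) + 1) * C * A ^ j / j.factorial ≤
      3 ^ m * ((6 * A) ^ j / j.factorial) := by
    intro j hj
    rw [mul_div_assoc' (3 ^ m : ℝ)]
    refine div_le_div_of_nonneg_right ?_ (Nat.cast_nonneg _)
    have h1 : ((j : ℝ) + 1) ≤ 2 ^ j := by exact_mod_cast Nat.lt_two_pow_self (n := j)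
    calc ((j : ℝ) + 1) * C * A ^ j ≤ 2 ^ j * (3 ^ m * 3 ^ j) * A ^ j := by
          gcongr
          rw [← pow_add]
          exact hC.trans ((Real.exp_le_exp.2 (hJ j hj)).trans (hexp _))
      _ = 3 ^ m * (6 * A) ^ j := by rw [show (6 : ℝ) * A = 2 * 3 * A by ring, mul_pow, mul_pow]; ring
  refine (Finset.sum_le_sum hterm).trans ?_
  rw [← Finset.mul_sum]
  suffices h : ∑ j ∈ J, (6 * A) ^ j / (j.factorial : ℝ) ≤ 2 * 3 ^ m by
    calc (3 : ℝ) ^ m * ∑ j ∈ J, (6 * A) ^ j / (j.factorial : ℝ) ≤ 3 ^ m * (2 * 3 ^ m) :=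
          mul_le_mul_of_nonneg_left h (by positivity)
      _ ≤ 3 ^ m * (2 ^ m * 3 ^ m) := by gcongr; exact le_self_pow₀ one_le_two (by omega)
      _ = _ := by rw [← mul_pow, ← mul_pow]; norm_num
  obtain ⟨N, hN⟩ : ∃ N, J ⊆ range N := ⟨J.sup id + 1, fun x hx =>
    mem_range.2 (Nat.lt_succ_of_le (le_sup (f := id) hx))⟩
  by_cases hbig : T ≤ 2 * m
  · refine (Finset.sum_le_sum_of_subset_of_nonneg hN fun j _ _ => by positivity).trans ?_
    refine ((Real.sum_le_exp_of_nonneg (by positivity) N).trans
      (Real.exp_le_exp.2 (show 6 * A ≤ (m : ℝ) by linarith))).trans ((hexp m).trans ?_)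
    linarith [show (0 : ℝ) < 3 ^ m by positivity]
  · have hsum : ∑ j ∈ J, (6 * A) ^ j / (j.factorial : ℝ) ≤ ∑ j ∈ J, (1 / 2 : ℝ) ^ j := by
      refine Finset.sum_le_sum fun j hj => ?_
      have h40 : 40 * A ≤ j := by
        have := hJ j hj
        push_cast at this
        linarith
      rcases Nat.eq_zero_or_pos j with rfl | hj0
      · simp
      have hjR : (0 : ℝ) < j := by exact_mod_cast hj0
      have hfac := Real.pow_div_factorial_le_exp (j : ℝ) hjR.le j
      rw [div_le_iff₀ (by positivity)] at hfac ⊢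
      have h3 : (6 * A) ^ j * 6 ^ j ≤ (j : ℝ) ^ j := by
        rw [← mul_pow]; exact pow_le_pow_left₀ (by positivity) (by linarith) j
      refine le_of_mul_le_mul_right (h3.trans (hfac.trans ?_)) (by positivity : (0 : ℝ) < 6 ^ j)
      calc Real.exp (j : ℝ) * j.factorial ≤ 3 ^ j * j.factorial :=
            mul_le_mul_of_nonneg_right (hexp j) (Nat.cast_nonneg _)
        _ = _ := by rw [mul_right_comm, ← mul_pow]; norm_num
    refine hsum.trans ?_
    refine (Finset.sum_le_sum_of_subset_of_nonneg hN fun j _ _ => by positivity).trans ?_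
    refine (sum_geometric_two_le N).trans ?_
    nlinarith [one_le_pow₀ (show (1 : ℝ) ≤ 3 by norm_num) (n := m)]

/-- Every shape obeys the bound. -/
theorem fit_le (hs : Setting n H0 q E st thr R ρ P) :
    ∀ (N W : ℕ) (X : Shape W), (X.hub \ X.dn).card ≤ N →
      ((fitMaps st E thr X).card : ℝ) ≤ shapeBound n q P R X := by
  classical
  intro N
  induction N with
  | zero =>
    exact fun W X hX => fit_base hs (Finset.sdiff_eq_empty_iff_subset.1 (card_eq_zero.1 (by omega)))
  | succ N ih =>
    intro W X hX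
    rcases (X.hub \ X.dn).eq_empty_or_nonempty with he | ⟨i, hi⟩
    · exact fit_base hs (Finset.sdiff_eq_empty_iff_subset.1 he)
    have hP0 := hs.P_pos
    have hwt0 : ∀ (b : Prop) [Decidable b], (0 : ℝ) ≤ if b then q else P := fun b _ => by
      split_ifs <;> linarith [hs.hq]
    rcases (fitMaps st E thr X).eq_empty_or_nonempty with h0 | ⟨ψ₀, hψ₀⟩
    · rw [h0, card_empty, Nat.cast_zero, shapeBound]
      exact mul_nonneg (by positivity) (prod_nonneg fun _ _ => pow_nonneg (hwt0 _) _)
    rw [mem_fitMaps] at hψ₀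
    obtain ⟨hih, hid⟩ := mem_sdiff.1 hi
    have hi' : X.blk i = i := hψ₀.hub_root hih
    have him : i ∈ X.mem i := Shape.mem_mem.2 hi'
    have hri : st.root (ψ₀ i) = ψ₀ i := (hψ₀.root_iff i).2 hi'
    have hHub : Hub st E thr (ψ₀ i) := (hψ₀.hub i).1 hih
    set G := grp st X ψ₀ i with hG
    set v := (X.mem i).card with hv
    set e := eW st (ψ₀ i) with he
    have he1 : 1 ≤ e := hHub.2.1
    have hiG : i ∈ G := mem_grp.2 ⟨hi', twin_refl hri⟩
    have hGd : ∀ g ∈ G, g ∉ X.dn := by
      intro g hg hgd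
      obtain ⟨-, hgt⟩ := mem_grp.1 hg
      obtain ⟨c, hc, hce⟩ := (hψ₀.dn g hgd).2 (ψ₀ i) (mem_cls.2 (twin_symm hri hgt))
      exact hid (ψ₀.injective hce ▸ hc)
    -- split by the number of twins outside
    set F := fun j : ℕ => (fitMaps st E thr X).filter fun ψ => (outside st ψ i).card = j with hF
    set J := (range (n + 1)).filter fun j => (F j).Nonempty with hJ
    have hsplit : (fitMaps st E thr X).card ≤ ∑ j ∈ J, (F j).card := by
      refine le_trans (card_le_card fun ψ hψ => ?_) card_biUnion_le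
      refine mem_biUnion.2 ⟨(outside st ψ i).card, mem_filter.2 ⟨mem_range.2 (Nat.lt_succ_of_le
        ((card_le_univ _).trans (by simp))), ψ, mem_filter.2 ⟨hψ, rfl⟩⟩, mem_filter.2 ⟨hψ, rfl⟩⟩
    set BX := shapeBound n q P R X with hBX
    set me := G.card * e with hme
    set A : ℝ := (2 * n : ℝ) ^ v * q ^ e with hA
    set C : ℝ := 2 ^ 17 * R with hC
    have hC1 : 1 ≤ C := by
      have : (1 : ℝ) ≤ R := by exact_mod_cast hs.hR
      rw [hC]; linarith
    have hbound : ∀ j : ℕ, ∀ k : Option (Fin j),
        shapeBound n q P R (cShape X him G j k) * P ^ me ≤ BX * (C * A ^ j * q ^ me) := by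
      intro j k
      have htops : ((cShape X him G j k).top ∩ (cShape X him G j k).dn).card ≤
          (X.top ∩ X.dn).card + 1 := by
        have hGt : (G ∩ X.top).card ≤ 1 := card_le_one.2 fun a ha b hb => by
          obtain ⟨ha1, ha2⟩ := mem_inter.1 ha
          obtain ⟨hb1, hb2⟩ := mem_inter.1 hb
          obtain ⟨hab, hat⟩ := mem_grp.1 ha1
          obtain ⟨-, hbt⟩ := mem_grp.1 hb1
          exact ψ₀.injective (top_unique hs.inv hs.hU ((hψ₀.root_iff a).2 hab)
            ((hψ₀.top a).1 ha2).2 ((hψ₀.top b).1 hb2).2 (twin_trans (twin_symm hri hat) hbt))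
        cases k with
        | none =>
          refine le_trans (card_le_card (t := (X.top ∩ X.dn).image (oldR X i j) ∪
            (G ∩ X.top).image (oldR X i j)) ?_) ((card_union_le _ _).trans
              (add_le_add card_image_le (card_image_le.trans hGt)))
          intro x hx
          simp only [cShape, Option.elim_none, mem_inter, mem_image, mem_union] at hx
          obtain ⟨⟨a, ha, rfl⟩, ⟨c, hc, hce⟩ | ⟨t, -, hte⟩⟩ := hx
          · rw [oldR_injective X i j hce] at hc
            rcases hc with hc | hc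
            · exact mem_union_left _ (mem_image_of_mem _ (mem_inter.2 ⟨ha, hc⟩))
            · exact mem_union_right _ (mem_image_of_mem _ (mem_inter.2 ⟨hc, ha⟩))
          · exact absurd hte.symm old_ne_new
        | some u =>
          refine le_trans (card_le_card (t := insert (newR X i j u ⟨i, him⟩)
            ((X.top ∩ X.dn).image (oldR X i j))) ?_)
            ((card_insert_le _ _).trans (Nat.add_le_add_right card_image_le 1))
          intro x hx
          simp only [cShape, Option.elim_some, mem_inter, mem_image, mem_union, mem_insert,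
            mem_sdiff] at hx
          obtain ⟨rfl | ⟨a, ⟨ha, haG⟩, rfl⟩, hd⟩ := hx
          · exact mem_insert_self _ _
          rcases hd with ⟨c, hc, hce⟩ | ⟨t, -, hte⟩
          · rw [oldR_injective X i j hce] at hc
            exact mem_insert_of_mem (mem_image_of_mem _ (mem_inter.2 ⟨ha, hc.resolve_right haG⟩))
          · exact absurd hte.symm old_ne_new
      have hprod : (∏ x, (if (cShape X him G j k).blk x ∈ (cShape X him G j k).dn then q else P) ^
          ((cShape X him G j k).b x).card) =
          (∏ a, (if X.blk a ∈ X.dn ∪ G then q else P) ^ (X.b a).card) * (q ^ e) ^ j := by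
        rw [← (cEquiv X i j).prod_comp, Fintype.prod_sum_type]
        congr 1
        · refine Finset.prod_congr rfl fun a _ => ?_
          rw [← oldR, cShape_b_old, cShape_blk_old, card_image_of_injective _ (oldR_injective X i j)]
          refine congrArg (· ^ _) (if_congr ?_ rfl rfl)
          simp only [cShape, mem_union, mem_image, (oldR_injective X i j).eq_iff, exists_eq_right]
          exact ⟨fun h => h.resolve_right fun ⟨t, _, ht⟩ => old_ne_new ht.symm, Or.inl⟩
        · rw [Fintype.prod_prod_type, Finset.prod_congr rfl (g := fun _ => q ^ e) ?_, prod_const,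
            card_univ, Fintype.card_fin]
          · intro t _
            rw [he, hψ₀.eW_eq hi', ← prod_pow_eq_pow_sum, ← Finset.prod_coe_sort (X.mem i)]
            refine Finset.prod_congr rfl fun a _ => ?_
            rw [← newR, cShape_b_new, cShape_blk_new, if_pos ?_]
            · refine congrArg (q ^ ·) (card_image_of_injective _ fun c c' hcc => ?_)
              split_ifs at hcc with h1 h2 h3
              · exact congrArg Subtype.val (newR_inj.1 hcc).2
              · exact absurd hcc.symm old_ne_new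
              · exact absurd hcc old_ne_new
              · exact oldR_injective X i j hcc
            · exact mem_union_right _ (mem_image_of_mem _ (mem_univ t))
      have hold : (∏ a, (if X.blk a ∈ X.dn ∪ G then q else P) ^ (X.b a).card) * P ^ me =
          (∏ a, (if X.blk a ∈ X.dn then q else P) ^ (X.b a).card) * q ^ me := by
        have hsum : me = ∑ a ∈ univ.filter (fun a => X.blk a ∈ G), (X.b a).card := by
          rw [← sum_fiberwise_of_maps_to (g := X.blk) (t := G) fun a ha => (mem_filter.1 ha).2,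
            hme, ← smul_eq_mul, ← sum_const]
          refine sum_congr rfl fun g hg => ?_
          obtain ⟨hgb, hgt⟩ := mem_grp.1 hg
          rw [he, ← hgt.eW_eq.1, hψ₀.eW_eq hgb]
          refine sum_congr ?_ fun _ _ => rfl
          ext a
          simp only [Shape.mem_mem, mem_filter, mem_univ, true_and]
          exact ⟨fun h => ⟨h ▸ hg, h⟩, And.right⟩
        rw [hsum, ← prod_pow_eq_pow_sum, ← prod_pow_eq_pow_sum, prod_filter, prod_filter,
          ← prod_mul_distrib, ← prod_mul_distrib]
        refine prod_congr rfl fun a _ => ?_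
        by_cases hg : X.blk a ∈ G
        · simp [hg, hGd _ hg, mul_comm]
        · simp [hg]
      rw [shapeBound, hprod, hBX, shapeBound]
      set Po := ∏ a, (if X.blk a ∈ X.dn ∪ G then q else P) ^ (X.b a).card with hPo
      set Pd := ∏ a, (if X.blk a ∈ X.dn then q else P) ^ (X.b a).card with hPd
      have hPd0 : 0 ≤ Pd := prod_nonneg fun _ _ => pow_nonneg (hwt0 _) _
      have hqe : 0 ≤ (q ^ e) ^ j * Pd * q ^ me := by
        have := hs.hq.le
        positivity
      calc (2 * n : ℝ) ^ (W + j * (X.mem i).card) * C ^ _ * (Po * (q ^ e) ^ j) * P ^ me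
          = (2 * n : ℝ) ^ (W + j * v) * C ^ ((cShape X him G j k).top ∩ (cShape X him G j k).dn).card
              * ((q ^ e) ^ j * (Po * P ^ me)) := by rw [hv]; ring
        _ ≤ (2 * n : ℝ) ^ (W + j * v) * C ^ ((X.top ∩ X.dn).card + 1) *
              ((q ^ e) ^ j * (Pd * q ^ me)) := by
            rw [hold, ← mul_assoc ((q ^ e) ^ j)]
            exact mul_le_mul_of_nonneg_right
              (mul_le_mul_of_nonneg_left (pow_le_pow_right₀ hC1 htops) (by positivity)) hqe
        _ = _ := by
            rw [hA, mul_pow ((2 * n : ℝ) ^ v), ← pow_mul (2 * n : ℝ), mul_comm j v, pow_add,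
              pow_succ C]
            ring
    -- maps with `j` twins outside
    have hFj : ∀ j ∈ J, ((F j).card : ℝ) * P ^ me ≤
        BX * q ^ me * (((j : ℝ) + 1) * C * A ^ j / j.factorial) := by
      intro j hj
      have hmeas : ∀ k : Option (Fin j),
          ((cShape X him G j k).hub \ (cShape X him G j k).dn).card ≤ N := by
        intro k
        refine le_trans (card_le_card (t := ((X.hub \ X.dn) \ G).image (oldR X i j)) ?_)
          (card_image_le.trans ?_)
        · intro x hx
          simp only [cShape, mem_sdiff, mem_union, mem_image, not_or, not_exists, not_and] at hx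
          obtain ⟨⟨a, ha, rfl⟩ | ⟨t, -, rfl⟩, h1, h2⟩ := hx
          · exact mem_image_of_mem _ (mem_sdiff.2 ⟨mem_sdiff.2 ⟨ha, fun hd => h1 a (Or.inl hd) rfl⟩,
              fun hg => h1 a (Or.inr hg) rfl⟩)
          · exact absurd rfl (h2 t (mem_univ t))
        · have : ((X.hub \ X.dn) \ G).card < (X.hub \ X.dn).card :=
            card_lt_card ((ssubset_iff_of_subset sdiff_subset).2
              ⟨i, hi, fun h => (mem_sdiff.1 h).2 hiG⟩)
          omega
      set pairs := (F j).sigma fun ψ => (univ : Finset (Fin j ↪ Fin n)).filter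
        fun f => ∀ t, f t ∈ outside st ψ i with hpairs
      have hlow : (F j).card * j.factorial ≤ pairs.card := by
        rw [hpairs, card_sigma, ← smul_eq_mul, ← sum_const]
        refine sum_le_sum fun ψ hψ => ?_
        have hc : Fintype.card (↥(outside st ψ i)) = j := by
          simpa using (mem_filter.1 hψ).2
        calc j.factorial = (univ : Finset (Fin j ↪ ↥(outside st ψ i))).card := by
              rw [card_univ, Fintype.card_embedding_eq, hc, Fintype.card_fin, Nat.descFactorial_self]
          _ ≤ _ := card_le_card_of_injOn (fun f => f.trans (Function.Embedding.subtype _))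
              (fun f _ => mem_coe.2 (mem_filter.2 ⟨mem_univ _, fun t => (f t).2⟩))
              (fun f _ g _ h => Function.Embedding.ext fun t =>
                Subtype.ext (DFunLike.congr_fun h t))
      have hfit : ∀ p ∈ pairs, Fits st E thr X p.1 ∧ grp st X p.1 i = G ∧
          (outside st p.1 i).card = j ∧ ∀ t, p.2 t ∈ outside st p.1 i := by
        intro p hp
        obtain ⟨h1, h2⟩ := mem_sigma.1 hp
        obtain ⟨h3, h4⟩ := mem_filter.1 h1
        exact ⟨mem_fitMaps.1 h3, hψ₀.grp_eq (mem_fitMaps.1 h3) hi', h4, (mem_filter.1 h2).2⟩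
      have hup : pairs.card ≤
          ∑ k : Option (Fin j), (fitMaps st E thr (cShape X him G j k)).card := by
        refine le_trans (card_le_card_of_injOn (t := univ.biUnion fun k : Option (Fin j) =>
          (fitMaps st E thr (cShape X him G j k)).image
            fun φ : Fin (W + j * (X.mem i).card) ↪ Fin n =>
              (φ : Fin (W + j * (X.mem i).card) → Fin n))
          (fun p => cMap st X i j p.1 p.2) ?_ ?_)
          (card_biUnion_le.trans (sum_le_sum fun _ _ => card_image_le))
        · intro p hp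
          obtain ⟨h1, h2, h3, h4⟩ := hfit p (mem_coe.1 hp)
          exact mem_coe.2 (mem_biUnion.2 ⟨topPos st X p.1 i p.2, mem_univ _, mem_image.2
            ⟨⟨cMap st X i j p.1 p.2, cMap_injective h1 hi' h4⟩, mem_fitMaps.2
              (cMap_fits hs.inv hs.hU h1 hih h2 h3 h4 _), rfl⟩⟩)
        · rintro ⟨a, b⟩ hp ⟨a', b'⟩ hp' e'
          obtain ⟨h1, -, -, h4⟩ := hfit _ (mem_coe.1 hp)
          obtain ⟨h1', -, -, h4'⟩ := hfit _ (mem_coe.1 hp')
          have e1 : a = a' := Function.Embedding.ext fun c => by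
            simpa [cMap_old] using congrFun e' (oldR X i j c)
          subst e1
          have e2 : b = b' := Function.Embedding.ext fun t => by
            have := congrFun e' (newR X i j t ⟨i, him⟩)
            simp only [cMap_new] at this
            rwa [(twMap_spec (mem_cls.1 (mem_sdiff.1 (h4 t)).1)).1,
              (twMap_spec (mem_cls.1 (mem_sdiff.1 (h4' t)).1)).1] at this
          subst e2
          rfl
      have hfac : (0 : ℝ) < j.factorial := by exact_mod_cast j.factorial_pos
      rw [mul_div_assoc', le_div_iff₀ hfac]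
      calc ((F j).card : ℝ) * P ^ me * j.factorial
          = ((F j).card * j.factorial : ℕ) * P ^ me := by push_cast; ring
        _ ≤ ((∑ k : Option (Fin j), (fitMaps st E thr (cShape X him G j k)).card : ℕ) : ℝ) *
            P ^ me :=
          mul_le_mul_of_nonneg_right (Nat.cast_le.2 (hlow.trans hup)) (by positivity)
        _ = ∑ k : Option (Fin j), ((fitMaps st E thr (cShape X him G j k)).card : ℝ) * P ^ me := by
          push_cast; rw [sum_mul]
        _ ≤ ∑ _k : Option (Fin j), BX * (C * A ^ j * q ^ me) := sum_le_sum fun k _ =>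
          (mul_le_mul_of_nonneg_right (ih _ _ (hmeas k)) (by positivity)).trans (hbound j k)
        _ = _ := by
          rw [sum_const, card_univ, Fintype.card_option, Fintype.card_fin, nsmul_eq_mul]
          push_cast; ring
    have hBX0 : 0 ≤ BX := mul_nonneg (by positivity) (prod_nonneg fun _ _ => pow_nonneg (hwt0 _) _)
    have hJm : ∀ j ∈ J, (thr v e : ℝ) ≤ (G.card + j : ℕ) := by
      intro j hj
      obtain ⟨ψ, hψ⟩ := (mem_filter.1 hj).2
      obtain ⟨h1, h2⟩ := mem_filter.1 hψ
      rw [mem_fitMaps] at h1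
      have hH := ((h1.hub i).1 hih).2.2.2
      rw [h1.verts_card hi', h1.eW_eq hi', ← hψ₀.eW_eq hi', cls_card h1, h2,
        hψ₀.grp_eq h1 hi'] at hH
      exact_mod_cast hH.le
    have hA0 : 0 ≤ A := mul_nonneg (by positivity) (pow_nonneg hs.hq.le _)
    refine le_of_mul_le_mul_right ?_ (pow_pos hP0 me)
    calc ((fitMaps st E thr X).card : ℝ) * P ^ me
        ≤ (∑ j ∈ J, ((F j).card : ℝ)) * P ^ me :=
          mul_le_mul_of_nonneg_right (by exact_mod_cast hsplit) (by positivity)
      _ ≤ ∑ j ∈ J, BX * q ^ me * (((j : ℝ) + 1) * C * A ^ j / j.factorial) := by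
          rw [sum_mul]; exact sum_le_sum hFj
      _ ≤ BX * q ^ me * 18 ^ G.card := by
          rw [← mul_sum]
          exact mul_le_mul_of_nonneg_left (sum_copies hA0 (hs.thr_wt v e) (by linarith)
            (hs.thr_R v e) (card_pos.2 ⟨i, hiG⟩) J hJm)
            (mul_nonneg hBX0 (pow_nonneg hs.hq.le _))
      _ ≤ BX * P ^ me := by
          rw [mul_assoc]
          refine mul_le_mul_of_nonneg_left ?_ hBX0
          calc q ^ me * 18 ^ G.card ≤ q ^ me * 18 ^ me :=
                mul_le_mul_of_nonneg_left (pow_le_pow_right₀ (by norm_num)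
                  (Nat.le_mul_of_pos_right _ he1)) (pow_nonneg hs.hq.le _)
            _ = (18 * q) ^ me := by rw [← mul_pow, mul_comm]
            _ ≤ _ := pow_le_pow_left₀ (by linarith [hs.hq]) hs.hP18 _

end Vale.Agent.P064.Blk
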