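import Vale.Agent.P064.Owned

/-!
Embeddings into a graph with an acyclic orientation: only the vertices that have `s` successors
lose a factor `R`.
-/

namespace Vale.Agent.P064

open Finset

variable {n w : ℕ}

theorem core_owned (z₀ : Fin n) (A : Fin n → Finset (Fin n)) (F : Finset (Sym2 (Fin w)))
    {q Q : ℝ} (hq : 0 < q) (hqQ : q ≤ Q) {H0 : Finset (Sym2 (Fin n))} (hRich : Rich q H0) {d s : ℕ}
    (hd : ∀ x, (A x).card ≤ d) (hA : ∀ x y, s(x, y) ∈ H0 ↔ (y ∈ A x ∨ x ∈ A y))
    (hA' : ∀ x y, y ∈ A x → x ∉ A y) {rk : Fin n → ℕ} (hrk : ∀ x y, y ∈ A x → rk y < rk x)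
    (hco : ∀ Aset : Finset (Fin n), Aset.card < s →
      ((univ.filter fun z => ∀ a ∈ Aset, s(a, z) ∈ H0).card : ℝ) ≤ n * Q ^ Aset.card)
    {R : ℕ} (hR0 : 0 < R) (hnR : n ≤ 2 ^ R) :
    ∃ v : ℕ, s * v ≤ F.card ∧ ((embs H0 F).card : ℝ) ≤
      2 ^ (d * w) * (2 ^ F.card * ((2 ^ 17 * R : ℝ) ^ v * 2 ^ w * (n : ℝ) ^ w * Q ^ F.card)) := by
  classical
  have hQ0 : 0 ≤ Q := hq.le.trans hqQ
  set Bs : Finset (Fin n → Finset (Fin n)) := Fintype.piFinset fun y => (A y).powerset with hBs
  set exact' : (Fin n → Finset (Fin n)) → Finset (Fin w ↪ Fin n) := fun B =>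
    (embs H0 F).filter fun φ => ∀ i, B (φ i) = used A F φ (φ i) with hexact
  have hper : ∀ φ ∈ embs H0 F, Bs.card ≤
      2 ^ (d * w) * (Bs.filter fun B => ∀ i, B (φ i) = used A F φ (φ i)).card := by
    intro φ _
    have heq : (Bs.filter fun B => ∀ i, B (φ i) = used A F φ (φ i)) = Fintype.piFinset
        fun y => if y ∈ univ.image φ then {used A F φ y} else (A y).powerset := by
      ext B
      simp only [hBs, mem_filter, Fintype.mem_piFinset]
      constructor
      · rintro ⟨h1, h2⟩ y
        split_ifs with hy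
        · obtain ⟨i, -, rfl⟩ := mem_image.1 hy
          exact mem_singleton.2 (h2 i)
        · exact h1 y
      · intro h
        refine ⟨fun y => ?_, fun i => ?_⟩
        · have := h y
          split_ifs at this with hy
          · rw [mem_singleton] at this
            rw [this, mem_powerset]
            exact filter_subset _ _
          · exact this
        · have := h (φ i)
          rw [if_pos (mem_image_of_mem _ (mem_univ _)), mem_singleton] at this
          exact this
    rw [heq, hBs, Fintype.card_piFinset, Fintype.card_piFinset]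
    calc ∏ y, ((A y).powerset).card
        ≤ ∏ y, ((if y ∈ univ.image φ then 2 ^ d else 1) *
            (if y ∈ univ.image φ then {used A F φ y} else (A y).powerset).card) := by
          refine Finset.prod_le_prod' fun y _ => ?_
          split_ifs
          · rw [card_singleton, mul_one, card_powerset]
            exact Nat.pow_le_pow_right (by norm_num) (hd y)
          · rw [one_mul]
      _ = _ := by
          rw [Finset.prod_mul_distrib, Finset.prod_ite_mem, univ_inter, prod_const,
            card_image_of_injective _ φ.injective, card_univ, Fintype.card_fin, ← pow_mul]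
  have hBne : Bs.Nonempty := ⟨fun _ => ∅, by simp [hBs, Fintype.mem_piFinset]⟩
  obtain ⟨B, hB, hBavg⟩ : ∃ B ∈ Bs, (embs H0 F).card ≤ 2 ^ (d * w) * (exact' B).card := by
    by_contra hcon
    push Not at hcon
    have h1 := Finset.sum_lt_sum_of_nonempty hBne hcon
    rw [sum_const, smul_eq_mul, ← Finset.mul_sum] at h1
    have h2 : ∑ B ∈ Bs, (exact' B).card =
        ∑ φ ∈ embs H0 F, (Bs.filter fun B => ∀ i, B (φ i) = used A F φ (φ i)).card := by
      simp only [hexact, card_filter]
      exact Finset.sum_comm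
    rw [h2, Finset.mul_sum] at h1
    have h3 := Finset.sum_le_sum hper
    rw [sum_const, smul_eq_mul, mul_comm] at h3
    exact absurd (h3.trans_lt h1) (lt_irrefl _)
  set S : Finset (Fin n × Finset (Fin n)) := univ.image fun y => (y, B y) with hS
  have hBA : ∀ y, B y ⊆ A y := fun y => mem_powerset.1 (Fintype.mem_piFinset.1 hB y)
  have hinjS : Set.InjOn Prod.fst (S : Set (Fin n × Finset (Fin n))) := by
    intro u hu u' hu' h
    obtain ⟨y, -, rfl⟩ := mem_image.1 (mem_coe.1 hu)
    obtain ⟨y', -, rfl⟩ := mem_image.1 (mem_coe.1 hu')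
    simp only at h
    rw [h]
  have hSA : ∀ u ∈ S, u.2 ⊆ A u.1 := fun u hu => by
    obtain ⟨y, -, rfl⟩ := mem_image.1 hu
    exact hBA y
  have hHost : Host s q Q S := by
    refine ⟨hinjS, ⟨rk, fun u hu z hz => hrk _ _ (hSA u hu hz)⟩, fun J hJ => ?_, fun B' hB' => ?_⟩
    · have hJH : unitEdges J ⊆ H0 := by
        intro e he
        obtain ⟨u, hu, he⟩ := mem_biUnion.1 he
        obtain ⟨z, hz, rfl⟩ := mem_image.1 he
        exact (hA _ _).2 (Or.inl (hSA u (hJ hu) hz))
      have hw : wprod (unitWt q) J = q ^ (unitEdges J).card :=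
        wprod_units hA' (fun u hu => hSA u (hJ hu)) (hinjS.mono (coe_subset.2 hJ))
      simp only [wprod, unitWt] at hw
      rw [hw]
      refine (hRich _ hJH).trans (mul_le_mul_of_nonneg_right ?_ (by positivity))
      exact_mod_cast orb_unitEdges_le J
    · refine le_trans (Nat.cast_le.2 (card_le_card fun y hy => ?_)) (hco B' hB')
      have hy' := (mem_filter.1 hy).2
      exact mem_filter.2 ⟨mem_univ _, fun a ha => by
        rw [Sym2.eq_swap]
        exact (hA _ _).2 (Or.inl (hSA _ hy' ha))⟩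
  have hScard : (S.filter (Mark s)).card ≤ 2 ^ R :=
    (card_filter_le _ _).trans ((card_image_le.trans (by simp)).trans hnR)
  have hexp : ∀ φ ∈ embs H0 F, ∀ x : ℝ, ∏ i, x ^ (used A F φ (φ i)).card = x ^ F.card := by
    intro φ hφ x
    have hUA : ∀ u ∈ units A F φ, u.2 ⊆ A u.1 := fun u hu => by
      obtain ⟨i, -, rfl⟩ := mem_image.1 hu
      exact filter_subset _ _
    have hUinj : Set.InjOn Prod.fst (units A F φ : Set (Fin n × Finset (Fin n))) := by
      intro u hu u' hu' h
      obtain ⟨i, -, rfl⟩ := mem_image.1 (mem_coe.1 hu)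
      obtain ⟨i', -, rfl⟩ := mem_image.1 (mem_coe.1 hu')
      obtain rfl := φ.injective h
      rfl
    have := wprod_units (q := x) hA' hUA hUinj
    rw [unitEdges_units A F hA hφ,
      card_image_of_injective _ (Sym2.map.injective φ.injective)] at this
    rw [← this, wprod, units, Finset.prod_image fun i _ j _ h => φ.injective (congrArg Prod.fst h)]
    rfl
  -- classes by the code of the orientation
  set code : (Fin w ↪ Fin n) → Finset (Sym2 (Fin w)) := fun φ =>
    F.filter fun e => φ (Sym2.sup e) ∈ A (φ (Sym2.inf e)) with hcode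
  have hclass : ∀ c : Finset (Sym2 (Fin w)), ∃ v : ℕ, s * v ≤ F.card ∧
      (((exact' B).filter fun φ => code φ = c).card : ℝ) ≤
        (2 ^ 17 * R : ℝ) ^ v * 2 ^ w * (n : ℝ) ^ w * Q ^ F.card := by
    intro c
    rcases ((exact' B).filter fun φ => code φ = c).eq_empty_or_nonempty with h | ⟨φ₀, hφ₀⟩
    · exact ⟨0, by simp, by rw [h, card_empty, Nat.cast_zero]; positivity⟩
    set cls := (exact' B).filter fun φ => code φ = c with hcls
    have hmem : ∀ φ ∈ cls, φ ∈ embs H0 F ∧ code φ = c ∧ ∀ i, B (φ i) = used A F φ (φ i) := by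
      intro φ hφ
      obtain ⟨h1, h2⟩ := mem_filter.1 hφ
      obtain ⟨h1, h3⟩ := mem_filter.1 h1
      exact ⟨h1, h2, h3⟩
    have hout : ∀ φ ∈ cls, ∀ i j, s(i, j) ∈ F → φ₀ j ∈ A (φ₀ i) → φ j ∈ A (φ i) := by
      intro φ hφ i j hij h
      have hc : code φ = code φ₀ := by rw [(hmem φ hφ).2.1, (hmem φ₀ hφ₀).2.1]
      have hne : i ≠ j := by
        rintro rfl
        exact hA' _ _ h h
      rcases lt_or_gt_of_ne hne with hlt | hgt
      · have : s(i, j) ∈ code φ₀ := mem_filter.2 ⟨hij, by simpa [hlt.le] using h⟩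
        rw [← hc] at this
        simpa [hlt.le] using (mem_filter.1 this).2
      · have : s(i, j) ∉ code φ₀ :=
          fun hh => hA' _ _ h (by simpa [hgt.le] using (mem_filter.1 hh).2)
        rw [← hc] at this
        have h2 : φ i ∉ A (φ j) := fun hh => this (mem_filter.2 ⟨hij, by simpa [hgt.le] using hh⟩)
        exact ((hA _ _).1 ((mem_filter.1 (hmem φ hφ).1).2 _ hij)).resolve_right h2
    have hout' : ∀ φ ∈ cls, ∀ i j, s(i, j) ∈ F → φ j ∈ A (φ i) → φ₀ j ∈ A (φ₀ i) := by
      intro φ hφ i j hij h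
      rcases (hA _ _).1 ((mem_filter.1 (hmem φ₀ hφ₀).1).2 _ hij) with h' | h'
      · exact h'
      · exact absurd (hout φ hφ j i (by rwa [Sym2.eq_swap]) h') (hA' _ _ h)
    set o : Fin w → Finset (Fin w) := fun i =>
      univ.filter fun j => s(i, j) ∈ F ∧ φ₀ j ∈ A (φ₀ i) with ho
    have hused : ∀ φ ∈ cls, ∀ i, used A F φ (φ i) = (o i).image φ := by
      intro φ hφ i
      ext z
      simp only [used, ho, mem_filter, mem_image, mem_univ, true_and]
      constructor
      · rintro ⟨hz, e, he, hez⟩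
        induction e using Sym2.ind with
        | _ a b =>
          rw [Sym2.map_mk] at hez
          rcases Sym2.eq_iff.1 hez with ⟨h1, h2⟩ | ⟨h1, h2⟩
          · obtain rfl := φ.injective h1
            subst h2
            exact ⟨b, ⟨he, hout' φ hφ a b he hz⟩, rfl⟩
          · obtain rfl := φ.injective h2
            subst h1
            have he' : s(b, a) ∈ F := by rwa [Sym2.eq_swap]
            exact ⟨a, ⟨he', hout' φ hφ b a he' hz⟩, rfl⟩
      · rintro ⟨j, ⟨he, hj⟩, rfl⟩
        exact ⟨hout φ hφ i j he hj, _, he, rfl⟩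
    have hcard : ∀ x : ℝ, ∏ i, x ^ (o i).card = x ^ F.card := by
      intro x
      rw [← hexp φ₀ (hmem φ₀ hφ₀).1 x]
      refine Finset.prod_congr rfl fun i _ => ?_
      rw [hused φ₀ hφ₀ i, card_image_of_injective _ φ₀.injective]
    refine ⟨(marksOf o s (univ : Finset (Fin w))).card, ?_, ?_⟩
    · have h2 : ((2 : ℝ)) ^ (∑ i, (o i).card) = 2 ^ F.card := by
        rw [← Finset.prod_pow_eq_pow_sum, hcard]
      have h3 : ∑ i, (o i).card = F.card := (pow_right_strictMono₀ one_lt_two).injective h2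
      rw [← h3, mul_comm, ← smul_eq_mul, ← sum_const]
      refine le_trans ?_ (Finset.sum_le_sum_of_subset_of_nonneg (s := marksOf o s univ) (subset_univ _)
        fun _ _ _ => Nat.zero_le _)
      exact Finset.sum_le_sum fun i hi => (mem_filter.1 hi).2
    · rw [← hcard Q]
      refine le_trans ?_ (owned_final z₀ o (fun i => rk (φ₀ i))
        (fun i j hj => hrk _ _ (mem_filter.1 hj).2.2) hHost hq hqQ hR0 hScard)
      refine Nat.cast_le.2 (card_le_card_of_injOn (fun φ : Fin w ↪ Fin n => (φ : Fin w → Fin n))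
        ?_ ?_)
      · intro φ hφ
        refine mem_coe.2 (mem_filter.2 ⟨mem_filter.2 ⟨mem_univ _, φ.injective.injOn,
          fun i hi => absurd (mem_univ i) hi⟩, ?_⟩)
        intro u hu
        obtain ⟨i, -, rfl⟩ := mem_image.1 hu
        rw [unitOf, ← hused φ (mem_coe.1 hφ) i, ← (hmem φ (mem_coe.1 hφ)).2.2 i]
        exact mem_image_of_mem _ (mem_univ _)
      · exact fun φ _ ψ _ h => DFunLike.coe_injective h
  choose v hv hb using hclass
  obtain ⟨c₀, -, hmax⟩ := Finset.exists_max_image F.powerset v ⟨∅, empty_mem_powerset F⟩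
  refine ⟨v c₀, hv c₀, ?_⟩
  have hR1 : (1 : ℝ) ≤ R := by exact_mod_cast hR0
  have h17 : (1 : ℝ) ≤ 2 ^ 17 * R := by norm_num; linarith
  have hsum : ((exact' B).card : ℝ) ≤
      2 ^ F.card * ((2 ^ 17 * R : ℝ) ^ v c₀ * 2 ^ w * (n : ℝ) ^ w * Q ^ F.card) := by
    have hmaps : ∀ φ ∈ exact' B, code φ ∈ F.powerset := fun φ _ =>
      mem_powerset.2 (filter_subset _ _)
    rw [Finset.card_eq_sum_card_fiberwise hmaps, Nat.cast_sum]
    refine (Finset.sum_le_sum (g := fun _ => (2 ^ 17 * R : ℝ) ^ v c₀ * 2 ^ w * (n : ℝ) ^ w *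
      Q ^ F.card) fun c hc => (hb c).trans ?_).trans (le_of_eq ?_)
    · gcongr
      exact hmax c hc
    · rw [sum_const, card_powerset, nsmul_eq_mul, Nat.cast_pow, Nat.cast_ofNat]
  calc ((embs H0 F).card : ℝ) ≤ 2 ^ (d * w) * ((exact' B).card : ℝ) := by exact_mod_cast hBavg
    _ ≤ _ := mul_le_mul_of_nonneg_left hsum (by positivity)

end Vale.Agent.P064
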