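import Mathlib.Combinatorics.SimpleGraph.Copy
import Mathlib.Combinatorics.SimpleGraph.Finite
import Mathlib.Data.Real.Archimedean

/-!
The two thresholds of P064.
-/

namespace Vale.Agent.P064

open Finset

/-- The edges of the complete graph on `Fin n`. -/
def pairsOf (n : ℕ) : Finset (Sym2 (Fin n)) := (⊤ : SimpleGraph (Fin n)).edgeFinset

/-- The probability that the edge set of `G(n,p)` is `W`. -/
noncomputable def gnpWeight (n : ℕ) (p : ℝ) (W : Finset (Sym2 (Fin n))) : ℝ :=
  p ^ W.card * (1 - p) ^ ((pairsOf n).card - W.card)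

/-- The expected number of copies of `H` in `G(n,p)`. -/
noncomputable def expCopies (n : ℕ) (p : ℝ) {α : Type} (H : SimpleGraph α) : ℝ :=
  ∑ W ∈ (pairsOf n).powerset,
    gnpWeight n p W * (SimpleGraph.fromEdgeSet (W : Set (Sym2 (Fin n)))).copyCount H

/-- The probability that `G(n,p)` contains a copy of `H`. -/
noncomputable def probContains (n : ℕ) (p : ℝ) {α : Type} (H : SimpleGraph α) : ℝ :=
  ∑ W ∈ (pairsOf n).powerset,
    if 0 < (SimpleGraph.fromEdgeSet (W : Set (Sym2 (Fin n)))).copyCount H then gnpWeight n p W else 0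

/-- The threshold `p_c(n,H)`. -/
noncomputable def pC (n : ℕ) {α : Type} (H : SimpleGraph α) : ℝ :=
  sInf {p : ℝ | p ∈ Set.Icc 0 1 ∧ 1 / 2 ≤ probContains n p H}

/-- The expectation threshold `p_E(n,H)`. -/
noncomputable def pE (n : ℕ) {α : Type} (H : SimpleGraph α) : ℝ :=
  sInf {p : ℝ | p ∈ Set.Icc 0 1 ∧ ∀ F : H.Subgraph, 1 / 2 ≤ expCopies n p F.coe}

end Vale.Agent.P064
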