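import Mathlib.Data.Finset.Powerset
import Mathlib.Data.Real.Basic
import Mathlib.Algebra.BigOperators.Ring.Finset
import Mathlib.Algebra.Order.BigOperators.Group.Finset
import Mathlib.Algebra.BigOperators.Group.Finset.Powerset
import Mathlib.Tactic.Linarith
import Mathlib.Tactic.Ring
import Mathlib.Tactic.Positivity
import Mathlib.Tactic.FieldSimp

/-!
Random subsets with independent elements, and the threshold lemma for spread families
(a short version of the argument of Park-Pham and Rao).
-/

namespace Vale.Agent.P064

open Finset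

variable {X : Type*} [DecidableEq X]

/-- The probability that the random subset of `E` with density `p` equals `W`. -/
noncomputable def wt (E : Finset X) (p : ℝ) (W : Finset X) : ℝ :=
  p ^ W.card * (1 - p) ^ (E.card - W.card)

/-- The expectation of `f` of the random subset of `E` with density `p`. -/
noncomputable def expect (E : Finset X) (p : ℝ) (f : Finset X → ℝ) : ℝ :=
  ∑ W ∈ E.powerset, wt E p W * f W

omit [DecidableEq X] in
theorem wt_nonneg {E : Finset X} {p : ℝ} (h0 : 0 ≤ p) (h1 : p ≤ 1) (W : Finset X) :
    0 ≤ wt E p W :=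
  mul_nonneg (pow_nonneg h0 _) (pow_nonneg (sub_nonneg.2 h1) _)

omit [DecidableEq X] in
theorem expect_mono {E : Finset X} {p : ℝ} (h0 : 0 ≤ p) (h1 : p ≤ 1) {f g : Finset X → ℝ}
    (h : ∀ W ⊆ E, f W ≤ g W) : expect E p f ≤ expect E p g :=
  Finset.sum_le_sum fun W hW => mul_le_mul_of_nonneg_left (h W (mem_powerset.1 hW)) (wt_nonneg h0 h1 W)

omit [DecidableEq X] in
theorem expect_const (E : Finset X) (p c : ℝ) : expect E p (fun _ => c) = c := by
  simp only [expect, wt, ← Finset.sum_mul]
  rw [Finset.sum_pow_mul_eq_add_pow]
  simp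

omit [DecidableEq X] in
theorem expect_add (E : Finset X) (p : ℝ) (f g : Finset X → ℝ) :
    expect E p (fun W => f W + g W) = expect E p f + expect E p g := by
  simp only [expect, mul_add, Finset.sum_add_distrib]

theorem expect_insert {a : X} {E : Finset X} (ha : a ∉ E) (p : ℝ) (f : Finset X → ℝ) :
    expect (insert a E) p f =
      (1 - p) * expect E p f + p * expect E p (fun W => f (insert a W)) := by
  simp only [expect]
  rw [Finset.sum_powerset_insert ha, Finset.mul_sum, Finset.mul_sum]
  congr 1
  · refine Finset.sum_congr rfl fun W hW => ?_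
    have hW' := card_le_card (mem_powerset.1 hW)
    rw [wt, wt, card_insert_of_notMem ha, Nat.succ_sub hW', pow_succ]
    ring
  · refine Finset.sum_congr rfl fun W hW => ?_
    have hW' := mem_powerset.1 hW
    rw [wt, wt, card_insert_of_notMem ha, card_insert_of_notMem (fun h => ha (hW' h)),
      Nat.succ_sub_succ]
    ring

/-- The union of two independent random subsets. -/
theorem expect_union (E : Finset X) (a b : ℝ) :
    ∀ f : Finset X → ℝ, expect E a (fun U => expect E b fun V => f (U ∪ V)) =
      expect E (1 - (1 - a) * (1 - b)) f := by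
  induction E using Finset.induction with
  | empty => intro f; simp [expect, wt]
  | @insert x E hx ih =>
    intro f
    have h : ∀ (g : Finset X → ℝ) (U : Finset X), expect (insert x E) b (fun V => g (U ∪ V)) =
        (1 - b) * expect E b (fun V => g (U ∪ V)) +
          b * expect E b (fun V => g (insert x (U ∪ V))) := fun g U => by
      rw [expect_insert hx]
      simp only [Finset.union_insert]
    rw [expect_insert hx, expect_insert hx]
    simp only [Finset.insert_union]
    simp only [h, h (fun W => f (insert x W)), Finset.insert_idem]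
    have lin : ∀ (c d : ℝ) (F G : Finset X → ℝ), expect E a (fun U => c * F U + d * G U) =
        c * expect E a F + d * expect E a G := by
      intro c d F G
      simp only [expect, mul_add, Finset.sum_add_distrib, Finset.mul_sum]
      congr 1 <;> refine Finset.sum_congr rfl fun W _ => ?_ <;> ring
    rw [lin, lin, ih f, ih fun W => f (insert x W)]
    ring

omit [DecidableEq X] in
/-- Indicator of a containment event. -/
noncomputable def hitInd {ι : Type*} [DecidableEq X] (I : Finset ι) (S : ι → Finset X)
    (W : Finset X) : ℝ :=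
  if ∃ i ∈ I, S i ⊆ W then 1 else 0

/-- The density of the union of `r` independent random sets. -/
noncomputable def comb (p : ℝ) : ℕ → ℝ
  | 0 => 0
  | r + 1 => 1 - (1 - p) * (1 - comb p r)

theorem comb_bounds {p : ℝ} (h0 : 0 ≤ p) (h1 : p ≤ 1) :
    ∀ r : ℕ, 0 ≤ comb p r ∧ comb p r ≤ 1 ∧ comb p r ≤ r * p
  | 0 => by simp [comb]
  | r + 1 => by
    obtain ⟨a, b, c⟩ := comb_bounds h0 h1 r
    simp only [comb]
    push_cast
    refine ⟨?_, ?_, ?_⟩ <;> nlinarith

/-- Indicator of the event that some member is all but fewer than `M` elements covered. -/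
noncomputable def nearInd {ι : Type*} (I : Finset ι) (S : ι → Finset X) (M : ℕ)
    (W : Finset X) : ℝ :=
  if ∃ i ∈ I, (S i \ W).card < M then 1 else 0

/-- If the members have fewer than `M 2^r` elements and the family is `κ`-spread on sets of at
least `M` elements, then with probability at least `card/N - 1/4` the union of `r` rounds of density
`p ≥ 64 κ` covers some member up to fewer than `M` elements. -/
theorem spread_hit_upto {ι : Type*} (E : Finset X) {κ p N : ℝ} (hκ : 0 ≤ κ) (hp : 64 * κ ≤ p)
    (hp0 : 0 < p) (hp1 : p ≤ 1) (hN : 0 < N) {M : ℕ} (hM : 0 < M) :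
    ∀ (r : ℕ) (I : Finset ι) (S : ι → Finset X), (I.card : ℝ) ≤ N →
      (∀ i ∈ I, S i ⊆ E ∧ (S i).card < M * 2 ^ r) →
      (∀ T : Finset X, M ≤ T.card → ((I.filter (T ⊆ S ·)).card : ℝ) ≤ κ ^ T.card * N) →
      (I.card : ℝ) / N - (1 / 4) * (1 - (1 / 2) ^ r) ≤ expect E (comb p r) (nearInd I S M) := by
  classical
  intro r
  induction r with
  | zero =>
    intro I S hIN hS _
    rw [comb, pow_zero, sub_self, mul_zero, sub_zero]
    have h0 : expect E 0 (nearInd I S M) = nearInd I S M ∅ := by
      rw [expect, Finset.sum_eq_single ∅]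
      · simp [wt]
      · intro W _ hW
        simp [wt, zero_pow (Finset.card_ne_zero.2 (Finset.nonempty_iff_ne_empty.2 hW))]
      · simp
    rw [h0, nearInd]
    rcases Finset.eq_empty_or_nonempty I with rfl | ⟨i, hi⟩
    · simp
    · rw [if_pos ⟨i, hi, by simpa using (hS i hi).2⟩]
      exact (div_le_one hN).2 hIN
  | succ r ih =>
    intro I S hIN hS hsp
    have hfrag : ∀ (W : Finset X) (i : ι), ∃ T : Finset X, T ⊆ S i \ W ∧
        (i ∈ I → ∃ j ∈ I, S j \ W = T ∧
          ∀ j' ∈ I, S j' \ W ⊆ S i → T.card ≤ (S j' \ W).card) := by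
      intro W i
      by_cases hi : i ∈ I
      · obtain ⟨j, hj, hjmin⟩ := (I.filter fun j => S j \ W ⊆ S i).exists_min_image
          (fun j => (S j \ W).card) ⟨i, mem_filter.2 ⟨hi, sdiff_subset⟩⟩
        obtain ⟨hjI, hjS⟩ := mem_filter.1 hj
        refine ⟨S j \ W, ?_, fun _ => ⟨j, hjI, rfl, fun j' h1 h2 => hjmin j' (mem_filter.2 ⟨h1, h2⟩)⟩⟩
        intro x hx
        exact mem_sdiff.2 ⟨hjS hx, (mem_sdiff.1 hx).2⟩
      · exact ⟨∅, empty_subset _, fun h => absurd h hi⟩
    choose frag hfrag1 hfrag2 using hfrag
    set δ : ℝ := (1 / 4) * (1 / 2) ^ (r + 1) with hδ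
    set good : Finset X → Finset ι := fun W => I.filter fun i => (frag W i).card < M * 2 ^ r with hgood
    set bad : Finset X → Finset ι := fun W => I.filter fun i => ¬ (frag W i).card < M * 2 ^ r with hbad
    -- the expected number of bad indices
    have hbadsum : expect E p (fun W => ((bad W).card : ℝ)) ≤ δ * N := by
      set pairs := E.powerset.sigma bad with hpairs
      set sel : Finset X → Finset X := fun Z =>
        if h : ∃ j ∈ I, S j ⊆ Z then S h.choose else ∅ with hsel
      set Ts : Finset X → Finset (Finset X) := fun Z =>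
        (sel Z).powerset.filter fun T => M * 2 ^ r ≤ T.card with hTs
      set target := E.powerset.sigma fun Z => (Ts Z).sigma fun T => I.filter (T ⊆ S ·) with htarget
      set key : (Σ _ : Finset X, ι) → (Σ _ : Finset X, Σ _ : Finset X, ι) := fun x =>
        ⟨x.1 ∪ frag x.1 x.2, ⟨frag x.1 x.2, x.2⟩⟩ with hkey
      have hdisj : ∀ W i, Disjoint W (frag W i) := fun W i =>
        Finset.disjoint_left.2 fun x hx hx' => (mem_sdiff.1 (hfrag1 W i hx')).2 hx
      have hinj : Set.InjOn key pairs := by
        rintro ⟨W, i⟩ _ ⟨W', i'⟩ _ h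
        simp only [hkey, Sigma.mk.injEq, heq_eq_eq] at h
        obtain ⟨h1, h2, rfl⟩ := h
        have : W = W' := by
          have a := Finset.union_sdiff_cancel_right (hdisj W i)
          have b := Finset.union_sdiff_cancel_right (hdisj W' i)
          rw [← a, ← b, h1, h2]
        rw [this]
      have hmaps : pairs.image key ⊆ target := by
        intro y hy
        obtain ⟨⟨W, i⟩, hx, rfl⟩ := mem_image.1 hy
        obtain ⟨hW, hi⟩ := mem_sigma.1 hx
        obtain ⟨hiI, hib⟩ := mem_filter.1 hi
        have hTi : frag W i ⊆ S i := (hfrag1 W i).trans sdiff_subset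
        simp only [htarget, hkey, mem_sigma, mem_powerset]
        refine ⟨union_subset (mem_powerset.1 hW) (hTi.trans (hS i hiI).1), ?_,
          mem_filter.2 ⟨hiI, hTi⟩⟩
        obtain ⟨j, hjI, hjT, hjmin⟩ := hfrag2 W i hiI
        have hjZ : S j ⊆ W ∪ frag W i := by
          intro x hx
          by_cases hxW : x ∈ W
          · exact mem_union_left _ hxW
          · exact mem_union_right _ (hjT ▸ mem_sdiff.2 ⟨hx, hxW⟩)
        have hex : ∃ j' ∈ I, S j' ⊆ W ∪ frag W i := ⟨j, hjI, hjZ⟩
        refine mem_filter.2 ⟨mem_powerset.2 ?_, not_lt.1 hib⟩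
        simp only [hsel]
        rw [dif_pos hex]
        obtain ⟨h1, h2⟩ := hex.choose_spec
        have hsub : S hex.choose \ W ⊆ frag W i := by
          intro x hx
          obtain ⟨hx1, hx2⟩ := mem_sdiff.1 hx
          exact (mem_union.1 (h2 hx1)).resolve_left hx2
        have := eq_of_subset_of_card_le hsub (hjmin _ h1 (hsub.trans hTi))
        intro x hx
        exact (mem_sdiff.1 (this.ge hx)).1
      have hwt : ∀ x ∈ pairs, wt E p x.1 ≤
          wt E p (key x).1 * (1 / p) ^ (key x).2.1.card := by
        rintro ⟨W, i⟩ hx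
        obtain ⟨hW, hi⟩ := mem_sigma.1 hx
        have hTE : frag W i ⊆ E :=
          ((hfrag1 W i).trans sdiff_subset).trans (hS i (mem_filter.1 hi).1).1
        have hc : W.card + (frag W i).card ≤ E.card := by
          rw [← card_union_of_disjoint (hdisj W i)]
          exact card_le_card (union_subset (mem_powerset.1 hW) hTE)
        simp only [hkey, wt, card_union_of_disjoint (hdisj W i)]
        have e1 : E.card - W.card = (E.card - (W.card + (frag W i).card)) + (frag W i).card := by
          omega
        rw [e1, pow_add, pow_add p, div_pow, one_pow]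
        have hpos : 0 < p ^ (frag W i).card := pow_pos hp0 _
        have h1p : (1 - p) ^ (frag W i).card ≤ 1 := pow_le_one₀ (sub_nonneg.2 hp1) (by linarith)
        calc p ^ W.card * ((1 - p) ^ (E.card - (W.card + (frag W i).card)) *
              (1 - p) ^ (frag W i).card)
            ≤ p ^ W.card * ((1 - p) ^ (E.card - (W.card + (frag W i).card)) * 1) :=
              mul_le_mul_of_nonneg_left (mul_le_mul_of_nonneg_left h1p
                (pow_nonneg (sub_nonneg.2 hp1) _)) (pow_nonneg hp0.le _)
          _ = _ := by field_simp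
      calc expect E p (fun W => ((bad W).card : ℝ)) = ∑ x ∈ pairs, wt E p x.1 := by
            rw [hpairs, Finset.sum_sigma]
            simp only [expect, Finset.sum_const, nsmul_eq_mul, mul_comm]
        _ ≤ ∑ x ∈ pairs, wt E p (key x).1 * (1 / p) ^ (key x).2.1.card := Finset.sum_le_sum hwt
        _ = ∑ y ∈ pairs.image key, wt E p y.1 * (1 / p) ^ y.2.1.card :=
            (Finset.sum_image (f := fun y : (Σ _ : Finset X, Σ _ : Finset X, ι) =>
              wt E p y.1 * (1 / p) ^ y.2.1.card) hinj).symm
        _ ≤ ∑ y ∈ target, wt E p y.1 * (1 / p) ^ y.2.1.card :=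
            Finset.sum_le_sum_of_subset_of_nonneg hmaps fun y _ _ =>
              mul_nonneg (wt_nonneg hp0.le hp1 _) (by positivity)
        _ = ∑ Z ∈ E.powerset, wt E p Z *
              ∑ T ∈ Ts Z, ((I.filter (T ⊆ S ·)).card : ℝ) * (1 / p) ^ T.card := by
            rw [htarget, Finset.sum_sigma]
            refine Finset.sum_congr rfl fun Z _ => ?_
            rw [Finset.sum_sigma, Finset.mul_sum]
            refine Finset.sum_congr rfl fun T _ => ?_
            simp only [Finset.sum_const, nsmul_eq_mul]
            ring
        _ ≤ expect E p fun _ => δ * N := by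
            refine Finset.sum_le_sum fun Z _ => mul_le_mul_of_nonneg_left ?_ (wt_nonneg hp0.le hp1 _)
            have hsel' : (sel Z).card ≤ M * 2 ^ (r + 1) := by
              simp only [hsel]
              split_ifs with h
              · exact ((hS _ h.choose_spec.1).2).le
              · simp
            calc ∑ T ∈ Ts Z, ((I.filter (T ⊆ S ·)).card : ℝ) * (1 / p) ^ T.card
                ≤ ∑ T ∈ Ts Z, (1 / 64 : ℝ) ^ (M * 2 ^ r) * N := by
                  refine Finset.sum_le_sum fun T hT => ?_
                  have hT2 := (mem_filter.1 hT).2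
                  have hne : M ≤ T.card := (Nat.le_mul_of_pos_right M (Nat.two_pow_pos r)).trans hT2
                  refine le_trans (mul_le_mul_of_nonneg_right (hsp T hne) (by positivity)) ?_
                  rw [mul_right_comm, ← mul_pow]
                  refine mul_le_mul_of_nonneg_right ?_ hN.le
                  refine le_trans (pow_le_pow_left₀ (by positivity) ?_ _)
                    (pow_le_pow_of_le_one (by norm_num) (by norm_num) hT2)
                  rw [mul_one_div, div_le_iff₀ hp0]
                  linarith
              _ ≤ (4 : ℝ) ^ (M * 2 ^ r) * ((1 / 64) ^ (M * 2 ^ r) * N) := by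
                  rw [Finset.sum_const, nsmul_eq_mul]
                  refine mul_le_mul_of_nonneg_right ?_ (by positivity)
                  have h1 : (Ts Z).card ≤ 4 ^ (M * 2 ^ r) := by
                    refine ((card_filter_le _ _).trans (card_powerset _).le).trans ?_
                    rw [show (4 : ℕ) = 2 ^ 2 by norm_num, ← pow_mul, mul_left_comm, ← pow_succ']
                    exact Nat.pow_le_pow_right two_pos hsel'
                  exact_mod_cast h1
              _ ≤ δ * N := by
                  rw [← mul_assoc, ← mul_pow]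
                  refine mul_le_mul_of_nonneg_right ?_ hN.le
                  calc ((4 : ℝ) * (1 / 64)) ^ (M * 2 ^ r) ≤ ((1 : ℝ) / 16) ^ (r + 1) := by
                        rw [show (4 : ℝ) * (1 / 64) = 1 / 16 by norm_num]
                        exact pow_le_pow_of_le_one (by norm_num) (by norm_num)
                          (Nat.lt_two_pow_self.trans_le (Nat.le_mul_of_pos_left _ hM))
                    _ = (1 / 8) ^ (r + 1) * (1 / 2) ^ (r + 1) := by
                        rw [← mul_pow]; norm_num
                    _ ≤ δ := by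
                        rw [hδ]
                        refine mul_le_mul_of_nonneg_right ?_ (by positivity)
                        exact (pow_le_of_le_one (by norm_num) (by norm_num) (by omega)).trans
                          (by norm_num)
        _ = δ * N := expect_const E p _
    obtain ⟨c0, c1, -⟩ := comb_bounds hp0.le hp1 r
    have hround : ∀ W ⊆ E, ((good W).card : ℝ) / N - (1 / 4) * (1 - (1 / 2) ^ r) ≤
        expect E (comb p r) fun V => nearInd I S M (W ∪ V) := by
      intro W _
      refine le_trans (ih (good W) (frag W) ?_ ?_ ?_) (expect_mono c0 c1 fun V _ => ?_)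
      · exact le_trans (by exact_mod_cast card_filter_le _ _) hIN
      · intro i hi
        obtain ⟨hiI, hig⟩ := mem_filter.1 hi
        exact ⟨((hfrag1 W i).trans sdiff_subset).trans (hS i hiI).1, hig⟩
      · intro T hT
        refine le_trans ?_ (hsp T hT)
        exact_mod_cast card_le_card fun i hi => by
          obtain ⟨hi1, hi2⟩ := mem_filter.1 hi
          exact mem_filter.2 ⟨(mem_filter.1 hi1).1, hi2.trans ((hfrag1 W i).trans sdiff_subset)⟩
      · simp only [nearInd]
        split_ifs with h1 h2
        · exact le_rfl
        · exfalso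
          obtain ⟨i, hi, hiV⟩ := h1
          obtain ⟨j, hj, hjT, -⟩ := hfrag2 W i (mem_filter.1 hi).1
          refine h2 ⟨j, hj, ?_⟩
          have heq : S j \ (W ∪ V) = frag W i \ V := by rw [← hjT, sdiff_sdiff_left]; rfl
          rwa [heq]
        · exact zero_le_one
        · exact le_rfl
    rw [comb, ← expect_union]
    refine le_trans ?_ (expect_mono hp0.le hp1 hround)
    have hsplit : ∀ W : Finset X, ((good W).card : ℝ) / N =
        (I.card : ℝ) / N + (-(1 / N)) * (bad W).card := by
      intro W
      have : (good W).card + (bad W).card = I.card := by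
        rw [hgood, hbad]; exact card_filter_add_card_filter_not _
      rw [← this]
      push_cast
      ring
    have hlin : expect E p (fun W => ((good W).card : ℝ) / N - (1 / 4) * (1 - (1 / 2) ^ r)) =
        ((I.card : ℝ) / N - (1 / 4) * (1 - (1 / 2) ^ r)) -
          (1 / N) * expect E p (fun W => ((bad W).card : ℝ)) := by
      simp only [hsplit]
      rw [show (fun W : Finset X => (I.card : ℝ) / N + (-(1 / N)) * (bad W).card -
          (1 / 4) * (1 - (1 / 2) ^ r)) = fun W => ((I.card : ℝ) / N - (1 / 4) * (1 - (1 / 2) ^ r)) +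
            (-(1 / N)) * (bad W).card from funext fun W => by ring, expect_add, expect_const]
      simp only [expect, Finset.mul_sum, sub_eq_add_neg, ← Finset.sum_neg_distrib]
      congr 1
      refine Finset.sum_congr rfl fun W _ => ?_
      ring
    rw [hlin]
    have hdiv : (1 / N) * expect E p (fun W => ((bad W).card : ℝ)) ≤ δ := by
      rw [one_div_mul_eq_div, div_le_iff₀ hN]; exact hbadsum
    have hd : δ = (1 / 4) * (1 - (1 / 2) ^ (r + 1)) - (1 / 4) * (1 - (1 / 2) ^ r) := by
      rw [hδ, pow_succ]; ring
    linarith

/-- A `κ`-spread family is hit with probability at least `card/N - 1/4` by the union of `r`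
rounds of density `p ≥ 64 κ`, if its members have fewer than `2 ^ r` elements. -/
theorem spread_hit {ι : Type*} (E : Finset X) {κ p N : ℝ} (hκ : 0 ≤ κ) (hp : 64 * κ ≤ p)
    (hp0 : 0 < p) (hp1 : p ≤ 1) (hN : 0 < N) (r : ℕ) (I : Finset ι) (S : ι → Finset X)
    (hI : (I.card : ℝ) ≤ N) (hS : ∀ i ∈ I, S i ⊆ E ∧ (S i).card < 2 ^ r)
    (hsp : ∀ T : Finset X, T.Nonempty → ((I.filter (T ⊆ S ·)).card : ℝ) ≤ κ ^ T.card * N) :
    (I.card : ℝ) / N - (1 / 4) * (1 - (1 / 2) ^ r) ≤ expect E (comb p r) (hitInd I S) := by
  have h := spread_hit_upto E hκ hp hp0 hp1 hN Nat.one_pos r I S hI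
    (fun i hi => by simpa using hS i hi) fun T hT => hsp T (card_pos.1 hT)
  have heq : nearInd I S 1 = hitInd I S := funext fun W => by
    simp only [nearInd, hitInd, Nat.lt_one_iff, card_eq_zero, Finset.sdiff_eq_empty_iff_subset]
  rwa [heq] at h

end Vale.Agent.P064
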