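import Vale.Agent.P064.Expectation
import Vale.Agent.P064.Spread
import Vale.Agent.P064.Defs
import Mathlib.Analysis.SpecialFunctions.Log.Basic
import Mathlib.Data.Nat.Log
import Mathlib.Logic.Equiv.Fintype
import Mathlib.Combinatorics.SimpleGraph.Subgraph

/-!
The bound on the threshold of containing a copy of a graph.
-/

namespace Vale.Agent.P064

open Finset

theorem expect_superset {X : Type*} [DecidableEq X] (E : Finset X) (q : ℝ) :
    ∀ T : Finset X, T ⊆ E → expect E q (fun W => if T ⊆ W then (1 : ℝ) else 0) = q ^ T.card := by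
  induction E using Finset.induction with
  | empty => intro T hT; simp [expect, wt, subset_empty.1 hT]
  | @insert a E ha ih =>
    intro T hT
    rw [expect_insert ha]
    by_cases haT : a ∈ T
    · have hsub : T.erase a ⊆ E := fun x hx => by
        obtain ⟨h1, h2⟩ := mem_erase.1 hx
        exact (mem_insert.1 (hT h2)).resolve_left h1
      have e1 : expect E q (fun W => if T ⊆ W then (1 : ℝ) else 0) = 0 := by
        refine Finset.sum_eq_zero fun W hW => ?_
        simp only [if_neg (fun h : T ⊆ W => ha (mem_powerset.1 hW (h haT))), mul_zero]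
      have e2 : ∀ W : Finset X, (T ⊆ insert a W ↔ T.erase a ⊆ W) := fun W =>
        (Finset.erase_subset_iff_of_mem (mem_insert_self a W)).symm.trans
          ⟨fun h x hx => (mem_insert.1 (h hx)).resolve_left (mem_erase.1 hx).1,
            fun h => h.trans (subset_insert a W)⟩
      rw [e1]
      simp only [e2]
      rw [ih _ hsub, mul_zero, zero_add, ← card_erase_add_one haT, pow_succ']
    · have hsub : T ⊆ E := fun x hx => (mem_insert.1 (hT hx)).resolve_left fun h => haT (h ▸ hx)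
      have e2 : ∀ W : Finset X, (T ⊆ insert a W ↔ T ⊆ W) := fun W =>
        Finset.subset_insert_iff_of_notMem haT
      simp only [e2]
      rw [ih _ hsub]
      ring

theorem expect_one {X : Type*} [DecidableEq X] (E : Finset X) (f : Finset X → ℝ) :
    expect E 1 f = f E := by
  rw [expect, Finset.sum_eq_single E]
  · simp [wt]
  · intro W hW hne
    have : W.card < E.card := card_lt_card ((mem_powerset.1 hW).ssubset_of_ne hne)
    have h0 : E.card - W.card ≠ 0 := by omega
    simp [wt, zero_pow h0]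
  · exact fun h => absurd (mem_powerset.2 subset_rfl) h

theorem expect_le_of_monotone {X : Type*} [DecidableEq X] (E : Finset X) {c p : ℝ} (hc0 : 0 ≤ c)
    (hcp : c ≤ p) (hp : p < 1) {f : Finset X → ℝ} (hf : ∀ U V, f U ≤ f (U ∪ V)) :
    expect E c f ≤ expect E p f := by
  have h1 : 0 < 1 - c := by linarith
  set b := (p - c) / (1 - c) with hb
  have hb0 : 0 ≤ b := div_nonneg (by linarith) h1.le
  have hb1 : b ≤ 1 := by rw [hb, div_le_one h1]; linarith
  have hp' : 1 - (1 - c) * (1 - b) = p := by rw [hb]; field_simp; ring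
  rw [← hp', ← expect_union]
  refine expect_mono hc0 (by linarith) fun U _ => ?_
  calc f U = expect E b fun _ => f U := (expect_const E b _).symm
    _ ≤ _ := expect_mono hb0 hb1 fun V _ => hf U V

theorem exists_perm_extend {β γ : Type*} [Finite γ] {a b : β → γ} (ha : Function.Injective a)
    (hb : Function.Injective b) : ∃ σ : Equiv.Perm γ, ∀ x, σ (a x) = b x := by
  classical
  have := Fintype.ofFinite γ
  refine ⟨((Equiv.ofInjective a ha).symm.trans (Equiv.ofInjective b hb)).extendSubtype, fun x => ?_⟩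
  rw [Equiv.extendSubtype_apply_of_mem _ (a x) ⟨x, rfl⟩]
  simp

variable {n : ℕ}

/-- Permutations of the vertices, acting on pairs of vertices. -/
def pairAct (n : ℕ) : Equiv.Perm (Fin n) →* Equiv.Perm (Sym2 (Fin n)) where
  toFun σ :=
    { toFun := Sym2.map σ
      invFun := Sym2.map σ.symm
      left_inv := fun e => by simp [Sym2.map_map]
      right_inv := fun e => by simp [Sym2.map_map] }
  map_one' := Equiv.ext fun e => by simp
  map_mul' σ τ := Equiv.ext fun e => by
    simp only [Equiv.coe_fn_mk, Equiv.Perm.coe_mul, Function.comp_apply, Sym2.map_map]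

theorem pairAct_mk (σ : Equiv.Perm (Fin n)) (x y : Fin n) :
    pairAct n σ s(x, y) = s(σ x, σ y) := by simp [pairAct]

theorem mem_pairsOf {x y : Fin n} : s(x, y) ∈ pairsOf n ↔ x ≠ y := by simp [pairsOf]

theorem orb_subset_pairs {J T : Finset (Sym2 (Fin n))} (hJ : J ⊆ pairsOf n)
    (hT : T ∈ orb (pairAct n) J) : T ⊆ pairsOf n := by
  obtain ⟨σ, rfl⟩ := (mem_orb _).1 hT
  intro e he
  obtain ⟨e', he', rfl⟩ := Finset.mem_map.1 he
  induction e' using Sym2.ind with
  | _ x y =>
    rw [Equiv.coe_toEmbedding, pairAct_mk, mem_pairsOf]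
    exact σ.injective.ne (mem_pairsOf.1 (hJ he'))

variable {v : ℕ}

open scoped Classical in
/-- The edges of `H`, moved to `Fin n`. -/
noncomputable def image0 (H : SimpleGraph (Fin v)) (hv : v ≤ n) : Finset (Sym2 (Fin n)) :=
  H.edgeFinset.map (Fin.castLEEmb hv).sym2Map

theorem mk_mem_image0 {H : SimpleGraph (Fin v)} {hv : v ≤ n} {x y : Fin n} :
    s(x, y) ∈ image0 H hv ↔ ∃ a b, H.Adj a b ∧ Fin.castLE hv a = x ∧ Fin.castLE hv b = y := by
  classical
  simp only [image0, Finset.mem_map, SimpleGraph.mem_edgeFinset]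
  constructor
  · rintro ⟨e, he, h⟩
    induction e using Sym2.ind with
    | _ a b =>
      rw [Function.Embedding.sym2Map_apply, Sym2.map_mk, Sym2.eq_iff] at h
      rcases h with ⟨h1, h2⟩ | ⟨h1, h2⟩
      · exact ⟨a, b, he, h1, h2⟩
      · exact ⟨b, a, (SimpleGraph.mem_edgeSet H).1 he |>.symm, h2, h1⟩
  · rintro ⟨a, b, h, rfl, rfl⟩
    exact ⟨s(a, b), h, by simp⟩

theorem image0_subset (H : SimpleGraph (Fin v)) (hv : v ≤ n) : image0 H hv ⊆ pairsOf n := by
  intro e he
  induction e using Sym2.ind with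
  | _ x y =>
    obtain ⟨a, b, h, rfl, rfl⟩ := mk_mem_image0.1 he
    exact mem_pairsOf.2 ((Fin.castLE_injective hv).ne h.ne)

/-- The subgraph of `H` with edge set given by `J` and no isolated vertices. -/
def subOf (H : SimpleGraph (Fin v)) (hv : v ≤ n) (J : Finset (Sym2 (Fin n))) : H.Subgraph where
  verts := {a | ∃ b, H.Adj a b ∧ s(Fin.castLE hv a, Fin.castLE hv b) ∈ J}
  Adj a b := H.Adj a b ∧ s(Fin.castLE hv a, Fin.castLE hv b) ∈ J
  adj_sub h := h.1
  edge_vert h := ⟨_, h⟩
  symm := ⟨fun a b h => ⟨h.1.symm, by rw [Sym2.eq_swap]; exact h.2⟩⟩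

/-- Copies of `subOf H hv J` inside `W` give distinct members of the orbit of `J` inside `W`. -/
theorem copyCount_le {H : SimpleGraph (Fin v)} {hv : v ≤ n} {J : Finset (Sym2 (Fin n))}
    (hJ : J ⊆ image0 H hv) (W : Finset (Sym2 (Fin n))) :
    (SimpleGraph.fromEdgeSet (W : Set (Sym2 (Fin n)))).copyCount (subOf H hv J).coe ≤
      ((orb (pairAct n) J).filter (· ⊆ W)).card := by
  classical
  set F := subOf H hv J with hF
  set GW := SimpleGraph.fromEdgeSet (W : Set (Sym2 (Fin n))) with hGW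
  rw [SimpleGraph.copyCount_eq_card_image_copyToSubgraph]
  have hedge : ∀ f : SimpleGraph.Copy F.coe GW, ∃ σ : Equiv.Perm (Fin n),
      ∀ x y, f.toSubgraph.Adj x y ↔ s(x, y) ∈ tr (pairAct n) σ J := by
    intro f
    obtain ⟨σ, hσ⟩ := exists_perm_extend (β := F.verts) (a := fun x => Fin.castLE hv x.1)
      (b := fun x => f x) (fun x y h => Subtype.ext (Fin.castLE_injective hv h)) f.injective
    refine ⟨σ, fun x y => ?_⟩
    have hadj : f.toSubgraph.Adj x y ↔ ∃ a b : F.verts, F.coe.Adj a b ∧ f a = x ∧ f b = y := by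
      constructor
      · intro h
        obtain ⟨a, b, hab, ha, hb⟩ := h
        exact ⟨a, b, by simpa using hab, ha, hb⟩
      · rintro ⟨a, b, hab, ha, hb⟩
        exact ⟨a, b, by simpa using hab, ha, hb⟩
    rw [hadj, tr, Finset.mem_map]
    constructor
    · rintro ⟨a, b, hab, rfl, rfl⟩
      refine ⟨_, hab.2, ?_⟩
      rw [Equiv.coe_toEmbedding, pairAct_mk, hσ a, hσ b]
    · rintro ⟨e, he, h⟩
      induction e using Sym2.ind with
      | _ x' y' =>
        obtain ⟨a, b, hab, rfl, rfl⟩ := mk_mem_image0.1 (hJ he)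
        have ha : a ∈ F.verts := ⟨b, hab, he⟩
        have hb : b ∈ F.verts := ⟨a, hab.symm, by rw [Sym2.eq_swap]; exact he⟩
        rw [Equiv.coe_toEmbedding, pairAct_mk, hσ ⟨a, ha⟩, hσ ⟨b, hb⟩, Sym2.eq_iff] at h
        rcases h with ⟨h1, h2⟩ | ⟨h1, h2⟩
        · exact ⟨⟨a, ha⟩, ⟨b, hb⟩, ⟨hab, he⟩, h1, h2⟩
        · exact ⟨⟨b, hb⟩, ⟨a, ha⟩, ⟨hab.symm, by rw [Sym2.eq_swap]; exact he⟩, h2, h1⟩
  choose σ hσ using hedge
  have hverts : ∀ (f : SimpleGraph.Copy F.coe GW) (x : Fin n),
      x ∈ f.toSubgraph.verts ↔ ∃ y, f.toSubgraph.Adj x y := by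
    intro f x
    constructor
    · intro hx
      have hx' : ∃ a : F.verts, f a = x := by simpa [SimpleGraph.Copy.toSubgraph] using hx
      obtain ⟨⟨a, b, hab, he⟩, rfl⟩ := hx'
      have hb : b ∈ F.verts := ⟨a, hab.symm, by rw [Sym2.eq_swap]; exact he⟩
      refine ⟨f ⟨b, hb⟩, _, _, ?_, rfl, rfl⟩
      exact ⟨hab, he⟩
    · rintro ⟨y, h⟩
      exact f.toSubgraph.edge_vert h
  refine Finset.card_le_card_of_injOn
    (fun G' => (pairsOf n).filter (fun e => e ∈ G'.edgeSet)) ?_ ?_
  · intro G' hG'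
    obtain ⟨f, -, rfl⟩ := Finset.mem_image.1 hG'
    have heq : (pairsOf n).filter (fun e => e ∈ f.toSubgraph.edgeSet) = tr (pairAct n) (σ f) J := by
      ext e
      induction e using Sym2.ind with
      | _ x y =>
        rw [Finset.mem_filter, SimpleGraph.Subgraph.mem_edgeSet, hσ f]
        exact ⟨fun h => h.2, fun h => ⟨orb_subset_pairs (hJ.trans (image0_subset H hv))
          ((mem_orb _).2 ⟨σ f, rfl⟩) h, h⟩⟩
    simp only [heq, Finset.mem_coe, Finset.mem_filter]
    refine ⟨(mem_orb _).2 ⟨σ f, rfl⟩, fun e he => ?_⟩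
    induction e using Sym2.ind with
    | _ x y =>
      have := f.toSubgraph.adj_sub ((hσ f x y).2 he)
      rw [hGW, SimpleGraph.fromEdgeSet_adj] at this
      exact Finset.mem_coe.1 this.1
  · intro A hA B hB hAB
    obtain ⟨f, -, rfl⟩ := Finset.mem_image.1 hA
    obtain ⟨g, -, rfl⟩ := Finset.mem_image.1 hB
    have hadjeq : ∀ x y, f.toSubgraph.Adj x y ↔ g.toSubgraph.Adj x y := by
      intro x y
      by_cases hxy : x = y
      · subst hxy
        exact ⟨fun h => absurd h.ne (fun h' => h' rfl), fun h => absurd h.ne (fun h' => h' rfl)⟩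
      · have := Finset.ext_iff.1 hAB s(x, y)
        simpa only [Finset.mem_filter, mem_pairsOf, ne_eq, hxy, not_false_eq_true, true_and,
          SimpleGraph.Subgraph.mem_edgeSet] using this
    refine SimpleGraph.Subgraph.ext ?_ (funext fun x => funext fun y => propext (hadjeq x y))
    ext x
    simp only [hverts, hadjeq]

theorem expCopies_subOf_le {H : SimpleGraph (Fin v)} {hv : v ≤ n} {J : Finset (Sym2 (Fin n))}
    (hJ : J ⊆ image0 H hv) {q : ℝ} (h0 : 0 ≤ q) (h1 : q ≤ 1) :
    expCopies n q (subOf H hv J).coe ≤ ((orb (pairAct n) J).card : ℝ) * q ^ J.card := by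
  classical
  calc expCopies n q (subOf H hv J).coe
      ≤ ∑ W ∈ (pairsOf n).powerset, wt (pairsOf n) q W *
          ∑ T ∈ orb (pairAct n) J, if T ⊆ W then (1 : ℝ) else 0 := by
        refine Finset.sum_le_sum fun W _ => mul_le_mul_of_nonneg_left ?_ (wt_nonneg h0 h1 W)
        rw [← Finset.sum_filter, Finset.sum_const, nsmul_eq_mul, mul_one]
        exact_mod_cast copyCount_le hJ W
    _ = ∑ T ∈ orb (pairAct n) J,
          expect (pairsOf n) q (fun W => if T ⊆ W then (1 : ℝ) else 0) := by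
        simp only [expect, Finset.mul_sum]
        exact Finset.sum_comm
    _ = _ := by
        rw [Finset.sum_congr rfl fun T hT => by
          rw [expect_superset _ q T (orb_subset_pairs (hJ.trans (image0_subset H hv)) hT),
            card_of_mem_orb _ hT], Finset.sum_const, nsmul_eq_mul]

theorem hitInd_le_contains {H : SimpleGraph (Fin v)} {hv : v ≤ n} (W : Finset (Sym2 (Fin n))) :
    hitInd (orb (pairAct n) (image0 H hv)) id W ≤
      if 0 < (SimpleGraph.fromEdgeSet (W : Set (Sym2 (Fin n)))).copyCount H then (1 : ℝ) else 0 := by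
  classical
  simp only [hitInd]
  split_ifs with h1 h2
  · exact le_rfl
  · exfalso
    obtain ⟨T, hT, hTW⟩ := h1
    obtain ⟨σ, rfl⟩ := (mem_orb _).1 hT
    refine h2 (SimpleGraph.copyCount_pos.2 ⟨⟨⟨fun a => σ (Fin.castLE hv a), ?_⟩, ?_⟩⟩)
    · intro a b hab
      rw [SimpleGraph.fromEdgeSet_adj]
      refine ⟨Finset.mem_coe.2 (hTW ?_), σ.injective.ne ((Fin.castLE_injective hv).ne hab.ne)⟩
      exact Finset.mem_map.2 ⟨_, mk_mem_image0.2 ⟨a, b, hab, rfl, rfl⟩,
        pairAct_mk σ (Fin.castLE hv a) (Fin.castLE hv b)⟩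
    · exact fun a b h => Fin.castLE_injective hv (σ.injective h)
  · exact zero_le_one
  · exact le_rfl

theorem clog_le_log {n : ℕ} (hn : 2 ≤ n) : (Nat.clog 2 (n * n) : ℝ) ≤ 5 * Real.log n := by
  set R := Nat.clog 2 (n * n) with hR
  have h4 : 1 < n * n := by nlinarith
  have h := Nat.pow_pred_clog_lt_self one_lt_two h4
  rw [← hR] at h
  have hR0 : 0 < R := Nat.clog_pos one_lt_two h4
  have h' : ((2 ^ (R - 1) : ℕ) : ℝ) ≤ ((n * n : ℕ) : ℝ) := by exact_mod_cast (by
    simpa [Nat.pred_eq_sub_one] using h.le)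
  push_cast at h'
  have hlog := Real.log_le_log (by positivity) h'
  have hn0 : (0 : ℝ) < n := by exact_mod_cast (show 0 < n by omega)
  rw [Real.log_pow, Real.log_mul hn0.ne' hn0.ne', Nat.cast_sub hR0, Nat.cast_one] at hlog
  have h2 := Real.log_two_gt_d9
  have h2' := Real.log_le_log two_pos (show (2 : ℝ) ≤ n by exact_mod_cast hn)
  have hR1 : (1 : ℝ) ≤ R := by exact_mod_cast hR0
  nlinarith [mul_le_mul_of_nonneg_left h2.le (sub_nonneg.2 hR1)]

/-- The main bound for every density in the set defining `p_E`. -/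
theorem probContains_ge {n v : ℕ} (hn : 2 ≤ n) (hv : v ≤ n) (H : SimpleGraph (Fin v))
    (hH : H.edgeSet.Nonempty) {q : ℝ} (hq : q ∈ Set.Icc (0 : ℝ) 1)
    (hyp : ∀ F : H.Subgraph, 1 / 2 ≤ expCopies n q F.coe) :
    1 / 2 ≤ probContains n (min 1 (2 ^ 28 * Real.log n ^ 2 * q)) H := by
  classical
  set E := pairsOf n with hE
  set H0 := image0 H hv with hH0
  set R := Nat.clog 2 (n * n) with hR
  have hR0 : 0 < R := Nat.clog_pos one_lt_two (by nlinarith)
  have hE1 : E.card < 2 ^ R := by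
    refine lt_of_lt_of_le ?_ (Nat.le_pow_clog one_lt_two _)
    rw [hE, pairsOf, SimpleGraph.card_edgeFinset_top_eq_card_choose_two, Fintype.card_fin,
      Nat.choose_two_right]
    have : n * (n - 1) < n * n := Nat.mul_lt_mul_of_pos_left (by omega) (by omega)
    omega
  have hJ : ∀ J ⊆ H0, 1 / 2 ≤ ((orb (pairAct n) J).card : ℝ) * q ^ J.card := fun J hJ =>
    (hyp _).trans (expCopies_subOf_le hJ hq.1 hq.2)
  have hqpos : 0 < q := by
    refine lt_of_le_of_ne hq.1 fun h0 => ?_
    obtain ⟨e, he⟩ := hH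
    induction e using Sym2.ind with
    | _ a b =>
      have hmem : s(Fin.castLE hv a, Fin.castLE hv b) ∈ H0 := mk_mem_image0.2 ⟨a, b, he, rfl, rfl⟩
      have := hJ _ (singleton_subset_iff.2 hmem)
      rw [card_singleton, pow_one, ← h0, mul_zero] at this
      norm_num at this
  set I := orb (pairAct n) H0 with hI
  set g : Finset (Sym2 (Fin n)) → ℝ := hitInd I id with hg
  set p' := min 1 (2 ^ 28 * Real.log n ^ 2 * q) with hp'
  have hp'0 : 0 ≤ p' := le_min zero_le_one (mul_nonneg (by positivity) hq.1)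
  have hmain : expect E p' g ≤ probContains n p' H := by
    refine Finset.sum_le_sum fun W _ => ?_
    refine le_trans (mul_le_mul_of_nonneg_left (hitInd_le_contains W)
      (wt_nonneg hp'0 (min_le_left _ _) W)) (le_of_eq ?_)
    rw [mul_ite, mul_one, mul_zero]
    rfl
  refine le_trans ?_ hmain
  rcases le_or_gt 1 (2 ^ 28 * Real.log n ^ 2 * q) with hbig | hsmall
  · rw [hp', min_eq_left hbig, expect_one, hg, hitInd,
      if_pos ⟨H0, mem_orb_self _ _, image0_subset H hv⟩]
    norm_num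
  have hRlog := clog_le_log hn
  rw [← hR] at hRlog
  have hR1 : (1 : ℝ) ≤ R := by exact_mod_cast hR0
  set κ : ℝ := 2 ^ 17 * R * q with hκ
  have hκ0 : 0 < κ := by positivity
  have hRR : (R : ℝ) * (64 * κ) ≤ 2 ^ 28 * Real.log n ^ 2 * q := by
    have h25 : (R : ℝ) ^ 2 ≤ 25 * Real.log n ^ 2 := by
      have := pow_le_pow_left₀ (Nat.cast_nonneg R) hRlog 2
      linarith
    calc (R : ℝ) * (64 * κ) = 2 ^ 23 * (R : ℝ) ^ 2 * q := by rw [hκ]; ring
      _ ≤ 2 ^ 23 * (25 * Real.log n ^ 2) * q :=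
          mul_le_mul_of_nonneg_right (mul_le_mul_of_nonneg_left h25 (by norm_num)) hq.1
      _ ≤ _ := by nlinarith [mul_nonneg (sq_nonneg (Real.log n)) hq.1]
  have hp1 : 64 * κ ≤ 1 := by nlinarith
  have hN : (0 : ℝ) < (I.card : ℝ) := by exact_mod_cast orb_pos _ H0
  have hsp := spread_hit E hκ0.le le_rfl (by positivity : (0 : ℝ) < 64 * κ) hp1 hN R I id le_rfl
    (fun T hT => ⟨orb_subset_pairs (image0_subset H hv) hT,
      lt_of_le_of_lt (card_le_card (orb_subset_pairs (image0_subset H hv) hT)) hE1⟩)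
    (fun T _ => by
      have h1 := inside_le_log (pairAct n) hqpos hJ hR0
        (le_of_lt (lt_of_le_of_lt (card_le_card (image0_subset H hv)) hE1)) T
      have h2 : (((above (pairAct n) T H0).card : ℝ)) * (orb (pairAct n) T).card =
          (inside (pairAct n) H0 T).card * (I.card : ℝ) := by
        exact_mod_cast above_mul (pairAct n) T H0
      have hp : (0 : ℝ) < (orb (pairAct n) T).card := by exact_mod_cast orb_pos _ T
      have h3 := mul_le_mul_of_nonneg_right h1 hN.le
      rw [← h2] at h3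
      refine le_of_mul_le_mul_right ?_ hp
      calc ((I.filter (T ⊆ id ·)).card : ℝ) * (orb (pairAct n) T).card
          ≤ κ ^ T.card * (orb (pairAct n) T).card * (I.card : ℝ) := h3
        _ = _ := by ring)
  rw [div_self hN.ne'] at hsp
  obtain ⟨c0, c1, c2⟩ := comb_bounds (by positivity : (0 : ℝ) ≤ 64 * κ) hp1 R
  have hmono := expect_le_of_monotone E (f := g) c0
    (c2.trans (hRR.trans_eq (min_eq_right hsmall.le).symm))
    (lt_of_le_of_lt (min_le_right _ _) hsmall) (fun U V => by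
      simp only [hg, hitInd]
      split_ifs with h1 h2
      · exact le_rfl
      · exact absurd (let ⟨i, hi, hiU⟩ := h1; ⟨i, hi, hiU.trans subset_union_left⟩) h2
      · exact zero_le_one
      · exact le_rfl)
  rw [← hp'] at hmono
  have : (1 : ℝ) / 4 * (1 - (1 / 2) ^ R) ≤ 1 / 4 := by
    linarith [pow_nonneg (by norm_num : (0 : ℝ) ≤ 1 / 2) R]
  linarith

theorem pC_le {n v : ℕ} (hn : 2 ≤ n) (hv : v ≤ n) (H : SimpleGraph (Fin v))
    (hH : H.edgeSet.Nonempty)
    (hne : {p : ℝ | p ∈ Set.Icc 0 1 ∧ ∀ F : H.Subgraph, 1 / 2 ≤ expCopies n p F.coe}.Nonempty) :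
    pC n H ≤ 2 ^ 28 * Real.log n ^ 2 * pE n H := by
  have hlog : 0 < 2 ^ 28 * Real.log (n : ℝ) ^ 2 := by
    have : 0 < Real.log (n : ℝ) := Real.log_pos (by exact_mod_cast (by omega : 1 < n))
    positivity
  rw [← div_le_iff₀' hlog]
  refine le_csInf hne fun q hq => ?_
  rw [div_le_iff₀' hlog]
  refine le_trans (csInf_le ⟨0, fun p hp => hp.1.1⟩
    ⟨⟨le_min zero_le_one (mul_nonneg hlog.le hq.1.1), min_le_left _ _⟩,
      probContains_ge hn hv H hH hq.1 hq.2⟩) (min_le_right _ _)

theorem one_mem {n v : ℕ} (hv : v ≤ n) (H : SimpleGraph (Fin v)) :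
    (1 : ℝ) ∈ {p : ℝ | p ∈ Set.Icc 0 1 ∧ ∀ F : H.Subgraph, 1 / 2 ≤ expCopies n p F.coe} := by
  refine ⟨⟨zero_le_one, le_rfl⟩, fun F => ?_⟩
  have : expCopies n 1 F.coe = expect (pairsOf n) 1
      fun W => ((SimpleGraph.fromEdgeSet (W : Set (Sym2 (Fin n)))).copyCount F.coe : ℝ) := rfl
  rw [this, expect_one]
  have hpos : 0 < (SimpleGraph.fromEdgeSet ((pairsOf n : Finset (Sym2 (Fin n))) :
      Set (Sym2 (Fin n)))).copyCount F.coe := by
    refine SimpleGraph.copyCount_pos.2 ⟨⟨⟨fun a => Fin.castLE hv a.1, ?_⟩, ?_⟩⟩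
    · intro a b hab
      rw [SimpleGraph.fromEdgeSet_adj]
      have h := (Fin.castLE_injective hv).ne (F.adj_sub hab).ne
      exact ⟨Finset.mem_coe.2 (mem_pairsOf.2 h), h⟩
    · exact fun a b h => Subtype.ext (Fin.castLE_injective hv h)
  exact le_trans (by norm_num) (Nat.one_le_cast.2 hpos)

end Vale.Agent.P064
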