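import Vale.Agent.P064.Weighted
import Vale.Agent.P064.Graph
import Mathlib.Data.Fintype.BigOperators
import Mathlib.Data.Fintype.CardEmbedding
import Mathlib.Data.Fintype.Perm
import Mathlib.Data.Sym.Sym2.Order

/-!
The spread bound in graphs, with a loss for each vertex of large degree in place of each edge.
-/

namespace Vale.Agent.P064

open Finset

variable {n : ℕ}

/-- The hypothesis on the host graph. -/
def Rich (q : ℝ) (H0 : Finset (Sym2 (Fin n))) : Prop :=
  ∀ K ⊆ H0, 1 / 2 ≤ ((orb (pairAct n) K).card : ℝ) * q ^ K.card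

theorem tr_pairAct (σ : Equiv.Perm (Fin n)) (K : Finset (Sym2 (Fin n))) :
    tr (pairAct n) σ K = K.image (Sym2.map σ) := by
  rw [tr, Finset.map_eq_image]
  rfl

/-- The vertices of the edges of `K`. -/
def supp (K : Finset (Sym2 (Fin n))) : Finset (Fin n) := univ.filter fun x => ∃ e ∈ K, x ∈ e

theorem mem_supp {K : Finset (Sym2 (Fin n))} {x : Fin n} : x ∈ supp K ↔ ∃ e ∈ K, x ∈ e := by
  simp [supp]

theorem orb_card_le_supp (K : Finset (Sym2 (Fin n))) :
    (orb (pairAct n) K).card ≤ n ^ (supp K).card := by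
  classical
  have h : orb (pairAct n) K ⊆ (univ : Finset ((supp K) → Fin n)).image
      (fun f => K.image (Sym2.map fun x => if h : x ∈ supp K then f ⟨x, h⟩ else x)) := by
    intro T hT
    obtain ⟨σ, rfl⟩ := (mem_orb _).1 hT
    refine mem_image.2 ⟨fun x => σ x, mem_univ _, ?_⟩
    rw [tr_pairAct]
    refine Finset.image_congr fun e he => Sym2.map_congr fun x hx => ?_
    rw [dif_pos (mem_supp.2 ⟨e, he, hx⟩)]
  refine (card_le_card h).trans (card_image_le.trans (le_of_eq ?_))
  simp

theorem sparse {q : ℝ} {H0 : Finset (Sym2 (Fin n))} (hn : 2 ≤ n) (hq0 : 0 < q) (hq1 : q ≤ 1)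
    (hR : Rich q H0) {s : ℕ} (hs : (n : ℝ) * q ^ (2 * s) < 1) {K : Finset (Sym2 (Fin n))}
    (hK : K ⊆ H0) : K.card ≤ 4 * s * (supp K).card := by
  by_contra hcon
  rw [not_le] at hcon
  obtain ⟨e, he⟩ : K.Nonempty := card_pos.1 (by omega)
  have hU : 0 < (supp K).card := by
    refine card_pos.2 ?_
    induction e using Sym2.ind with
    | _ x y => exact ⟨x, mem_supp.2 ⟨_, he, Sym2.mem_mk_left x y⟩⟩
  set u := (supp K).card with hu
  have hn0 : (0 : ℝ) < n := by exact_mod_cast (by omega : 0 < n)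
  have hlt : q ^ (2 * s) < 1 / 2 := by
    have h2 : (2 : ℝ) ≤ n := by exact_mod_cast hn
    nlinarith [pow_pos hq0 (2 * s)]
  have h1 : ((orb (pairAct n) K).card : ℝ) * q ^ K.card ≤
      ((n : ℝ) * q ^ (2 * s)) ^ u * q ^ (2 * s) := by
    rw [mul_pow, mul_assoc, ← pow_mul, ← pow_add]
    refine mul_le_mul (by exact_mod_cast orb_card_le_supp K)
      (pow_le_pow_of_le_one hq0.le hq1 ?_) (by positivity) (by positivity)
    nlinarith [Nat.mul_le_mul_left (2 * s) hU]
  have h2 : ((n : ℝ) * q ^ (2 * s)) ^ u * q ^ (2 * s) ≤ q ^ (2 * s) :=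
    mul_le_of_le_one_left (by positivity) (pow_le_one₀ (by positivity) hs.le)
  linarith [hR K hK]

theorem exists_low_vertex {K : Finset (Sym2 (Fin n))} (hloop : ∀ e ∈ K, ¬ e.IsDiag) {d : ℕ}
    (hK : K.card ≤ d * (supp K).card) (hne : K.Nonempty) :
    ∃ x ∈ supp K, (K.filter (x ∈ ·)).card ≤ 2 * d := by
  by_contra hcon
  push Not at hcon
  have hS : (supp K).Nonempty := by
    obtain ⟨e, he⟩ := hne
    induction e using Sym2.ind with
    | _ x y => exact ⟨x, mem_supp.2 ⟨_, he, Sym2.mem_mk_left x y⟩⟩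
  have h1 : ∑ x ∈ supp K, (2 * d) < ∑ x ∈ supp K, (K.filter (x ∈ ·)).card :=
    Finset.sum_lt_sum_of_nonempty hS hcon
  have h2 : ∑ x ∈ supp K, (K.filter (x ∈ ·)).card = 2 * K.card := by
    simp only [card_filter]
    rw [Finset.sum_comm, Finset.sum_congr rfl (g := fun _ => 2) ?_, sum_const, smul_eq_mul,
      mul_comm]
    intro e he
    rw [← card_filter]
    induction e using Sym2.ind with
    | _ x y =>
      have hxy : x ≠ y := by simpa using hloop _ he
      have : (supp K).filter (· ∈ s(x, y)) = {x, y} := by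
        ext z
        simp only [mem_filter, Sym2.mem_iff, mem_insert, mem_singleton]
        exact ⟨fun h => h.2, fun h => ⟨mem_supp.2 ⟨_, he, Sym2.mem_iff.2 h⟩, h⟩⟩
      rw [this, card_pair hxy]
  rw [h2, sum_const, smul_eq_mul] at h1
  nlinarith

/-- Every edge gets one tail, and every vertex is the tail of at most `2 d` edges. -/
theorem exists_orientation {d : ℕ} : ∀ (K : Finset (Sym2 (Fin n))),
    (∀ e ∈ K, ¬ e.IsDiag) → (∀ K' ⊆ K, K'.card ≤ d * (supp K').card) →
    ∃ A : Fin n → Finset (Fin n), (∀ x, (A x).card ≤ 2 * d) ∧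
      (∀ x y, s(x, y) ∈ K ↔ (y ∈ A x ∨ x ∈ A y)) ∧ (∀ x y, y ∈ A x → x ∉ A y) ∧
      ∃ rk : Fin n → ℕ, (∀ x, rk x ≤ K.card) ∧ ∀ x y, y ∈ A x → rk y < rk x := by
  classical
  intro K
  induction K using Finset.strongInduction with
  | _ K ih =>
    intro hloop hd
    rcases K.eq_empty_or_nonempty with rfl | hne
    · exact ⟨fun _ => ∅, fun _ => by simp, fun _ _ => by simp, fun _ _ h => by simp at h,
        fun _ => 0, fun _ => le_rfl, fun _ _ h => by simp at h⟩
    obtain ⟨x, hx, hdeg⟩ := exists_low_vertex hloop (hd K subset_rfl) hne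
    set K' := K.filter (fun e => x ∉ e) with hK'
    have hssub : K' ⊂ K := by
      obtain ⟨e, he, hxe⟩ := mem_supp.1 hx
      exact (Finset.ssubset_iff_of_subset (filter_subset _ _)).2
        ⟨e, he, fun h => (mem_filter.1 h).2 hxe⟩
    obtain ⟨A, hA1, hA2, hA3, rk, hr1, hr2⟩ := ih K' hssub (fun e he => hloop e (filter_subset _ _ he))
      (fun K'' h => hd K'' (h.trans (filter_subset _ _)))
    have hx1 : ∀ y, y ∉ A x := fun y hy =>
      (mem_filter.1 ((hA2 x y).2 (Or.inl hy))).2 (Sym2.mem_mk_left x y)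
    have hx2 : ∀ y, x ∉ A y := fun y hy =>
      (mem_filter.1 ((hA2 x y).2 (Or.inr hy))).2 (Sym2.mem_mk_left x y)
    refine ⟨Function.update A x (univ.filter fun y => s(x, y) ∈ K), fun z => ?_, fun a b => ?_, ?_,
      Function.update rk x K.card, fun z => ?_, fun a b hab => ?_⟩
    · rcases eq_or_ne z x with rfl | hz
      · rw [Function.update_self]
        refine le_trans ?_ hdeg
        refine Finset.card_le_card_of_injOn (fun y => s(z, y)) ?_ ?_
        · intro y hy
          simp only [coe_filter, mem_univ, true_and] at hy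
          simpa using hy
        · intro y _ y' _ h
          exact Sym2.congr_right.1 h
      · rw [Function.update_of_ne hz]; exact hA1 z
    · rcases eq_or_ne a x with rfl | ha
      · rcases eq_or_ne b a with rfl | hb
        · simp
        · simp
          simp [Function.update_of_ne hb, hx2]
      · rcases eq_or_ne b x with rfl | hb
        · simp [Function.update_of_ne ha, hx2, Sym2.eq_swap]
        · rw [Function.update_of_ne ha, Function.update_of_ne hb, ← hA2 a b, hK', mem_filter]
          simp [Ne.symm ha, Ne.symm hb]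
    · intro a b hab hba
      rcases eq_or_ne a x with rfl | ha
      · rcases eq_or_ne b a with rfl | hb
        · simp only [Function.update_self, mem_filter] at hab
          exact hloop _ hab.2 rfl
        · rw [Function.update_of_ne hb] at hba
          exact hx2 b hba
      · rw [Function.update_of_ne ha] at hab
        rcases eq_or_ne b x with rfl | hb
        · exact hx2 a hab
        · rw [Function.update_of_ne hb] at hba
          exact hA3 a b hab hba
    · rcases eq_or_ne z x with rfl | hz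
      · rw [Function.update_self]
      · rw [Function.update_of_ne hz]
        exact (hr1 z).trans (card_le_card (filter_subset _ _))
    · rcases eq_or_ne a x with rfl | ha
      · rw [Function.update_self, mem_filter] at hab
        have hba : b ≠ a := fun e => hloop _ hab.2 (e ▸ rfl)
        rw [Function.update_self, Function.update_of_ne hba]
        exact lt_of_le_of_lt (hr1 b) (card_lt_card hssub)
      · rw [Function.update_of_ne ha] at hab
        have hbx : b ≠ x := fun e => hx2 a (e ▸ hab)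
        rw [Function.update_of_ne ha, Function.update_of_ne hbx]
        exact hr2 a b hab

/-- Permutations of the vertices, acting on vertices with sets of successors. -/
def unitAct (n : ℕ) : Equiv.Perm (Fin n) →* Equiv.Perm (Fin n × Finset (Fin n)) where
  toFun σ :=
    { toFun := fun u => (σ u.1, u.2.image σ)
      invFun := fun u => (σ.symm u.1, u.2.image σ.symm)
      left_inv := fun u => by simp [Finset.image_image]
      right_inv := fun u => by simp [Finset.image_image] }
  map_one' := Equiv.ext fun u => by simp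
  map_mul' σ τ := Equiv.ext fun u => by simp [Finset.image_image]

theorem unitAct_apply (σ : Equiv.Perm (Fin n)) (y : Fin n) (B : Finset (Fin n)) :
    unitAct n σ (y, B) = (σ y, B.image σ) := rfl

/-- The weight of a vertex with a set of successors. -/
def unitWt (q : ℝ) (u : Fin n × Finset (Fin n)) : ℝ := q ^ u.2.card

/-- The edges of a set of vertices with successors. -/
def unitEdges (U : Finset (Fin n × Finset (Fin n))) : Finset (Sym2 (Fin n)) :=
  U.biUnion fun u => u.2.image fun z => s(u.1, z)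

theorem unitEdges_tr (σ : Equiv.Perm (Fin n)) (U : Finset (Fin n × Finset (Fin n))) :
    unitEdges (tr (unitAct n) σ U) = tr (pairAct n) σ (unitEdges U) := by
  rw [tr_pairAct]
  simp only [unitEdges, tr, Finset.map_eq_image, Finset.image_biUnion, Finset.biUnion_image]
  refine Finset.biUnion_congr rfl fun u _ => ?_
  obtain ⟨y, B⟩ := u
  simp [unitAct_apply, Finset.image_image, Function.comp_def]

theorem orb_unitEdges_le (U : Finset (Fin n × Finset (Fin n))) :
    (orb (pairAct n) (unitEdges U)).card ≤ (orb (unitAct n) U).card := by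
  classical
  refine le_trans (card_le_card ?_) (card_image_le (f := unitEdges))
  intro T hT
  obtain ⟨σ, rfl⟩ := (mem_orb _).1 hT
  exact mem_image.2 ⟨_, (mem_orb _).2 ⟨σ, rfl⟩, unitEdges_tr σ U⟩

/-- The weight of units chosen inside an orientation is `q` to the number of their edges. -/
theorem wprod_units {q : ℝ} {A : Fin n → Finset (Fin n)} (hA : ∀ x y, y ∈ A x → x ∉ A y)
    {U : Finset (Fin n × Finset (Fin n))} (hU : ∀ u ∈ U, u.2 ⊆ A u.1)
    (hinj : Set.InjOn Prod.fst (U : Set (Fin n × Finset (Fin n)))) :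
    wprod (unitWt q) U = q ^ (unitEdges U).card := by
  rw [wprod]
  simp only [unitWt]
  rw [Finset.prod_pow_eq_pow_sum, unitEdges, Finset.card_biUnion]
  · refine congrArg _ (Finset.sum_congr rfl fun u _ => ?_)
    rw [card_image_of_injective _ fun a b h => Sym2.congr_right.1 h]
  · intro u hu w hw huw
    rw [Function.onFun, Finset.disjoint_left]
    intro e he he'
    obtain ⟨a, ha, rfl⟩ := mem_image.1 he
    obtain ⟨b, hb, h⟩ := mem_image.1 he'
    rcases Sym2.eq_iff.1 h with ⟨h1, -⟩ | ⟨h1, h2⟩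
    · exact huw (hinj hu hw h1.symm)
    · exact hA u.1 a (hU u hu ha) (h1 ▸ h2 ▸ hU w hw hb)

/-- Embeddings of the edge set `F` on `Fin w` into `H0`. -/
noncomputable def embs (H0 : Finset (Sym2 (Fin n))) {w : ℕ} (F : Finset (Sym2 (Fin w))) :
    Finset (Fin w ↪ Fin n) :=
  univ.filter fun φ => ∀ e ∈ F, Sym2.map φ e ∈ H0

/-- Fibres of composition with a fixed embedding have equal size. -/
theorem fiber_card {w : ℕ} (ι φ : Fin w ↪ Fin n) :
    Fintype.card (Fin w ↪ Fin n) *
        (univ.filter fun σ : Equiv.Perm (Fin n) => ι.trans σ.toEmbedding = φ).card =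
      Fintype.card (Equiv.Perm (Fin n)) := by
  classical
  set fib : (Fin w ↪ Fin n) → Finset (Equiv.Perm (Fin n)) :=
    fun ψ => univ.filter fun σ => ι.trans σ.toEmbedding = ψ with hfib
  have hc : ∀ ψ, (fib ψ).card = (fib φ).card := by
    intro ψ
    obtain ⟨τ, hτ⟩ := exists_perm_extend φ.injective ψ.injective
    symm
    refine Finset.card_bij' (fun σ _ => τ * σ) (fun σ _ => τ⁻¹ * σ) ?_ ?_ ?_ ?_
    · intro σ hσ
      simp only [hfib, mem_filter, mem_univ, true_and] at hσ ⊢
      ext i : 1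
      have := DFunLike.congr_fun hσ i
      simp only [Function.Embedding.trans_apply, Equiv.coe_toEmbedding, Equiv.Perm.coe_mul,
        Function.comp_apply] at this ⊢
      rw [this, hτ]
    · intro σ hσ
      simp only [hfib, mem_filter, mem_univ, true_and] at hσ ⊢
      ext i : 1
      have := DFunLike.congr_fun hσ i
      simp only [Function.Embedding.trans_apply, Equiv.coe_toEmbedding, Equiv.Perm.coe_mul,
        Function.comp_apply] at this ⊢
      rw [this, Equiv.Perm.inv_eq_iff_eq, hτ]
    · intro σ _; simp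
    · intro σ _; simp
  have hall : (univ : Finset (Equiv.Perm (Fin n))).card = ∑ ψ : Fin w ↪ Fin n, (fib ψ).card :=
    Finset.card_eq_sum_card_fiberwise (f := fun σ : Equiv.Perm (Fin n) => ι.trans σ.toEmbedding)
      (t := univ) (fun _ _ => mem_coe.2 (mem_univ _))
  rw [Finset.sum_congr rfl fun ψ _ => hc ψ, sum_const, smul_eq_mul] at hall
  simp only [card_univ] at hall
  exact hall.symm

theorem orbit_stabilizer {X : Type*} [DecidableEq X] {G : Type*} [Group G] [Fintype G]
    (ρ : G →* Equiv.Perm X) (S T : Finset X) :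
    (univ.filter fun g => tr ρ g T ⊆ S).card * (orb ρ T).card =
      (inside ρ S T).card * Fintype.card G := by
  classical
  set st : Finset X → Finset G := fun U => univ.filter fun g => tr ρ g T = U with hst
  have hc : ∀ U ∈ orb ρ T, (st U).card = (st T).card := by
    intro U hU
    obtain ⟨h, rfl⟩ := (mem_orb ρ).1 hU
    symm
    refine Finset.card_bij' (fun g _ => h * g) (fun g _ => h⁻¹ * g) ?_ ?_ ?_ ?_
    · intro g hg
      simp only [hst, mem_filter, mem_univ, true_and] at hg ⊢
      rw [tr_mul, hg]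
    · intro g hg
      simp only [hst, mem_filter, mem_univ, true_and] at hg ⊢
      rw [tr_mul, hg, tr_inv_tr]
    · intro g _; simp
    · intro g _; simp
  have hall : Fintype.card G = (orb ρ T).card * (st T).card := by
    rw [← card_univ, Finset.card_eq_sum_card_fiberwise (f := fun g => tr ρ g T) (t := orb ρ T)
      (fun g _ => mem_coe.2 ((mem_orb ρ).2 ⟨g, rfl⟩)), Finset.sum_congr rfl hc, sum_const,
      smul_eq_mul]
  have hgood : (univ.filter fun g => tr ρ g T ⊆ S).card = (inside ρ S T).card * (st T).card := by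
    rw [Finset.card_eq_sum_card_fiberwise (f := fun g => tr ρ g T) (t := inside ρ S T) ?_,
      Finset.sum_congr rfl (g := fun _ => (st T).card) ?_, sum_const, smul_eq_mul]
    · intro U hU
      obtain ⟨h1, h2⟩ := mem_filter.1 hU
      rw [← hc U h1]
      refine congrArg Finset.card ?_
      ext g
      simp only [hst, mem_filter, mem_univ, true_and]
      exact ⟨fun h => h.2, fun h => ⟨h ▸ h2, h⟩⟩
    · intro g hg
      simp only [coe_filter, mem_univ, true_and] at hg
      exact mem_coe.2 (mem_filter.2 ⟨(mem_orb ρ).2 ⟨g, rfl⟩, hg⟩)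
  rw [hall, hgood]
  ring

section Core

variable {w : ℕ} (A : Fin n → Finset (Fin n)) (F : Finset (Sym2 (Fin w)))

/-- The successors that an embedding uses at a vertex. -/
def used (φ : Fin w ↪ Fin n) (y : Fin n) : Finset (Fin n) :=
  (A y).filter fun z => s(y, z) ∈ F.image (Sym2.map φ)

/-- The units of an embedding. -/
def units (φ : Fin w ↪ Fin n) : Finset (Fin n × Finset (Fin n)) :=
  univ.image fun i => (φ i, used A F φ (φ i))

theorem unitEdges_units {H0 : Finset (Sym2 (Fin n))}
    (hA : ∀ x y, s(x, y) ∈ H0 ↔ (y ∈ A x ∨ x ∈ A y)) {φ : Fin w ↪ Fin n} (hφ : φ ∈ embs H0 F) :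
    unitEdges (units A F φ) = F.image (Sym2.map φ) := by
  ext e
  constructor
  · intro he
    obtain ⟨u, hu, he⟩ := mem_biUnion.1 he
    obtain ⟨i, -, rfl⟩ := mem_image.1 hu
    obtain ⟨z, hz, rfl⟩ := mem_image.1 he
    exact (mem_filter.1 hz).2
  · intro he
    obtain ⟨e', he', rfl⟩ := mem_image.1 he
    induction e' using Sym2.ind with
    | _ i j =>
      have hH := (mem_filter.1 hφ).2 _ he'
      rw [Sym2.map_mk] at hH ⊢
      refine mem_biUnion.2 ?_
      rcases (hA _ _).1 hH with h | h
      · exact ⟨_, mem_image_of_mem _ (mem_univ i), mem_image.2 ⟨φ j, mem_filter.2 ⟨h,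
          mem_image.2 ⟨s(i, j), he', rfl⟩⟩, rfl⟩⟩
      · exact ⟨_, mem_image_of_mem _ (mem_univ j), mem_image.2 ⟨φ i, mem_filter.2 ⟨h,
          mem_image.2 ⟨s(i, j), he', Sym2.eq_swap⟩⟩, Sym2.eq_swap⟩⟩

end Core

/-- The number of common neighbours of `t` vertices. -/
theorem codegree {q : ℝ} {H0 : Finset (Sym2 (Fin n))} (hH : H0 ⊆ pairsOf n) (hq0 : 0 < q)
    (hR : Rich q H0) {R : ℕ} (hnR : n ≤ 2 ^ R) (Aset : Finset (Fin n)) :
    ((univ.filter fun z => ∀ a ∈ Aset, s(a, z) ∈ H0).card : ℝ) ≤
      6 * n * q ^ Aset.card + Aset.card * R + 2 := by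
  classical
  set Z := univ.filter fun z => ∀ a ∈ Aset, s(a, z) ∈ H0 with hZ
  set t := Aset.card with ht
  set k := Z.card with hk
  set K := (Aset ×ˢ Z).image fun p => s(p.1, p.2) with hKdef
  have hdis : ∀ a ∈ Aset, a ∉ Z := fun a ha haZ => by
    have := hH ((mem_filter.1 haZ).2 a ha)
    simp [pairsOf] at this
  have hKcard : K.card = t * k := by
    rw [hKdef, card_image_of_injOn, card_product]
    rintro ⟨a, z⟩ h ⟨a', z'⟩ h' heq
    simp only [coe_product, Set.mem_prod, mem_coe] at h h'
    rcases Sym2.eq_iff.1 heq with ⟨h1, h2⟩ | ⟨h1, h2⟩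
    · simp only at h1 h2
      rw [h1, h2]
    · simp only at h1 h2
      exact absurd h'.2 (h1 ▸ hdis a h.1)
  have hKH : K ⊆ H0 := by
    intro e he
    obtain ⟨⟨a, z⟩, hp, rfl⟩ := mem_image.1 he
    obtain ⟨h1, h2⟩ := mem_product.1 hp
    exact (mem_filter.1 h2).2 a h1
  have horb : (orb (pairAct n) K).card ≤ n ^ t * n.choose k := by
    refine le_trans (card_le_card (t := ((univ : Finset (Aset → Fin n)) ×ˢ
      (univ : Finset (Fin n)).powersetCard k).image
      fun p => ((univ : Finset Aset) ×ˢ p.2).image fun r => s(p.1 r.1, r.2)) ?_) ?_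
    · intro T hT
      obtain ⟨σ, rfl⟩ := (mem_orb _).1 hT
      refine mem_image.2 ⟨(fun a => σ a, Z.image σ), mem_product.2 ⟨mem_univ _,
        mem_powersetCard.2 ⟨subset_univ _, card_image_of_injective _ σ.injective⟩⟩, ?_⟩
      rw [tr_pairAct, hKdef]
      ext e
      simp only [mem_image, mem_product, mem_univ, true_and, Prod.exists, Subtype.exists]
      constructor
      · rintro ⟨a, ha, _, ⟨z, hz, rfl⟩, rfl⟩
        exact ⟨_, ⟨a, z, ⟨ha, hz⟩, rfl⟩, rfl⟩
      · rintro ⟨_, ⟨a, z, ⟨ha, hz⟩, rfl⟩, rfl⟩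
        exact ⟨a, ha, _, ⟨z, hz, rfl⟩, rfl⟩
    · refine card_image_le.trans (le_of_eq ?_)
      simp [card_powersetCard, ht]
  by_contra hcon
  rw [not_le] at hcon
  have hnq : (0 : ℝ) ≤ n * q ^ t := by positivity
  have hkR : t * R + 2 ≤ k := by
    have : ((t * R + 2 : ℕ) : ℝ) < k := by push_cast; linarith
    exact_mod_cast this.le
  have hhyp := hR K hKH
  rw [hKcard] at hhyp
  have h1 : (1 : ℝ) / 2 ≤ (2 : ℝ) ^ (t * R) * ((1 / 2) ^ k) := by
    refine hhyp.trans ?_
    have hch : ((orb (pairAct n) K).card : ℝ) ≤ (2 : ℝ) ^ (t * R) * (n.choose k : ℝ) := by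
      have : n ^ t ≤ 2 ^ (t * R) := by
        rw [mul_comm t R, pow_mul]
        exact Nat.pow_le_pow_left hnR t
      exact_mod_cast horb.trans (Nat.mul_le_mul_right _ this)
    refine (mul_le_mul_of_nonneg_right hch (by positivity)).trans ?_
    rw [mul_assoc]
    refine mul_le_mul_of_nonneg_left ?_ (by positivity)
    have hk0 : 0 < k := by omega
    have hfac := Real.pow_div_factorial_le_exp (k : ℝ) (Nat.cast_nonneg k) k
    have hexp : Real.exp (k : ℝ) ≤ 3 ^ k := by
      rw [← mul_one (k : ℝ), Real.exp_nat_mul]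
      exact pow_le_pow_left₀ (Real.exp_pos _).le (by linarith [Real.exp_one_lt_d9]) k
    have hch2 : (n.choose k : ℝ) * (k : ℝ) ^ k ≤ (n : ℝ) ^ k * 3 ^ k := by
      have hc1 : (n.choose k : ℝ) ≤ (n : ℝ) ^ k / k.factorial := Nat.choose_le_pow_div k n
      calc (n.choose k : ℝ) * (k : ℝ) ^ k ≤ (n : ℝ) ^ k / k.factorial * (k : ℝ) ^ k :=
            mul_le_mul_of_nonneg_right hc1 (by positivity)
        _ = (n : ℝ) ^ k * ((k : ℝ) ^ k / k.factorial) := by ring
        _ ≤ _ := mul_le_mul_of_nonneg_left (hfac.trans hexp) (by positivity)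
    refine le_of_mul_le_mul_right ?_ (show (0 : ℝ) < (k : ℝ) ^ k by positivity)
    calc (n.choose k : ℝ) * q ^ (t * k) * (k : ℝ) ^ k
        = (n.choose k : ℝ) * (k : ℝ) ^ k * q ^ (t * k) := by ring
      _ ≤ (n : ℝ) ^ k * 3 ^ k * q ^ (t * k) := mul_le_mul_of_nonneg_right hch2 (by positivity)
      _ = (3 * n * q ^ t) ^ k := by rw [mul_pow, mul_pow, ← pow_mul]; ring
      _ ≤ ((1 / 2) * k) ^ k := pow_le_pow_left₀ (by positivity)
          (by linarith [mul_nonneg (Nat.cast_nonneg (α := ℝ) t) (Nat.cast_nonneg (α := ℝ) R)]) k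
      _ = _ := mul_pow _ _ _
  have h2 : (2 : ℝ) ^ (t * R) * ((1 / 2) ^ k) ≤ 1 / 4 := by
    calc (2 : ℝ) ^ (t * R) * ((1 / 2) ^ k) ≤ 2 ^ (t * R) * (1 / 2) ^ (t * R + 2) :=
          mul_le_mul_of_nonneg_left (pow_le_pow_of_le_one (by norm_num) (by norm_num) hkR)
            (by positivity)
      _ = _ := by rw [pow_add, ← mul_assoc, ← mul_pow]; norm_num
  linarith

theorem embs_peel {H0 : Finset (Sym2 (Fin n))} {w : ℕ} (F : Finset (Sym2 (Fin (w + 1))))
    (hloop : ∀ e ∈ F, ¬ e.IsDiag) (y : Fin (w + 1)) {B : ℝ} (hB0 : 0 ≤ B)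
    (hB : ∀ Aset : Finset (Fin n), Aset.card = (F.filter (y ∈ ·)).card →
      ((univ.filter fun z => ∀ a ∈ Aset, s(a, z) ∈ H0).card : ℝ) ≤ B) :
    ∃ F' : Finset (Sym2 (Fin w)), (∀ e ∈ F', ¬ e.IsDiag) ∧
      F.card = F'.card + (F.filter (y ∈ ·)).card ∧
      ((embs H0 F).card : ℝ) ≤ B * (embs H0 F').card := by
  classical
  set em : Fin w ↪ Fin (w + 1) := ⟨y.succAbove, Fin.succAbove_right_injective⟩ with hem
  set F' := univ.filter fun e : Sym2 (Fin w) => Sym2.map em e ∈ F with hF'
  refine ⟨F', fun e he => ?_, ?_, ?_⟩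
  · have := hloop _ (mem_filter.1 he).2
    induction e using Sym2.ind with
    | _ a b => exact fun h => this (by simpa using congrArg em (by simpa using h))
  · rw [← Finset.card_filter_add_card_filter_not (s := F) (y ∈ ·), add_comm]
    refine congrArg (· + _) ?_
    rw [← card_image_of_injective F' (Sym2.map.injective em.injective)]
    refine congrArg Finset.card ?_
    ext e
    simp only [hF', mem_image, mem_filter, mem_univ, true_and]
    constructor
    · rintro ⟨he, hy⟩
      induction e using Sym2.ind with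
      | _ a b =>
        simp only [Sym2.mem_iff, not_or] at hy
        obtain ⟨a', rfl⟩ := Fin.exists_succAbove_eq (Ne.symm hy.1)
        obtain ⟨b', rfl⟩ := Fin.exists_succAbove_eq (Ne.symm hy.2)
        exact ⟨s(a', b'), by simpa [hem] using he, by simp [hem]⟩
    · rintro ⟨e', he', rfl⟩
      refine ⟨he', fun h => ?_⟩
      obtain ⟨a, -, ha⟩ := Sym2.mem_map.1 h
      exact Fin.succAbove_ne y a ha
  · set rest : (Fin (w + 1) ↪ Fin n) → (Fin w ↪ Fin n) := fun φ => em.trans φ with hrest
    have hmaps : ∀ φ ∈ embs H0 F, rest φ ∈ embs H0 F' := by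
      intro φ hφ
      refine mem_filter.2 ⟨mem_univ _, fun e he => ?_⟩
      have := (mem_filter.1 hφ).2 _ (mem_filter.1 he).2
      rwa [Sym2.map_map] at this
    rw [Finset.card_eq_sum_card_fiberwise hmaps, Nat.cast_sum, mul_comm, ← nsmul_eq_mul,
      ← sum_const]
    refine Finset.sum_le_sum fun ψ _ => ?_
    rcases ((embs H0 F).filter fun φ => rest φ = ψ).eq_empty_or_nonempty with h | ⟨φ₁, hφ₁⟩
    · rwa [h, card_empty, Nat.cast_zero]
    obtain ⟨-, hφ₁'⟩ := mem_filter.1 hφ₁
    set nbr := (univ : Finset (Fin (w + 1))).filter fun a => s(a, y) ∈ F with hnbr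
    have hncard : nbr.card = (F.filter (y ∈ ·)).card := by
      refine Finset.card_bij (fun a _ => s(a, y)) ?_ ?_ ?_
      · intro a ha
        exact mem_filter.2 ⟨(mem_filter.1 ha).2, Sym2.mem_mk_right a y⟩
      · intro a _ b _ h
        exact Sym2.congr_left.1 h
      · intro e he
        obtain ⟨he, hy⟩ := mem_filter.1 he
        refine ⟨Sym2.Mem.other hy, mem_filter.2 ⟨mem_univ _, ?_⟩, ?_⟩
        · rwa [Sym2.eq_swap, Sym2.other_spec]
        · rw [Sym2.eq_swap, Sym2.other_spec]
    have hne : ∀ a ∈ nbr, a ≠ y := fun a ha hay => hloop _ (mem_filter.1 ha).2 (by simp [hay])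
    refine le_trans ?_ (hB (nbr.image φ₁) (by rw [card_image_of_injective _ φ₁.injective, hncard]))
    have : ((embs H0 F).filter fun φ => rest φ = ψ).card ≤
        (univ.filter fun z => ∀ a ∈ nbr.image φ₁, s(a, z) ∈ H0).card := by
      refine Finset.card_le_card_of_injOn (fun φ => φ y) ?_ ?_
      · intro φ hφ
        obtain ⟨h1, h2⟩ := mem_filter.1 (mem_coe.1 hφ)
        refine mem_coe.2 (mem_filter.2 ⟨mem_univ _, fun z hz => ?_⟩)
        obtain ⟨a, ha, rfl⟩ := mem_image.1 hz
        obtain ⟨a', rfl⟩ := Fin.exists_succAbove_eq (hne a ha)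
        have heq : φ₁ (y.succAbove a') = φ (y.succAbove a') :=
          DFunLike.congr_fun (hφ₁'.trans h2.symm) a'
        rw [heq]
        exact (mem_filter.1 h1).2 _ (mem_filter.1 ha).2
      · intro φ hφ φ' hφ' h
        have h2 := (mem_filter.1 (mem_coe.1 hφ)).2.trans (mem_filter.1 (mem_coe.1 hφ')).2.symm
        ext a : 1
        rcases eq_or_ne a y with rfl | ha
        · exact h
        · obtain ⟨a', rfl⟩ := Fin.exists_succAbove_eq ha
          exact DFunLike.congr_fun h2 a'
    exact_mod_cast this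

end Vale.Agent.P064
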