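import Vale.Agent.P064.Defs

/-!
The fractional expectation threshold of P064.
-/

namespace Vale.Agent.P064

/-- The fractional expectation threshold `p̃_E(n,H)`. -/
noncomputable def pFrac (n : ℕ) {α : Type} [Fintype α] (H : SimpleGraph α) : ℝ :=
  sInf {p : ℝ | p ∈ Set.Icc 0 1 ∧
    ∀ F : H.Subgraph, (H.copyCount F.coe : ℝ) / 2 ≤ expCopies n p F.coe}

end Vale.Agent.P064
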