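import Vale.Agent.P064.Graph
import Vale.Agent.P064.FracDefs
import Mathlib.Data.Fintype.Sum
import Mathlib.Data.Finset.Sum
import Mathlib.Logic.Equiv.Sum

/-!
The bound `p̃_E(n,H) = O(p_E(n,H) log n)`. A copy is recorded as its vertex set together with its
edge set, a finite subset of `Fin n ⊕ Sym2 (Fin n)`.
-/

namespace Vale.Agent.P064

open Finset

variable {n : ℕ}

/-- Permutations of the vertices, acting on vertices and pairs at once. -/
def bothAct (n : ℕ) : Equiv.Perm (Fin n) →* Equiv.Perm (Fin n ⊕ Sym2 (Fin n)) where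
  toFun σ := Equiv.sumCongr σ (pairAct n σ)
  map_one' := by rw [map_one]; exact Equiv.sumCongr_refl
  map_mul' σ τ := by
    rw [map_mul]
    exact Equiv.ext fun z => by cases z <;> rfl

theorem tr_disjSum (σ : Equiv.Perm (Fin n)) (A : Finset (Fin n)) (T : Finset (Sym2 (Fin n))) :
    tr (bothAct n) σ (A.disjSum T) = (A.image σ).disjSum (tr (pairAct n) σ T) := by
  ext z
  cases z <;> simp [tr, bothAct, Finset.mem_disjSum, ← Equiv.eq_symm_apply]

open scoped Classical in
/-- The vertices and edges of a subgraph, moved along an embedding. -/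
noncomputable def shadow {α : Type} {G : SimpleGraph α} (j : α ↪ Fin n) (K : G.Subgraph) :
    Finset (Fin n ⊕ Sym2 (Fin n)) :=
  (Finset.univ.filter (fun x => x ∈ j '' K.verts)).disjSum
    (Finset.univ.filter (fun e => e ∈ Sym2.map j '' K.edgeSet))

theorem shadow_injective {α : Type} {G : SimpleGraph α} (j : α ↪ Fin n) :
    Function.Injective (shadow (G := G) j) := by
  classical
  intro K L h
  simp only [shadow, Finset.ext_iff] at h
  have hv : K.verts = L.verts := by
    ext a
    simpa [j.injective.eq_iff] using h (Sum.inl (j a))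
  have he : ∀ e, e ∈ K.edgeSet ↔ e ∈ L.edgeSet := by
    intro e
    have hi : Function.Injective (Sym2.map (j : α → Fin n)) := Sym2.map.injective j.injective
    simpa [hi.eq_iff] using h (Sum.inr (Sym2.map j e))
  exact SimpleGraph.Subgraph.ext hv
    (funext fun a => funext fun b => propext (he s(a, b)))

theorem shadow_toSubgraph {β α : Type} {K : SimpleGraph β} {G : SimpleGraph α} (j : α ↪ Fin n)
    (i : β ↪ Fin n) (f : SimpleGraph.Copy K G) (σ : Equiv.Perm (Fin n))
    (hσ : ∀ b, σ (i b) = j (f b)) :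
    shadow j f.toSubgraph = tr (bothAct n) σ (shadow i (⊤ : K.Subgraph)) := by
  classical
  simp only [shadow, tr_disjSum]
  refine congrArg₂ Finset.disjSum ?_ ?_
  · ext x
    simp only [Finset.mem_filter, Finset.mem_univ, true_and, Finset.mem_image, Set.mem_image,
      SimpleGraph.Copy.toSubgraph, SimpleGraph.Subgraph.map_verts, SimpleGraph.Subgraph.verts_top,
      Set.mem_univ]
    constructor
    · rintro ⟨a, ⟨b, rfl⟩, rfl⟩
      exact ⟨i b, ⟨b, rfl⟩, hσ b⟩
    · rintro ⟨y, ⟨b, rfl⟩, rfl⟩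
      exact ⟨f b, ⟨b, rfl⟩, (hσ b).symm⟩
  · ext e
    simp only [Finset.mem_filter, Finset.mem_univ, true_and, tr, Finset.mem_map,
      SimpleGraph.Copy.toSubgraph, SimpleGraph.Subgraph.edgeSet_map, Set.mem_image,
      SimpleGraph.Subgraph.edgeSet_top, Equiv.coe_toEmbedding]
    constructor
    · rintro ⟨_, ⟨e', he', rfl⟩, rfl⟩
      refine ⟨Sym2.map i e', ⟨e', he', rfl⟩, ?_⟩
      induction e' using Sym2.ind with
      | _ a b => simp [pairAct_mk, hσ]
    · rintro ⟨_, ⟨e', he', rfl⟩, rfl⟩
      refine ⟨_, ⟨e', he', rfl⟩, ?_⟩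
      induction e' using Sym2.ind with
      | _ a b => simp [pairAct_mk, hσ]

theorem frac_bound {n v : ℕ} (hn : 2 ≤ n) (hv : v ≤ n) (H : SimpleGraph (Fin v))
    (hH : H.edgeSet.Nonempty) {q : ℝ} (hq : q ∈ Set.Icc (0 : ℝ) 1)
    (hyp : ∀ F : H.Subgraph, 1 / 2 ≤ expCopies n q F.coe) (F : H.Subgraph) :
    (H.copyCount F.coe : ℝ) / 2 ≤ expCopies n (min 1 (2 ^ 20 * Real.log n * q)) F.coe := by
  classical
  set p := min 1 (2 ^ 20 * Real.log n * q) with hp
  set j : Fin v ↪ Fin n := Fin.castLEEmb hv with hj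
  set i : F.verts ↪ Fin n := ⟨fun x => j x.1, fun a b h => Subtype.ext (j.injective h)⟩ with hi
  set H0 := image0 H hv with hH0
  set P0 : Finset (Fin n ⊕ Sym2 (Fin n)) := shadow i (⊤ : F.coe.Subgraph) with hP0
  set J : Finset (Sym2 (Fin n)) := P0.toRight with hJ
  set A : Finset (Fin n) := P0.toLeft with hA
  have hsplit : P0 = A.disjSum J := (Finset.toLeft_disjSum_toRight).symm
  set O := orb (bothAct n) P0 with hO
  have hmem : ∀ T : Finset (Fin n ⊕ Sym2 (Fin n)), T ∈ O →
      ∃ σ : Equiv.Perm (Fin n), T = (A.image σ).disjSum (tr (pairAct n) σ J) ∧ T.toRight = tr (pairAct n) σ J := by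
    intro T hT
    obtain ⟨σ, rfl⟩ := (mem_orb _).1 hT
    refine ⟨σ, by rw [hsplit, tr_disjSum], ?_⟩
    rw [hsplit, tr_disjSum, Finset.toRight_disjSum]
  set fib : Finset (Sym2 (Fin n)) → Finset (Finset (Fin n ⊕ Sym2 (Fin n))) := fun T =>
    O.filter (fun U => U.toRight = T) with hfib
  have hfibc : ∀ T ∈ orb (pairAct n) J, (fib T).card = (fib J).card := by
    intro T hT
    obtain ⟨σ, rfl⟩ := (mem_orb _).1 hT
    symm
    have key : ∀ (τ : Equiv.Perm (Fin n)) (U : Finset (Fin n ⊕ Sym2 (Fin n))), U ∈ O →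
        (tr (bothAct n) τ U).toRight = tr (pairAct n) τ U.toRight := by
      intro τ U _
      conv_lhs => rw [← Finset.toLeft_disjSum_toRight (u := U), tr_disjSum,
        Finset.toRight_disjSum]
    refine Finset.card_bij' (fun U _ => tr (bothAct n) σ U) (fun U _ => tr (bothAct n) σ⁻¹ U)
      ?_ ?_ ?_ ?_
    · intro U hU
      obtain ⟨h1, h2⟩ := Finset.mem_filter.1 hU
      exact Finset.mem_filter.2 ⟨(tr_mem_orb_iff _ σ).2 h1, by rw [key σ U h1, h2]⟩
    · intro U hU
      obtain ⟨h1, h2⟩ := Finset.mem_filter.1 hU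
      exact Finset.mem_filter.2
        ⟨(tr_mem_orb_iff _ σ⁻¹).2 h1, by rw [key σ⁻¹ U h1, h2, tr_inv_tr]⟩
    · intro U _; exact tr_inv_tr _ σ U
    · intro U _; exact tr_tr_inv _ σ U
  have hOcard : O.card = (orb (pairAct n) J).card * (fib J).card := by
    rw [Finset.card_eq_sum_card_fiberwise (f := Finset.toRight) (t := orb (pairAct n) J) ?_,
      Finset.sum_congr rfl hfibc, Finset.sum_const, smul_eq_mul]
    intro U hU
    obtain ⟨σ, -, h⟩ := hmem U hU
    exact Finset.mem_coe.2 (h ▸ (mem_orb _).2 ⟨σ, rfl⟩)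
  -- copies inside `H`
  have hcopies : (H.copyCount F.coe) ≤ (inside (pairAct n) H0 J).card * (fib J).card := by
    rw [SimpleGraph.copyCount_eq_card_image_copyToSubgraph]
    have hsub : ((univ : Finset (F.coe.Copy H)).image SimpleGraph.Copy.toSubgraph).image (shadow j) ⊆
        O.filter (fun U => U.toRight ⊆ H0) := by
      intro U hU
      obtain ⟨K, hK, rfl⟩ := Finset.mem_image.1 hU
      obtain ⟨f, -, rfl⟩ := Finset.mem_image.1 hK
      obtain ⟨σ, hσ⟩ := exists_perm_extend (a := i) (b := fun b => j (f b)) i.injective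
        (j.injective.comp f.injective)
      refine Finset.mem_filter.2 ⟨(mem_orb _).2 ⟨σ, (shadow_toSubgraph j i f σ hσ).symm⟩, ?_⟩
      intro e he
      rw [shadow, Finset.toRight_disjSum, Finset.mem_filter] at he
      obtain ⟨e', he', rfl⟩ := he.2
      rw [hH0, image0]
      exact Finset.mem_map.2 ⟨e', SimpleGraph.mem_edgeFinset.2
        (f.toSubgraph.edgeSet_subset he'), rfl⟩
    have := Finset.card_le_card hsub
    rw [Finset.card_image_of_injective _ (shadow_injective j)] at this
    refine this.trans (le_of_eq ?_)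
    rw [Finset.card_eq_sum_card_fiberwise (f := Finset.toRight) (t := inside (pairAct n) H0 J) ?_,
      Finset.sum_congr rfl (g := fun _ => (fib J).card) ?_, Finset.sum_const, smul_eq_mul]
    · intro T hT
      obtain ⟨h1, h2⟩ := Finset.mem_filter.1 hT
      rw [← hfibc T h1]
      refine congrArg Finset.card ?_
      ext U
      simp only [hfib, Finset.mem_filter]
      exact ⟨fun h => ⟨h.1.1, h.2⟩, fun h => ⟨⟨h.1, h.2 ▸ h2⟩, h.2⟩⟩
    · intro U hU
      obtain ⟨h1, h2⟩ := Finset.mem_filter.1 (Finset.mem_coe.1 hU)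
      obtain ⟨σ, -, h⟩ := hmem U h1
      exact Finset.mem_coe.2 (Finset.mem_filter.2 ⟨h ▸ (mem_orb _).2 ⟨σ, rfl⟩, h2⟩)
  have hJH : J ⊆ H0 := by
    intro e he
    rw [hJ, hP0, shadow, Finset.toRight_disjSum, Finset.mem_filter] at he
    obtain ⟨e', he', rfl⟩ := he.2
    rw [hH0, image0]
    induction e' using Sym2.ind with
    | _ a b =>
      refine Finset.mem_map.2 ⟨s(a.1, b.1), SimpleGraph.mem_edgeFinset.2 ?_, by simp [hi, hj]⟩
      exact F.adj_sub he'
  -- expected copies in `G(n,p)`
  have hexp : ∀ r : ℝ, r ∈ Set.Icc (0 : ℝ) 1 → (O.card : ℝ) * r ^ J.card ≤ expCopies n r F.coe := by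
    intro r hr
    calc (O.card : ℝ) * r ^ J.card
        = ∑ U ∈ O, expect (pairsOf n) r (fun W => if U.toRight ⊆ W then (1 : ℝ) else 0) := by
          rw [Finset.sum_congr rfl (g := fun _ => r ^ J.card) ?_, Finset.sum_const, nsmul_eq_mul]
          intro U hU
          obtain ⟨σ, -, h⟩ := hmem U hU
          rw [h, expect_superset _ r _ (orb_subset_pairs (hJH.trans (image0_subset H hv))
            ((mem_orb _).2 ⟨σ, rfl⟩)), card_tr]
      _ = expect (pairsOf n) r
            (fun W => ((O.filter (fun U => U.toRight ⊆ W)).card : ℝ)) := by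
          simp only [expect]
          rw [Finset.sum_comm]
          refine Finset.sum_congr rfl fun W _ => ?_
          rw [← Finset.mul_sum, ← Finset.sum_filter, Finset.sum_const, nsmul_eq_mul, mul_one]
      _ ≤ expCopies n r F.coe := by
          refine Finset.sum_le_sum fun W hW => mul_le_mul_of_nonneg_left ?_
            (wt_nonneg hr.1 hr.2 W)
          rw [SimpleGraph.copyCount_eq_card_image_copyToSubgraph]
          set GW := SimpleGraph.fromEdgeSet (W : Set (Sym2 (Fin n))) with hGW
          have hsub : O.filter (fun U => U.toRight ⊆ W) ⊆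
              ((univ : Finset (F.coe.Copy GW)).image SimpleGraph.Copy.toSubgraph).image
                (shadow (Function.Embedding.refl _)) := by
            intro U hU
            obtain ⟨h1, h2⟩ := Finset.mem_filter.1 hU
            obtain ⟨σ, rfl⟩ := (mem_orb _).1 h1
            have hmap : ∀ a b : F.verts, F.coe.Adj a b → GW.Adj (σ (i a)) (σ (i b)) := by
              intro a b hab
              rw [hGW, SimpleGraph.fromEdgeSet_adj]
              refine ⟨Finset.mem_coe.2 (h2 ?_), σ.injective.ne (i.injective.ne hab.ne)⟩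
              rw [hsplit, tr_disjSum, Finset.toRight_disjSum]
              refine Finset.mem_map.2 ⟨s(i a, i b), ?_, pairAct_mk σ (i a) (i b)⟩
              rw [hJ, hP0, shadow, Finset.toRight_disjSum, Finset.mem_filter]
              exact ⟨Finset.mem_univ _, s(a, b), hab, rfl⟩
            refine Finset.mem_image.2 ⟨_, Finset.mem_image.2 ⟨⟨⟨fun a => σ (i a), fun {a b} h =>
              hmap a b h⟩, σ.injective.comp i.injective⟩, Finset.mem_univ _, rfl⟩, ?_⟩
            exact shadow_toSubgraph (Function.Embedding.refl _) i _ σ (fun b => rfl)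
          dsimp only
          exact_mod_cast (Finset.card_le_card hsub).trans Finset.card_image_le
  -- the orbit inequality
  set R := Nat.clog 2 (n * n) with hR
  have hR0 : 0 < R := Nat.clog_pos one_lt_two (by nlinarith)
  have hRlog := clog_le_log hn
  rw [← hR] at hRlog
  have hHcard : H0.card ≤ 2 ^ R := by
    refine le_trans ?_ (Nat.le_pow_clog one_lt_two _)
    refine (card_le_card (image0_subset H hv)).trans ?_
    rw [pairsOf, SimpleGraph.card_edgeFinset_top_eq_card_choose_two, Fintype.card_fin,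
      Nat.choose_two_right]
    exact (Nat.div_le_self _ _).trans (Nat.mul_le_mul_left n (Nat.sub_le n 1))
  have hJ' : ∀ K ⊆ H0, 1 / 2 ≤ ((orb (pairAct n) K).card : ℝ) * q ^ K.card := fun K hK =>
    (hyp _).trans (expCopies_subOf_le hK hq.1 hq.2)
  have hqpos : 0 < q := by
    refine lt_of_le_of_ne hq.1 fun h0 => ?_
    obtain ⟨e, he⟩ := hH
    induction e using Sym2.ind with
    | _ a b =>
      have hm : s(Fin.castLE hv a, Fin.castLE hv b) ∈ H0 := mk_mem_image0.2 ⟨a, b, he, rfl, rfl⟩
      have := hJ' _ (singleton_subset_iff.2 hm)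
      rw [card_singleton, pow_one, ← h0, mul_zero] at this
      norm_num at this
  rcases le_or_gt 1 (2 ^ 20 * Real.log n * q) with hbig | hsmall
  · have hHn : (H.copyCount F.coe : ℝ) ≤ O.card := by
      have h1 : (inside (pairAct n) H0 J).card ≤ (orb (pairAct n) J).card := card_filter_le _ _
      have h2 := hcopies.trans (Nat.mul_le_mul_right _ h1)
      rw [← hOcard] at h2
      exact_mod_cast h2
    have h3 := hexp 1 ⟨zero_le_one, le_rfl⟩
    rw [one_pow, mul_one] at h3
    rw [hp, min_eq_left hbig]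
    have h0 : (0 : ℝ) ≤ H.copyCount F.coe := Nat.cast_nonneg _
    linarith
  · have hlam : 2 ^ 17 * (R : ℝ) * q ≤ p := by
      rw [hp, min_eq_right hsmall.le]
      refine mul_le_mul_of_nonneg_right ?_ hq.1
      have hlog0 : 0 ≤ Real.log (n : ℝ) := Real.log_nonneg (by exact_mod_cast (by omega : 1 ≤ n))
      linarith [mul_le_mul_of_nonneg_left hRlog (by norm_num : (0 : ℝ) ≤ 2 ^ 17)]
    have hins := inside_le_log (pairAct n) hqpos hJ' hR0 hHcard J
    have hp0 : 0 ≤ p := le_trans (by positivity) hlam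
    have h1 : ((inside (pairAct n) H0 J).card : ℝ) ≤ p ^ J.card * (orb (pairAct n) J).card :=
      hins.trans (mul_le_mul_of_nonneg_right (pow_le_pow_left₀ (by positivity) hlam _)
        (Nat.cast_nonneg _))
    have h2 : (H.copyCount F.coe : ℝ) ≤
        ((inside (pairAct n) H0 J).card : ℝ) * (fib J).card := by exact_mod_cast hcopies
    have h3 : (H.copyCount F.coe : ℝ) ≤ (O.card : ℝ) * p ^ J.card := by
      refine h2.trans ((mul_le_mul_of_nonneg_right h1 (Nat.cast_nonneg _)).trans (le_of_eq ?_))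
      rw [hOcard, Nat.cast_mul]
      ring
    have h4 := hexp p ⟨hp0, min_le_left _ _⟩
    have h0 : (0 : ℝ) ≤ H.copyCount F.coe := Nat.cast_nonneg _
    linarith

theorem pFrac_le {n v : ℕ} (hn : 2 ≤ n) (hv : v ≤ n) (H : SimpleGraph (Fin v))
    (hH : H.edgeSet.Nonempty) : pFrac n H ≤ 2 ^ 20 * Real.log n * pE n H := by
  have hlog : 0 < 2 ^ 20 * Real.log (n : ℝ) :=
    mul_pos (by norm_num) (Real.log_pos (by exact_mod_cast (by omega : 1 < n)))
  rw [← div_le_iff₀' hlog]
  refine le_csInf ⟨1, one_mem hv H⟩ fun q hq => ?_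
  rw [div_le_iff₀' hlog]
  exact le_trans (csInf_le ⟨0, fun p hp => hp.1.1⟩
    ⟨⟨le_min zero_le_one (mul_nonneg hlog.le hq.1.1), min_le_left _ _⟩,
      fun F => frac_bound hn hv H hH hq.1 hq.2 F⟩) (min_le_right _ _)

end Vale.Agent.P064
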