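import Vale.Agent.P064.Peel

/-!
The decomposition into blocks exists: a vertex with few open items can always be peeled, and some
choice of kept items keeps the weighted number of compatible embeddings.
-/

namespace Vale.Agent.P064.Blk

open Finset Vale.Agent.P064

variable {n w : ℕ} {H0 : Finset (Sym2 (Fin n))} {q : ℝ} {E : ℕ}

/-- The initial state. -/
def St.init (n : ℕ) : St n := ⟨univ, fun _ => n, id, fun _ => ∅, ∅⟩

theorem inv_init (H0 : Finset (Sym2 (Fin n))) (q : ℝ) (E : ℕ) : Inv H0 q E (St.init n) where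
  idem _ := rfl
  fresh _ _ := ⟨rfl, rfl, rfl⟩
  old x hx := absurd (mem_univ x) hx
  tminj x hx := absurd (mem_univ x) hx
  sub _ := empty_subset _
  edge _ _ _ h := absurd h (notMem_empty _)
  size r hr := absurd (mem_univ r) hr
  conn _ := .refl
  liveRoot _ h := absurd h (notMem_empty _)
  liveEnd _ h := absurd h (notMem_empty _)
  liveSmall _ h := absurd h (notMem_empty _)
  dead r hr := absurd (mem_univ r) hr

theorem Inv.ed_empty_of_not_root {st : St n} (hinv : Inv H0 q E st) {r : Fin n}
    (h : st.root r ≠ r) : st.ed r = ∅ := by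
  refine eq_empty_of_forall_notMem fun e he => ?_
  induction e using Sym2.ind with
  | _ x y =>
    rcases hinv.edge r x y he with ⟨h1, -⟩ | ⟨h1, -⟩
    · exact h (by rw [← h1, hinv.idem])
    · exact h (by rw [← h1, hinv.idem])

theorem Inv.root_not_mem_U {st : St n} (hinv : Inv H0 q E st) {x : Fin n} (hx : x ∉ st.U) :
    st.root x ∉ st.U := (hinv.old x hx).1

/-- The endpoint of a block edge that is peeled first lies in the block. -/
theorem Inv.owner {st : St n} (hinv : Inv H0 q E st) {r x y : Fin n} (h : s(x, y) ∈ st.ed r)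
    (hxy : st.tm x < st.tm y) : st.root x = r ∧ (st.root y = r ∨ st.tm r < st.tm y) := by
  rcases hinv.edge r x y h with h' | ⟨h1, h2⟩
  · exact h'
  · rcases h2 with h2 | h2
    · exact ⟨h2, Or.inl h1⟩
    · by_cases hyU : y ∈ st.U
      · have := (hinv.fresh y hyU).1.symm.trans h1
        rw [← this] at h
        rw [(hinv.fresh y hyU).2.1] at h
        exact absurd h (notMem_empty _)
      · have := (hinv.old y hyU).2.2
        rw [h1] at this
        omega

theorem Inv.ed_disjoint {st : St n} (hinv : Inv H0 q E st) {r r' : Fin n} (hr : r ∉ st.U)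
    (hne : r ≠ r') : Disjoint (st.ed r) (st.ed r') := by
  rw [Finset.disjoint_left]
  intro e h1 h2
  induction e using Sym2.ind with
  | _ x y =>
    rcases lt_trichotomy (st.tm x) (st.tm y) with h | h | h
    · exact hne ((hinv.owner h1 h).1.symm.trans (hinv.owner h2 h).1)
    · rcases hinv.edge r x y h1 with ⟨h3, -⟩ | ⟨h3, -⟩
      · have hxU : x ∉ st.U := fun h' => hr ((hinv.fresh x h').1.symm.trans h3 ▸ h')
        have hyU : y ∉ st.U := fun h' => by
          have := (hinv.old x hxU).2.1
          rw [(hinv.fresh y h').2.2] at h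
          omega
        obtain rfl := hinv.tminj x hxU y hyU h
        rcases hinv.edge r' x x h2 with ⟨h4, -⟩ | ⟨h4, -⟩ <;> exact hne (h3.symm.trans h4)
      · have hyU : y ∉ st.U := fun h' => hr ((hinv.fresh y h').1.symm.trans h3 ▸ h')
        have hxU : x ∉ st.U := fun h' => by
          have := (hinv.old y hyU).2.1
          rw [(hinv.fresh x h').2.2] at h
          omega
        obtain rfl := hinv.tminj x hxU y hyU h
        rcases hinv.edge r' x x h2 with ⟨h4, -⟩ | ⟨h4, -⟩ <;> exact hne (h3.symm.trans h4)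
    · rw [Sym2.eq_swap] at h1 h2
      exact hne ((hinv.owner h1 h).1.symm.trans (hinv.owner h2 h).1)

theorem card_supp_le (K : Finset (Sym2 (Fin n))) : (supp K).card ≤ 2 * K.card := by
  refine le_trans (card_le_card (t := K.biUnion fun e => e.toFinset) ?_) ?_
  · intro x hx
    obtain ⟨e, he, hxe⟩ := mem_supp.1 hx
    exact mem_biUnion.2 ⟨e, he, Sym2.mem_toFinset.2 hxe⟩
  · refine card_biUnion_le.trans (le_trans (Finset.sum_le_sum fun e _ => ?_)
      (le_of_eq (by rw [sum_const, smul_eq_mul, mul_comm])))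
    induction e using Sym2.ind with
    | _ a b => rw [Sym2.toFinset_mk_eq]; exact card_le_two

/-- The window hypothesis: no small pattern weight lies in `(n ^ (-η), 1)`. -/
def Gap (n : ℕ) (q : ℝ) (E : ℕ) (η : ℝ) : Prop :=
  ∀ e v : ℕ, 1 ≤ e → e < E → v ≤ e + 1 →
    (n : ℝ) ^ v * q ^ e ≤ (n : ℝ) ^ (-η) ∨ 1 ≤ (n : ℝ) ^ v * q ^ e

theorem inner_card_le (st : St n) (r : Fin n) : (st.inner r).card ≤ (st.ed r).card :=
  card_filter_le _ _

theorem live_wt_le {η : ℝ} (hgap : Gap n q E η) {st : St n}
    (hinv : Inv H0 q E st) {L : Fin n} (hL : L ∈ st.live) :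
    blockWt q st L ≤ (n : ℝ) ^ (-η) := by
  obtain ⟨hLU, hLL⟩ := hinv.liveRoot L hL
  obtain ⟨hE, hwt⟩ := hinv.liveSmall L hL
  have hsize := (hinv.size L hLU hLL).trans (Nat.add_le_add_right (inner_card_le st L) 1)
  rcases Nat.eq_zero_or_pos (st.ed L).card with h0 | h0
  · exfalso
    rw [blockWt, h0, pow_zero, mul_one] at hwt
    exact absurd hwt (not_lt.2 (one_le_pow₀ (by exact_mod_cast L.pos)))
  rcases hgap _ _ h0 hE hsize with h | h
  · exact h
  · rw [blockWt] at hwt
    linarith

theorem q_le {η : ℝ} (hE : 2 ≤ E) (hgap : Gap n q E η) (hq1 : q < 1) :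
    q ≤ (n : ℝ) ^ (-η) := by
  rcases hgap 1 0 le_rfl (by omega) (by omega) with h | h
  · simpa using h
  · simp only [pow_zero, one_mul, pow_one] at h
    linarith

/-- Some vertex has few open items. -/
theorem exists_sparse_vertex {η : ℝ} (hη : 0 < η) (hn : 2 ≤ n) (hE : 2 ≤ E)
    (hgap : Gap n q E η) (hq0 : 0 < q) (hq1 : q < 1) (hR : Rich q H0)
    {st : St n} (hinv : Inv H0 q E st) (hne : st.U.Nonempty) :
    ∃ r ∈ st.U, (((atRaw H0 st r).card + (atLive st r).card : ℕ) : ℝ) ≤ 4 * E / η := by
  classical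
  set K0 := H0.filter (· ∈ st.U.sym2) with hK0
  set K := K0 ∪ st.live.biUnion st.ed with hK
  have hdis : Disjoint K0 (st.live.biUnion st.ed) := by
    rw [Finset.disjoint_left]
    intro e h1 h2
    obtain ⟨L, hL, he⟩ := mem_biUnion.1 h2
    induction e using Sym2.ind with
    | _ x y =>
      obtain ⟨hx, hy⟩ := mk_mem_sym2_iff.1 (mem_filter.1 h1).2
      rcases hinv.edge L x y he with ⟨h, -⟩ | ⟨h, -⟩
      · exact (hinv.liveRoot L hL).1 ((hinv.fresh x hx).1.symm.trans h ▸ hx)
      · exact (hinv.liveRoot L hL).1 ((hinv.fresh y hy).1.symm.trans h ▸ hy)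
  have hcard : K.card = K0.card + ∑ L ∈ st.live, (st.ed L).card := by
    rw [hK, card_union_of_disjoint hdis, card_biUnion fun L hL L' _ hne =>
      hinv.ed_disjoint (hinv.liveRoot L hL).1 hne]
  have hKH : K ⊆ H0 :=
    union_subset (filter_subset _ _) (biUnion_subset.2 fun L _ => hinv.sub L)
  have hsupp : (supp K).card ≤ st.U.card + ∑ L ∈ st.live, (st.verts L).card := by
    refine le_trans (card_le_card (t := st.U ∪ st.live.biUnion st.verts) ?_)
      ((card_union_le _ _).trans (Nat.add_le_add_left card_biUnion_le _))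
    intro z hz
    obtain ⟨e, he, hze⟩ := mem_supp.1 hz
    rcases mem_union.1 he with h | h
    · exact mem_union_left _ (mem_sym2_iff.1 (mem_filter.1 h).2 z hze)
    · obtain ⟨L, hL, heL⟩ := mem_biUnion.1 h
      rcases hinv.liveEnd L hL z (mem_supp.2 ⟨e, heL, hze⟩) with h' | h'
      · exact mem_union_right _ (mem_biUnion.2 ⟨L, hL, St.mem_verts.2 h'⟩)
      · exact mem_union_left _ h'
  have hn0 : (0 : ℝ) < n := by exact_mod_cast (by omega : 0 < n)
  have hn1 : (1 : ℝ) ≤ n := by exact_mod_cast (by omega : 1 ≤ n)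
  set x := (n : ℝ) ^ (-η) with hx
  have hx0 : 0 ≤ x := Real.rpow_nonneg hn0.le _
  have h1 : (1 : ℝ) / 2 ≤ (n : ℝ) ^ st.U.card * x ^ (K0.card + st.live.card) := by
    refine (hR K hKH).trans ?_
    calc ((orb (pairAct n) K).card : ℝ) * q ^ K.card
        ≤ (n : ℝ) ^ (st.U.card + ∑ L ∈ st.live, (st.verts L).card) * q ^ K.card := by
          refine mul_le_mul_of_nonneg_right ?_ (by positivity)
          exact_mod_cast (orb_card_le_supp K).trans
            (Nat.pow_le_pow_right (by omega) hsupp)
      _ = (n : ℝ) ^ st.U.card * (q ^ K0.card * ∏ L ∈ st.live, blockWt q st L) := by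
          simp only [blockWt, Finset.prod_mul_distrib]
          rw [Finset.prod_pow_eq_pow_sum, Finset.prod_pow_eq_pow_sum, hcard, pow_add, pow_add]
          ring
      _ ≤ _ := by
          refine mul_le_mul_of_nonneg_left ?_ (by positivity)
          rw [pow_add, ← prod_const x (s := st.live)]
          exact mul_le_mul (pow_le_pow_left₀ hq0.le (q_le hE hgap hq1) _)
            (Finset.prod_le_prod (fun L _ => by rw [blockWt]; positivity)
              fun L hL => live_wt_le hgap hinv hL)
            (Finset.prod_nonneg fun L _ => by rw [blockWt]; positivity) (pow_nonneg hx0 _)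
  have hcount : η * ((K0.card + st.live.card : ℕ) : ℝ) ≤ 2 * st.U.card := by
    by_contra hcon
    rw [not_le] at hcon
    have hU1 : (1 : ℝ) ≤ st.U.card := by exact_mod_cast hne.card_pos
    have h2 : (n : ℝ) ^ st.U.card * x ^ (K0.card + st.live.card) < (n : ℝ) ^ (-1 : ℝ) := by
      rw [hx, ← Real.rpow_natCast ((n : ℝ) ^ (-η)), ← Real.rpow_mul hn0.le, ← Real.rpow_natCast,
        ← Real.rpow_add hn0]
      exact Real.rpow_lt_rpow_of_exponent_lt (by exact_mod_cast (by omega : 1 < n)) (by linarith)
    rw [Real.rpow_neg_one] at h2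
    have : (n : ℝ)⁻¹ ≤ 1 / 2 := by
      rw [one_div]; exact inv_anti₀ two_pos (by exact_mod_cast hn)
    linarith
  -- double counting
  have hbip : ∀ (T : Finset (Finset (Fin n))), ∑ r ∈ st.U, (T.filter (r ∈ ·)).card =
      ∑ B ∈ T, (st.U.filter (· ∈ B)).card := fun T => by
    simp only [card_filter]; rw [Finset.sum_comm]
  have hsum : ∑ r ∈ st.U, ((atRaw H0 st r).card + (atLive st r).card) ≤
      2 * E * (K0.card + st.live.card) := by
    rw [Finset.sum_add_distrib, mul_add]
    refine add_le_add ?_ ?_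
    · calc ∑ r ∈ st.U, (atRaw H0 st r).card ≤ ∑ r ∈ st.U, (K0.filter (r ∈ ·)).card := by
            refine Finset.sum_le_sum fun r hr => card_le_card_of_injOn (fun y => s(r, y)) ?_ ?_
            · intro y hy
              obtain ⟨h3, h4⟩ := mem_filter.1 (mem_coe.1 hy)
              exact mem_coe.2 (mem_filter.2 ⟨mem_filter.2 ⟨h4, mk_mem_sym2_iff.2 ⟨hr, h3⟩⟩,
                Sym2.mem_mk_left r y⟩)
            · exact fun y _ y' _ h => Sym2.congr_right.1 h
        _ = ∑ e ∈ K0, (st.U.filter (· ∈ e)).card := by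
            simp only [card_filter]; rw [Finset.sum_comm]
        _ ≤ ∑ _e ∈ K0, 2 := by
            refine Finset.sum_le_sum fun e _ => ?_
            induction e using Sym2.ind with
            | _ a b =>
              refine (card_le_card (t := {a, b}) fun z hz => ?_).trans card_le_two
              simpa using (mem_filter.1 hz).2
        _ ≤ 2 * E * K0.card := by
            rw [sum_const, smul_eq_mul, mul_comm]; exact Nat.mul_le_mul_right _ (by omega)
    · calc ∑ r ∈ st.U, (atLive st r).card
          = ∑ L ∈ st.live, (st.U.filter (· ∈ supp (st.ed L))).card := by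
            simp only [atLive, card_filter]; rw [Finset.sum_comm]
        _ ≤ ∑ _L ∈ st.live, 2 * E := by
            refine Finset.sum_le_sum fun L hL => ?_
            refine ((card_le_card fun z hz => (mem_filter.1 hz).2).trans (card_supp_le _)).trans ?_
            have := (hinv.liveSmall L hL).1
            omega
        _ = 2 * E * st.live.card := by rw [sum_const, smul_eq_mul, mul_comm]
  obtain ⟨r, hr, hmin⟩ := Finset.exists_min_image st.U
    (fun r => (atRaw H0 st r).card + (atLive st r).card) hne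
  refine ⟨r, hr, ?_⟩
  have h3 : st.U.card * ((atRaw H0 st r).card + (atLive st r).card) ≤
      2 * E * (K0.card + st.live.card) := by
    refine le_trans ?_ hsum
    rw [← smul_eq_mul, ← sum_const]
    exact Finset.sum_le_sum hmin
  have h4 : (st.U.card : ℝ) * (((atRaw H0 st r).card + (atLive st r).card : ℕ) : ℝ) ≤
      2 * E * ((K0.card + st.live.card : ℕ) : ℝ) := by exact_mod_cast h3
  have hU0 : (0 : ℝ) < st.U.card := by exact_mod_cast hne.card_pos
  rw [le_div_iff₀ hη]
  refine le_of_mul_le_mul_left ?_ hU0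
  calc (st.U.card : ℝ) * ((((atRaw H0 st r).card + (atLive st r).card : ℕ) : ℝ) * η)
      = η * ((st.U.card : ℝ) * (((atRaw H0 st r).card + (atLive st r).card : ℕ) : ℝ)) := by ring
    _ ≤ η * (2 * E * ((K0.card + st.live.card : ℕ) : ℝ)) := mul_le_mul_of_nonneg_left h4 hη.le
    _ = 2 * E * (η * ((K0.card + st.live.card : ℕ) : ℝ)) := by ring
    _ ≤ 2 * E * (2 * st.U.card) := mul_le_mul_of_nonneg_left hcount (by positivity)
    _ = _ := by ring

/-- An embedding that agrees with the blocks formed so far. -/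
def Compat (st : St n) (F : Finset (Sym2 (Fin w))) (φ : Fin w ↪ Fin n) : Prop :=
  (∀ e ∈ F.image (Sym2.map φ), e ∈ st.U.sym2 ∨ ∃ r, e ∈ st.ed r) ∧
    ∀ x ∈ univ.map φ, st.ed (st.root x) ⊆ F.image (Sym2.map φ) ∧ st.verts (st.root x) ⊆ univ.map φ

/-- The number of items an embedding still has to pick. -/
def pend (st : St n) (F : Finset (Sym2 (Fin w))) (φ : Fin w ↪ Fin n) : ℕ :=
  2 * (univ.map φ ∩ st.U).card + ((F.image (Sym2.map φ)).filter (· ∈ st.U.sym2)).card +
    (st.live ∩ univ.map φ).card

/-- The compatible embeddings. -/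
noncomputable def compatible (H0 : Finset (Sym2 (Fin n))) (st : St n) (F : Finset (Sym2 (Fin w))) :
    Finset (Fin w ↪ Fin n) := by
  classical exact (embs H0 F).filter (Compat st F)

theorem mem_compatible {st : St n} {F : Finset (Sym2 (Fin w))} {φ : Fin w ↪ Fin n} :
    φ ∈ compatible H0 st F ↔ φ ∈ embs H0 F ∧ Compat st F φ := by
  simp [compatible]

theorem supp_subset_range {F : Finset (Sym2 (Fin w))} (φ : Fin w ↪ Fin n)
    {K : Finset (Sym2 (Fin n))} (hK : K ⊆ F.image (Sym2.map φ)) : supp K ⊆ univ.map φ := by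
  intro z hz
  obtain ⟨e, he, hze⟩ := mem_supp.1 hz
  obtain ⟨e', -, rfl⟩ := mem_image.1 (hK he)
  obtain ⟨a, -, rfl⟩ := Sym2.mem_map.1 hze
  exact mem_map_of_mem _ (mem_univ a)

theorem compat_absent {st : St n} (hinv : Inv H0 q E st) {r : Fin n} (hr : r ∈ st.U)
    {S : Finset (Fin n) × Finset (Fin n)} (hS2 : S.2 ⊆ atLive st r)
    {F : Finset (Sym2 (Fin w))} {φ : Fin w ↪ Fin n} (hφ : Compat st F φ)
    (hout : r ∉ univ.map φ) :
    Compat (step q E st r S) F φ ∧ pend (step q E st r S) F φ ≤ pend st F φ := by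
  have hnl : ∀ x ∈ univ.map φ, x ≠ r ∧ st.root x ∉ atLive st r := fun x hx =>
    ⟨fun e => hout (e ▸ hx), fun h => hout
      (supp_subset_range φ (hφ.2 x hx).1 (mem_filter.1 h).2)⟩
  have hroot : ∀ x ∈ univ.map φ, st.root x ≠ r := fun x hx e => hout
    (e ▸ (hφ.2 x hx).2 (St.mem_verts.2 (hinv.idem x)))
  refine ⟨⟨fun e he => ?_, fun x hx => ?_⟩, ?_⟩
  · have hre : r ∉ e := fun h => hout (supp_subset_range φ subset_rfl (mem_supp.2 ⟨e, he, h⟩))
    rcases hφ.1 e he with h | ⟨a, ha⟩
    · left
      rw [step_U, mem_sym2_iff]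
      exact fun z hz => mem_erase.2 ⟨fun e' => hre (e' ▸ hz), mem_sym2_iff.1 h z hz⟩
    · right
      have har : a ≠ r := fun e' => by
        rw [e', (hinv.fresh r hr).2.1] at ha; exact absurd ha (notMem_empty _)
      refine ⟨a, ?_⟩
      rw [step_ed_keep har ?_]
      · exact ha
      · intro h
        induction e using Sym2.ind with
        | _ x y =>
          have hx : x ∈ univ.map φ :=
            supp_subset_range φ subset_rfl (mem_supp.2 ⟨_, he, Sym2.mem_mk_left x y⟩)
          have hy : y ∈ univ.map φ :=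
            supp_subset_range φ subset_rfl (mem_supp.2 ⟨_, he, Sym2.mem_mk_right x y⟩)
          rcases hinv.edge a x y ha with ⟨h1, -⟩ | ⟨h1, -⟩
          · exact (hnl x hx).2 (by rwa [← h1, hinv.idem] at h)
          · exact (hnl y hy).2 (by rwa [← h1, hinv.idem] at h)
  · obtain ⟨hxr, hxl⟩ := hnl x hx
    rw [step_root_keep hxr hS2 hxl, step_ed_keep (hroot x hx) (by rwa [hinv.idem])]
    refine ⟨(hφ.2 x hx).1, fun y hy => ?_⟩
    rw [St.mem_verts] at hy
    rcases eq_or_ne y r with hyr | hyr
    · rw [hyr, step_root_self] at hy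
      exact absurd hy.symm (hroot x hx)
    by_cases h : st.root y ∈ S.2
    · rw [step_root_sel h] at hy
      exact absurd hy.symm (hroot x hx)
    by_cases h' : st.root y ∈ atLive st r
    · rw [step_root_drop hyr h h'] at hy
      rw [hy, hinv.idem] at h'
      exact absurd h' hxl
    · rw [step_root_keep hyr hS2 h'] at hy
      exact (hφ.2 x hx).2 (St.mem_verts.2 hy)
  · refine add_le_add (add_le_add (Nat.mul_le_mul_left 2 (card_le_card ?_)) (card_le_card ?_))
      (card_le_card ?_)
    · exact inter_subset_inter subset_rfl (by rw [step_U]; exact erase_subset _ _)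
    · exact monotone_filter_right _ fun e _ h => sym2_mono (erase_subset r st.U) h
    · intro L hL
      obtain ⟨h1, h2⟩ := mem_inter.1 hL
      rcases mem_step_live.1 h1 with ⟨h, -⟩ | ⟨rfl, -⟩
      · exact mem_inter.2 ⟨h, h2⟩
      · exact absurd h2 hout

theorem compat_present {st : St n} (hinv : Inv H0 q E st) {r : Fin n} (hr : r ∈ st.U)
    {F : Finset (Sym2 (Fin w))} {φ : Fin w ↪ Fin n}
    (hφ' : φ ∈ embs H0 F) (hφ : Compat st F φ) (hin : r ∈ univ.map φ)
    {S : Finset (Fin n) × Finset (Fin n)}
    (hSdef : S = ((atRaw H0 st r).filter fun y => s(r, y) ∈ F.image (Sym2.map φ),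
      (atLive st r).filter fun L => L ∈ univ.map φ)) :
    Compat (step q E st r S) F φ ∧
      pend (step q E st r S) F φ + 1 + S.1.card + S.2.card ≤ pend st F φ := by
  have hIH : F.image (Sym2.map φ) ⊆ H0 := image_subset_iff.2 (mem_filter.1 hφ').2
  have hS1 : S.1 ⊆ atRaw H0 st r := by rw [hSdef]; exact filter_subset _ _
  have hS2 : S.2 ⊆ atLive st r := by rw [hSdef]; exact filter_subset _ _
  have hsel : ∀ x ∈ univ.map φ, st.root x ∈ atLive st r → st.root x ∈ S.2 := fun x hx h => by
    rw [hSdef]
    exact mem_filter.2 ⟨h, (hφ.2 x hx).2 (St.mem_verts.2 (hinv.idem x))⟩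
  have hmemS2 : ∀ L ∈ S.2, st.root L = L ∧ L ∈ univ.map φ := fun L hL => by
    rw [hSdef] at hL
    exact ⟨(hinv.liveRoot L (mem_filter.1 (mem_filter.1 hL).1).1).2, (mem_filter.1 hL).2⟩
  have hne : ∀ x, x ≠ r → st.root x ≠ r := by
    intro x hx e
    by_cases hxU : x ∈ st.U
    · exact hx ((hinv.fresh x hxU).1.symm.trans e)
    · exact (hinv.old x hxU).1 (e ▸ hr)
  refine ⟨⟨fun e he => ?_, fun x hx => ?_⟩, ?_⟩
  · induction e using Sym2.ind with
    | _ a b =>
      have ha : a ∈ univ.map φ :=
        supp_subset_range φ subset_rfl (mem_supp.2 ⟨_, he, Sym2.mem_mk_left a b⟩)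
      have hb : b ∈ univ.map φ :=
        supp_subset_range φ subset_rfl (mem_supp.2 ⟨_, he, Sym2.mem_mk_right a b⟩)
      rcases hφ.1 _ he with h | ⟨c, hc⟩
      · obtain ⟨haU, hbU⟩ := mk_mem_sym2_iff.1 h
        rcases eq_or_ne a r with har | har
        · refine Or.inr ⟨r, ?_⟩
          rw [step_ed_self, hSdef]
          refine mem_union_left _ (mem_image.2 ⟨b, mem_filter.2 ⟨mem_filter.2 ⟨hbU, ?_⟩, ?_⟩, by
            rw [har]⟩) <;> rw [← har]
          · exact hIH he
          · exact he
        rcases eq_or_ne b r with hbr | hbr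
        · refine Or.inr ⟨r, ?_⟩
          rw [step_ed_self, hSdef]
          refine mem_union_left _ (mem_image.2 ⟨a, mem_filter.2 ⟨mem_filter.2 ⟨haU, ?_⟩, ?_⟩, by
            rw [← hbr, Sym2.eq_swap]⟩) <;> rw [← hbr, Sym2.eq_swap]
          · exact hIH he
          · exact he
        exact Or.inl (by rw [step_U]; exact mk_mem_sym2_iff.2 ⟨mem_erase.2 ⟨har, haU⟩,
          mem_erase.2 ⟨hbr, hbU⟩⟩)
      · have hcr : c ≠ r := fun e' => by
          rw [e', (hinv.fresh r hr).2.1] at hc; exact absurd hc (notMem_empty _)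
        by_cases hcl : st.root c ∈ atLive st r
        · have hcc : st.root c = c := by
            rcases hinv.edge c a b hc with ⟨h, -⟩ | ⟨h, -⟩ <;> rw [← h, hinv.idem]
          rw [hcc] at hcl
          refine Or.inr ⟨r, ?_⟩
          rw [step_ed_self]
          refine mem_union_right _ (mem_biUnion.2 ⟨c, ?_, hc⟩)
          rcases hinv.edge c a b hc with ⟨h, -⟩ | ⟨h, -⟩
          · exact h ▸ hsel a ha (h ▸ hcl)
          · exact h ▸ hsel b hb (h ▸ hcl)
        · exact Or.inr ⟨c, by rw [step_ed_keep hcr hcl]; exact hc⟩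
  · by_cases hx' : x = r ∨ st.root x ∈ atLive st r
    · have hroot : (step q E st r S).root x = r := by
        rcases hx' with h | h
        · rw [h, step_root_self]
        · exact step_root_sel (hsel x hx h)
      rw [hroot, step_ed_self]
      refine ⟨union_subset (image_subset_iff.2 fun y hy => ?_) (biUnion_subset.2 fun L hL => ?_),
        fun y hy => ?_⟩
      · rw [hSdef] at hy; exact (mem_filter.1 hy).2
      · have := (hφ.2 L (hmemS2 L hL).2).1
        rwa [(hmemS2 L hL).1] at this
      · rw [St.mem_verts] at hy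
        rcases eq_or_ne y r with hyr | hyr
        · rw [hyr]; exact hin
        by_cases h : st.root y ∈ S.2
        · exact (hφ.2 _ (hmemS2 _ h).2).2 (St.mem_verts.2 (hinv.idem y).symm)
        by_cases h' : st.root y ∈ atLive st r
        · rw [step_root_drop hyr h h'] at hy; exact absurd hy hyr
        · rw [step_root_keep hyr hS2 h'] at hy; exact absurd hy (hne y hyr)
    · push Not at hx'
      obtain ⟨hxr, hxl⟩ := hx'
      rw [step_root_keep hxr hS2 hxl, step_ed_keep (hne x hxr) (by rwa [hinv.idem])]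
      refine ⟨(hφ.2 x hx).1, fun y hy => ?_⟩
      rw [St.mem_verts] at hy
      rcases eq_or_ne y r with hyr | hyr
      · rw [hyr]; exact hin
      by_cases h : st.root y ∈ S.2
      · rw [step_root_sel h] at hy; exact absurd hy.symm (hne x hxr)
      by_cases h' : st.root y ∈ atLive st r
      · rw [step_root_drop hyr h h'] at hy
        rw [hy, hinv.idem] at h'
        exact absurd h' hxl
      · rw [step_root_keep hyr hS2 h'] at hy
        exact (hφ.2 x hx).2 (St.mem_verts.2 hy)
  · have h1 : (univ.map φ ∩ (step q E st r S).U).card + 1 = (univ.map φ ∩ st.U).card := by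
      rw [step_U, inter_erase, card_erase_add_one (mem_inter.2 ⟨hin, hr⟩)]
    have h2 : ((F.image (Sym2.map φ)).filter (· ∈ (step q E st r S).U.sym2)).card + S.1.card ≤
        ((F.image (Sym2.map φ)).filter (· ∈ st.U.sym2)).card := by
      rw [← card_image_of_injective S.1 (fun a b h => Sym2.congr_right.1 h : Function.Injective
        fun y => s(r, y)), ← card_union_of_disjoint]
      · refine card_le_card (union_subset (monotone_filter_right _ fun e _ h =>
          sym2_mono (erase_subset r st.U) h) (image_subset_iff.2 fun y hy => ?_))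
        rw [hSdef] at hy
        obtain ⟨h3, h4⟩ := mem_filter.1 hy
        exact mem_filter.2 ⟨h4, mk_mem_sym2_iff.2 ⟨hr, (mem_filter.1 h3).1⟩⟩
      · rw [Finset.disjoint_left]
        intro e he he'
        obtain ⟨y, -, rfl⟩ := mem_image.1 he'
        exact (mem_erase.1 (mk_mem_sym2_iff.1 (mem_filter.1 he).2).1).1 rfl
    have h3 : ((step q E st r S).live ∩ univ.map φ).card + S.2.card ≤
        (st.live ∩ univ.map φ).card + 1 := by
      rw [← card_union_of_disjoint]
      · refine (card_le_card (t := insert r (st.live ∩ univ.map φ)) ?_).trans (card_insert_le _ _)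
        intro L hL
        rcases mem_union.1 hL with h | h
        · obtain ⟨h4, h5⟩ := mem_inter.1 h
          rcases mem_step_live.1 h4 with ⟨h6, -⟩ | ⟨rfl, -⟩
          · exact mem_insert_of_mem (mem_inter.2 ⟨h6, h5⟩)
          · exact mem_insert_self _ _
        · exact mem_insert_of_mem (mem_inter.2 ⟨(mem_filter.1 (hS2 h)).1, (hmemS2 L h).2⟩)
      · rw [Finset.disjoint_left]
        intro L hL hL'
        rcases mem_step_live.1 (mem_inter.1 hL).1 with ⟨-, h6⟩ | ⟨rfl, -⟩
        · exact h6 (hS2 hL')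
        · exact (hinv.liveRoot L (mem_filter.1 (hS2 hL')).1).1 hr
    simp only [pend]
    omega

theorem one_sub_pow_ge {D : ℕ} {κ : ℝ} (hκ : κ = 1 / ((D : ℝ) + 1)) {m : ℕ} (hm : m ≤ D) :
    (1 : ℝ) / 4 ≤ (1 - κ) ^ m := by
  have h0 : 0 ≤ 1 - κ := by
    rw [hκ, sub_nonneg, div_le_one (by positivity)]; linarith [Nat.cast_nonneg (α := ℝ) D]
  have h1 : 1 - κ ≤ 1 := by rw [hκ]; simp; positivity
  refine le_trans ?_ (pow_le_pow_of_le_one h0 h1 hm)
  rcases Nat.eq_zero_or_pos D with hD | hD
  · rw [hD, pow_zero]; norm_num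
  have hD' : (0 : ℝ) < D := by exact_mod_cast hD
  have he : (1 + 1 / (D : ℝ)) ^ D ≤ 4 := by
    refine (pow_le_pow_left₀ (by positivity) (by linarith [Real.add_one_le_exp (1 / (D : ℝ))] :
      1 + 1 / (D : ℝ) ≤ Real.exp (1 / D)) D).trans ?_
    rw [← Real.exp_nat_mul, mul_one_div, div_self hD'.ne']
    linarith [Real.exp_one_lt_d9]
  have heq : (1 - κ) = (1 + 1 / (D : ℝ))⁻¹ := by rw [hκ]; field_simp; ring
  rw [heq, inv_pow, one_div]
  exact inv_anti₀ (by positivity) he

/-- The greedy peeling keeps the weighted count. -/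
theorem exists_final {η : ℝ} (hη : 0 < η) (hn : 2 ≤ n) (hE : 2 ≤ E)
    (hgap : Gap n q E η) (hsmall : (n : ℝ) ^ (-η) < 1 / 2) (hq0 : 0 < q) (hq1 : q < 1)
    (hR : Rich q H0) (hloop : ∀ e ∈ H0, ¬ e.IsDiag) (F : Finset (Sym2 (Fin w))) {D : ℕ}
    (hD : 4 * E / η ≤ (D : ℝ)) {κ : ℝ} (hκ : κ = 1 / ((D : ℝ) + 1)) :
    ∀ (m : ℕ) (st : St n), st.U.card = m → Inv H0 q E st →
      ∃ fin : St n, Inv H0 q E fin ∧ fin.U = ∅ ∧ fin.live = ∅ ∧
        ∑ φ ∈ compatible H0 st F, (κ / 4) ^ pend st F φ ≤ (compatible H0 fin F).card := by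
  classical
  have hκ0 : 0 < κ := by rw [hκ]; positivity
  have hκ1 : κ ≤ 1 := by
    rw [hκ, div_le_one (by positivity)]; linarith [Nat.cast_nonneg (α := ℝ) D]
  have hκ4 : κ / 4 ≤ 1 := by linarith
  intro m
  induction m with
  | zero =>
    intro st hU hinv
    have hU' : st.U = ∅ := card_eq_zero.1 hU
    refine ⟨st, hinv, hU', eq_empty_of_forall_notMem fun L hL => ?_, ?_⟩
    · have h1 := hR (st.ed L) (hinv.sub L)
      have h2 : ((orb (pairAct n) (st.ed L)).card : ℝ) ≤ (n : ℝ) ^ (st.verts L).card := by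
        refine le_trans (Nat.cast_le.2 (orb_card_le_supp _)) ?_
        push_cast
        refine pow_le_pow_right₀ (by exact_mod_cast (by omega : 1 ≤ n)) (card_le_card fun z hz => ?_)
        rcases hinv.liveEnd L hL z hz with h | h
        · exact St.mem_verts.2 h
        · rw [hU'] at h; exact absurd h (notMem_empty _)
      have h3 := live_wt_le hgap hinv hL
      rw [blockWt] at h3
      have h4 := mul_le_mul_of_nonneg_right h2 (pow_nonneg hq0.le (st.ed L).card)
      linarith
    · refine (Finset.sum_le_sum fun φ _ => pow_le_one₀ (by positivity) hκ4).trans ?_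
      simp
  | succ m ih =>
    intro st hU hinv
    obtain ⟨r, hr, hdeg⟩ := exists_sparse_vertex hη hn hE hgap hq0 hq1 hR hinv
      (card_pos.1 (by omega))
    have hdegD : (atRaw H0 st r).card + (atLive st r).card ≤ D := by
      exact_mod_cast hdeg.trans hD
    set I1 := atRaw H0 st r with hI1
    set I2 := atLive st r with hI2
    set P := I1.powerset ×ˢ I2.powerset with hP
    set wgt : Finset (Fin n) × Finset (Fin n) → ℝ := fun S =>
      (κ ^ S.1.card * (1 - κ) ^ (I1.card - S.1.card)) *
        (κ ^ S.2.card * (1 - κ) ^ (I2.card - S.2.card)) with hwgt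
    have hw0 : ∀ S, 0 ≤ wgt S := fun S => by
      have : 0 ≤ 1 - κ := by linarith
      rw [hwgt]; positivity
    have hwsum : ∑ S ∈ P, wgt S = 1 := by
      rw [hP, Finset.sum_product]
      simp only [hwgt, ← Finset.mul_sum, ← Finset.sum_mul, Finset.sum_pow_mul_eq_add_pow]
      simp
    set G : Finset (Fin n) × Finset (Fin n) → ℝ := fun S =>
      ∑ φ ∈ compatible H0 (step q E st r S) F, (κ / 4) ^ pend (step q E st r S) F φ with hG
    obtain ⟨S₀, hS₀, hmax⟩ := Finset.exists_max_image P G
      ⟨(∅, ∅), mem_product.2 ⟨empty_mem_powerset _, empty_mem_powerset _⟩⟩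
    have hkey : ∑ φ ∈ compatible H0 st F, (κ / 4) ^ pend st F φ ≤ G S₀ := by
      calc ∑ φ ∈ compatible H0 st F, (κ / 4) ^ pend st F φ
          ≤ ∑ φ ∈ compatible H0 st F, ∑ S ∈ P, wgt S *
              (if Compat (step q E st r S) F φ then (κ / 4) ^ pend (step q E st r S) F φ else 0) := by
            refine Finset.sum_le_sum fun φ hφ => ?_
            obtain ⟨hφe, hφc⟩ := mem_compatible.1 hφ
            by_cases hin : r ∈ univ.map φ
            · set S : Finset (Fin n) × Finset (Fin n) :=
                (I1.filter fun y => s(r, y) ∈ F.image (Sym2.map φ),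
                  I2.filter fun L => L ∈ univ.map φ) with hSdef
              obtain ⟨hc, hp⟩ := compat_present (q := q) (E := E) hinv hr hφe hφc hin hSdef
              have hSP : S ∈ P := mem_product.2 ⟨mem_powerset.2 (filter_subset _ _),
                mem_powerset.2 (filter_subset _ _)⟩
              refine le_trans ?_ (Finset.single_le_sum (f := fun S => wgt S *
                (if Compat (step q E st r S) F φ then (κ / 4) ^ pend (step q E st r S) F φ else 0))
                (fun S _ => mul_nonneg (hw0 S) (by split_ifs <;> positivity)) hSP)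
              rw [if_pos hc]
              refine (pow_le_pow_of_le_one (by positivity) hκ4 hp).trans ?_
              rw [pow_add, pow_add, pow_add, mul_comm (wgt S), mul_assoc, mul_assoc]
              refine mul_le_mul_of_nonneg_left ?_ (by positivity)
              rw [hwgt]
              dsimp only
              calc (κ / 4) ^ 1 * ((κ / 4) ^ S.1.card * (κ / 4) ^ S.2.card)
                  ≤ (1 / 4) * (κ ^ S.1.card * κ ^ S.2.card) := by
                    refine mul_le_mul (by rw [pow_one]; linarith) (mul_le_mul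
                      (pow_le_pow_left₀ (by positivity) (by linarith) _)
                      (pow_le_pow_left₀ (by positivity) (by linarith) _) (by positivity)
                      (by positivity)) (by positivity) (by norm_num)
                _ ≤ ((1 - κ) ^ ((I1.card - S.1.card) + (I2.card - S.2.card))) *
                      (κ ^ S.1.card * κ ^ S.2.card) :=
                    mul_le_mul_of_nonneg_right (one_sub_pow_ge hκ (by omega)) (by positivity)
                _ = _ := by rw [pow_add]; ring
            · calc (κ / 4) ^ pend st F φ = ∑ S ∈ P, wgt S * (κ / 4) ^ pend st F φ := by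
                    rw [← Finset.sum_mul, hwsum, one_mul]
                _ ≤ _ := by
                    refine Finset.sum_le_sum fun S hS => mul_le_mul_of_nonneg_left ?_ (hw0 S)
                    obtain ⟨hc, hp⟩ := compat_absent hinv hr
                      (mem_powerset.1 (mem_product.1 hS).2) hφc hin
                    rw [if_pos hc]
                    exact pow_le_pow_of_le_one (by positivity) hκ4 hp
        _ = ∑ S ∈ P, wgt S * ∑ φ ∈ compatible H0 st F,
              (if Compat (step q E st r S) F φ then (κ / 4) ^ pend (step q E st r S) F φ else 0) := by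
            rw [Finset.sum_comm]; simp only [Finset.mul_sum]
        _ ≤ ∑ S ∈ P, wgt S * G S₀ := by
            refine Finset.sum_le_sum fun S hS => mul_le_mul_of_nonneg_left ?_ (hw0 S)
            refine le_trans ?_ (hmax S hS)
            rw [← Finset.sum_filter]
            refine Finset.sum_le_sum_of_subset_of_nonneg (fun φ hφ => ?_) fun _ _ _ => by positivity
            obtain ⟨h1, h2⟩ := mem_filter.1 hφ
            exact mem_compatible.2 ⟨(mem_compatible.1 h1).1, h2⟩
        _ = G S₀ := by rw [← Finset.sum_mul, hwsum, one_mul]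
    obtain ⟨hS1, hS2⟩ := mem_product.1 hS₀
    obtain ⟨fin, h1, h2, h3, h4⟩ := ih (step q E st r S₀)
      (by rw [step_U, card_erase_of_mem hr]; omega)
      (inv_step hinv hr hloop (mem_powerset.1 hS1) (mem_powerset.1 hS2))
    exact ⟨fin, h1, h2, h3, hkey.trans h4⟩

/-- A final state with many compatible embeddings. -/
theorem exists_blocks {η : ℝ} (hη : 0 < η) (hn : 2 ≤ n) (hE : 2 ≤ E)
    (hgap : Gap n q E η) (hsmall : (n : ℝ) ^ (-η) < 1 / 2) (hq0 : 0 < q) (hq1 : q < 1)
    (hR : Rich q H0) (hloop : ∀ e ∈ H0, ¬ e.IsDiag) (F : Finset (Sym2 (Fin w))) :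
    ∃ fin : St n, Inv H0 q E fin ∧ fin.U = ∅ ∧ fin.live = ∅ ∧
      ((embs H0 F).card : ℝ) ≤
        (4 * (4 * E / η + 2)) ^ (2 * w + F.card) * (compatible H0 fin F).card := by
  classical
  set D := ⌈4 * (E : ℝ) / η⌉₊ with hD
  set κ : ℝ := 1 / ((D : ℝ) + 1) with hκ
  obtain ⟨fin, h1, h2, h3, h4⟩ := exists_final hη hn hE hgap hsmall hq0 hq1 hR hloop F
    (Nat.le_ceil _) hκ _ (St.init n) rfl (inv_init H0 q E)
  refine ⟨fin, h1, h2, h3, ?_⟩
  have hκ0 : 0 < κ := by positivity
  have hκ4 : κ / 4 ≤ 1 := by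
    have : κ ≤ 1 := by
      rw [hκ, div_le_one (by positivity)]; linarith [Nat.cast_nonneg (α := ℝ) D]
    linarith
  have hall : compatible H0 (St.init n) F = embs H0 F := by
    ext φ
    refine ⟨fun h => (mem_compatible.1 h).1, fun h => mem_compatible.2 ⟨h, fun e _ => Or.inl ?_,
      fun x hx => ⟨empty_subset _, ?_⟩⟩⟩
    · exact mem_sym2_iff.2 fun z _ => mem_univ z
    · intro y hy
      rw [St.mem_verts] at hy
      exact (show y = x from hy) ▸ hx
  have hpend : ∀ φ, pend (St.init n) F φ ≤ 2 * w + F.card := fun φ => by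
    simp only [pend, St.init, inter_univ, empty_inter, card_empty, add_zero, card_map, card_univ,
      Fintype.card_fin]
    exact Nat.add_le_add_left ((card_filter_le _ _).trans card_image_le) _
  have h5 : ((embs H0 F).card : ℝ) * (κ / 4) ^ (2 * w + F.card) ≤ (compatible H0 fin F).card := by
    refine le_trans ?_ h4
    rw [hall, ← nsmul_eq_mul, ← sum_const]
    exact Finset.sum_le_sum fun φ _ => pow_le_pow_of_le_one (by positivity) hκ4 (hpend φ)
  have h6 : 4 / κ ≤ 4 * (4 * E / η + 2) := by
    rw [hκ, div_div_eq_mul_div, div_one]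
    have h7 := Nat.ceil_lt_add_one (show (0 : ℝ) ≤ 4 * E / η by positivity)
    rw [← hD] at h7
    linarith
  calc ((embs H0 F).card : ℝ) = (4 / κ) ^ (2 * w + F.card) *
        (((embs H0 F).card : ℝ) * (κ / 4) ^ (2 * w + F.card)) := by
        rw [mul_left_comm, ← mul_pow, div_mul_div_comm, mul_comm 4 κ, div_self (by positivity),
          one_pow, mul_one]
    _ ≤ _ := mul_le_mul (pow_le_pow_left₀ (by positivity) h6 _) h5 (by positivity) (by positivity)

end Vale.Agent.P064.Blk
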