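import Mathlib.Data.Finset.Powerset
import Mathlib.Data.Real.Basic
import Mathlib.Algebra.BigOperators.Ring.Finset
import Mathlib.Algebra.Order.BigOperators.Group.Finset
import Mathlib.Algebra.Order.BigOperators.Ring.Finset
import Mathlib.GroupTheory.Perm.Basic
import Mathlib.Tactic.Linarith
import Mathlib.Tactic.Ring

/-!
Orbits of finite sets under a finite group of permutations of the ground set.
-/

namespace Vale.Agent.P064

variable {X : Type*} [DecidableEq X] {G : Type*} [Group G] [Fintype G] (ρ : G →* Equiv.Perm X)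

/-- The translate of a finite set. -/
def tr (g : G) (S : Finset X) : Finset X := S.map (ρ g).toEmbedding

omit [DecidableEq X] [Fintype G] in
theorem mem_tr {g : G} {S : Finset X} {x : X} : x ∈ tr ρ g S ↔ (ρ g).symm x ∈ S := by
  simp [tr, Finset.mem_map_equiv]

omit [Fintype G] in
theorem tr_union (g : G) (S T : Finset X) : tr ρ g (S ∪ T) = tr ρ g S ∪ tr ρ g T :=
  Finset.map_union _ _

omit [DecidableEq X] [Fintype G] in
theorem tr_empty (g : G) : tr ρ g ∅ = ∅ := Finset.map_empty _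

omit [DecidableEq X] [Fintype G] in
theorem tr_one (S : Finset X) : tr ρ 1 S = S := by
  ext x
  rw [mem_tr, map_one]
  rfl

omit [DecidableEq X] [Fintype G] in
theorem tr_mul (g h : G) (S : Finset X) : tr ρ (g * h) S = tr ρ g (tr ρ h S) := by
  ext x
  simp only [mem_tr, map_mul]
  rfl

omit [DecidableEq X] [Fintype G] in
theorem tr_inv_tr (g : G) (S : Finset X) : tr ρ g⁻¹ (tr ρ g S) = S := by
  rw [← tr_mul, inv_mul_cancel, tr_one]

omit [DecidableEq X] [Fintype G] in
theorem tr_tr_inv (g : G) (S : Finset X) : tr ρ g (tr ρ g⁻¹ S) = S := by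
  rw [← tr_mul, mul_inv_cancel, tr_one]

omit [DecidableEq X] [Fintype G] in
theorem tr_subset_iff (g : G) {S T : Finset X} : tr ρ g S ⊆ tr ρ g T ↔ S ⊆ T :=
  Finset.map_subset_map

omit [DecidableEq X] [Fintype G] in
theorem card_tr (g : G) (S : Finset X) : (tr ρ g S).card = S.card := Finset.card_map _

omit [DecidableEq X] [Fintype G] in
theorem tr_injective (g : G) : Function.Injective (tr ρ g) := Finset.map_injective _

/-- The orbit of a finite set. -/
def orb (F : Finset X) : Finset (Finset X) := Finset.univ.image fun g => tr ρ g F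

theorem mem_orb {F T : Finset X} : T ∈ orb ρ F ↔ ∃ g, tr ρ g F = T := by simp [orb]

theorem mem_orb_self (F : Finset X) : F ∈ orb ρ F := (mem_orb ρ).2 ⟨1, tr_one ρ F⟩

theorem card_of_mem_orb {F T : Finset X} (h : T ∈ orb ρ F) : T.card = F.card := by
  obtain ⟨g, rfl⟩ := (mem_orb ρ).1 h
  exact card_tr ρ g F

theorem orb_pos (F : Finset X) : 0 < (orb ρ F).card := Finset.card_pos.2 ⟨F, mem_orb_self ρ F⟩

theorem orb_empty : orb ρ ∅ = {∅} := by
  ext T
  simp [mem_orb, tr_empty, eq_comm]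

theorem tr_mem_orb_iff (g : G) {F T : Finset X} : tr ρ g T ∈ orb ρ F ↔ T ∈ orb ρ F := by
  simp only [mem_orb]
  constructor
  · rintro ⟨h, hh⟩
    exact ⟨g⁻¹ * h, by rw [tr_mul, hh, tr_inv_tr]⟩
  · rintro ⟨h, rfl⟩
    exact ⟨g * h, tr_mul ρ g h F⟩

theorem map_orb (g : G) (F : Finset X) : (orb ρ F).image (tr ρ g) = orb ρ F := by
  refine Finset.eq_of_subset_of_card_le ?_ ?_
  · intro T hT
    obtain ⟨T', hT', rfl⟩ := Finset.mem_image.1 hT
    exact (tr_mem_orb_iff ρ g).2 hT'
  · rw [Finset.card_image_of_injective _ (tr_injective ρ g)]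

theorem orb_eq_of_mem {F T : Finset X} (h : T ∈ orb ρ F) : orb ρ T = orb ρ F := by
  obtain ⟨g, rfl⟩ := (mem_orb ρ).1 h
  ext U
  simp only [mem_orb]
  constructor
  · rintro ⟨a, rfl⟩
    exact ⟨a * g, tr_mul ρ a g F⟩
  · rintro ⟨a, rfl⟩
    exact ⟨a * g⁻¹, by rw [tr_mul, tr_inv_tr]⟩

theorem mem_orb_comm {F T : Finset X} : T ∈ orb ρ F ↔ F ∈ orb ρ T := by
  constructor <;> intro h <;> rw [orb_eq_of_mem ρ h] <;> exact mem_orb_self ρ _

/-- The members of the orbit of `F` contained in `S`. -/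
def inside (S F : Finset X) : Finset (Finset X) := (orb ρ F).filter (· ⊆ S)

/-- The members of the orbit of `F` containing `I`. -/
def above (I F : Finset X) : Finset (Finset X) := (orb ρ F).filter (I ⊆ ·)

theorem card_inside_tr (g : G) (S F : Finset X) :
    (inside ρ (tr ρ g S) F).card = (inside ρ S F).card := by
  symm
  refine Finset.card_bij' (fun T _ => tr ρ g T) (fun T _ => tr ρ g⁻¹ T) ?_ ?_ ?_ ?_
  · intro T hT
    simp only [inside, Finset.mem_filter] at hT ⊢
    exact ⟨(tr_mem_orb_iff ρ g).2 hT.1, (tr_subset_iff ρ g).2 hT.2⟩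
  · intro T hT
    simp only [inside, Finset.mem_filter] at hT ⊢
    refine ⟨(tr_mem_orb_iff ρ g⁻¹).2 hT.1, ?_⟩
    rw [← tr_inv_tr ρ g S]
    exact (tr_subset_iff ρ g⁻¹).2 hT.2
  · intro T _; exact tr_inv_tr ρ g T
  · intro T _; exact tr_tr_inv ρ g T

theorem card_above_tr (g : G) (I F : Finset X) :
    (above ρ (tr ρ g I) F).card = (above ρ I F).card := by
  symm
  refine Finset.card_bij' (fun T _ => tr ρ g T) (fun T _ => tr ρ g⁻¹ T) ?_ ?_ ?_ ?_
  · intro T hT
    simp only [above, Finset.mem_filter] at hT ⊢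
    exact ⟨(tr_mem_orb_iff ρ g).2 hT.1, (tr_subset_iff ρ g).2 hT.2⟩
  · intro T hT
    simp only [above, Finset.mem_filter] at hT ⊢
    refine ⟨(tr_mem_orb_iff ρ g⁻¹).2 hT.1, ?_⟩
    rw [← tr_inv_tr ρ g I]
    exact (tr_subset_iff ρ g⁻¹).2 hT.2
  · intro T _; exact tr_inv_tr ρ g T
  · intro T _; exact tr_tr_inv ρ g T

/-- Double counting of incidences between two orbits. -/
theorem above_mul (I F : Finset X) :
    (above ρ I F).card * (orb ρ I).card = (inside ρ F I).card * (orb ρ F).card := by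
  have h1 : ∑ T ∈ orb ρ F, (inside ρ T I).card = (inside ρ F I).card * (orb ρ F).card := by
    rw [Finset.sum_congr rfl (g := fun _ => (inside ρ F I).card) ?_, Finset.sum_const, smul_eq_mul,
      mul_comm]
    intro T hT
    obtain ⟨g, rfl⟩ := (mem_orb ρ).1 hT
    exact card_inside_tr ρ g F I
  have h2 : ∑ J ∈ orb ρ I, (above ρ J F).card = (above ρ I F).card * (orb ρ I).card := by
    rw [Finset.sum_congr rfl (g := fun _ => (above ρ I F).card) ?_, Finset.sum_const, smul_eq_mul,
      mul_comm]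
    intro T hT
    obtain ⟨g, rfl⟩ := (mem_orb ρ).1 hT
    exact card_above_tr ρ g I F
  rw [← h1, ← h2]
  simp only [inside, above, Finset.card_filter]
  exact Finset.sum_comm

end Vale.Agent.P064
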