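import Vale.Agent.P064.Blocks

/-!
A decomposition of the host graph into blocks: the vertices are peeled one at a time, and blocks
that are poor and small stay open until one of their remaining neighbours is peeled. Each step
keeps the incident open items that carry the largest weight of compatible embeddings.
-/

namespace Vale.Agent.P064.Blk

open Finset Vale.Agent.P064

variable {n w : ℕ}

/-- A state of the peeling. -/
structure St (n : ℕ) where
  U : Finset (Fin n)
  tm : Fin n → ℕ
  root : Fin n → Fin n
  ed : Fin n → Finset (Sym2 (Fin n))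
  live : Finset (Fin n)

/-- The vertices of a block. -/
def St.verts (st : St n) (r : Fin n) : Finset (Fin n) := univ.filter fun x => st.root x = r

theorem St.mem_verts {st : St n} {x r : Fin n} : x ∈ st.verts r ↔ st.root x = r := by
  simp [St.verts]

/-- An edge of a block inside it. -/
def St.Intra (st : St n) (a b : Fin n) : Prop :=
  st.root a = st.root b ∧ s(a, b) ∈ st.ed (st.root a)

/-- The expected number of copies of a block over given outside vertices. -/
def blockWt (q : ℝ) (st : St n) (r : Fin n) : ℝ :=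
  (n : ℝ) ^ (st.verts r).card * q ^ (st.ed r).card

/-- The edges of a block inside it. -/
def St.inner (st : St n) (r : Fin n) : Finset (Sym2 (Fin n)) :=
  (st.ed r).filter (· ∈ (st.verts r).sym2)

/-- The invariant of the peeling. -/
structure Inv (H0 : Finset (Sym2 (Fin n))) (q : ℝ) (E : ℕ) (st : St n) : Prop where
  idem : ∀ x, st.root (st.root x) = st.root x
  fresh : ∀ x ∈ st.U, st.root x = x ∧ st.ed x = ∅ ∧ st.tm x = n
  old : ∀ x ∉ st.U, st.root x ∉ st.U ∧ st.tm x < n - st.U.card ∧ st.tm x ≤ st.tm (st.root x)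
  tminj : ∀ x ∉ st.U, ∀ y ∉ st.U, st.tm x = st.tm y → x = y
  sub : ∀ r, st.ed r ⊆ H0
  edge : ∀ r x y, s(x, y) ∈ st.ed r →
    (st.root x = r ∧ (st.root y = r ∨ st.tm r < st.tm y)) ∨
      (st.root y = r ∧ (st.root x = r ∨ st.tm r < st.tm x))
  size : ∀ r ∉ st.U, st.root r = r → (st.verts r).card ≤ (st.inner r).card + 1
  conn : ∀ x, Relation.ReflTransGen st.Intra x (st.root x)
  liveRoot : ∀ L ∈ st.live, L ∉ st.U ∧ st.root L = L
  liveEnd : ∀ L ∈ st.live, ∀ z ∈ supp (st.ed L), st.root z = L ∨ z ∈ st.U
  liveSmall : ∀ L ∈ st.live, (st.ed L).card < E ∧ blockWt q st L < 1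
  dead : ∀ r ∉ st.U, st.root r = r → r ∉ st.live → E ≤ (st.ed r).card ∨ 1 ≤ blockWt q st r

theorem intra_symm (st : St n) {a b : Fin n} (h : Relation.ReflTransGen st.Intra a b) :
    Relation.ReflTransGen st.Intra b a := by
  induction h with
  | refl => exact .refl
  | tail h1 h2 ih =>
    exact Relation.ReflTransGen.head ⟨h2.1.symm, by rw [← h2.1, Sym2.eq_swap]; exact h2.2⟩ ih

/-- The live blocks and the host edges at a vertex. -/
def atLive (st : St n) (r : Fin n) : Finset (Fin n) :=
  st.live.filter fun L => r ∈ supp (st.ed L)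

/-- The host edges at a vertex that still join unpeeled vertices. -/
def atRaw (H0 : Finset (Sym2 (Fin n))) (st : St n) (r : Fin n) : Finset (Fin n) :=
  st.U.filter fun y => s(r, y) ∈ H0

/-- The state after peeling `r` and keeping the open items in `S`. -/
noncomputable def step (q : ℝ) (E : ℕ) (st : St n) (r : Fin n)
    (S : Finset (Fin n) × Finset (Fin n)) : St n := by
  classical
  exact
    let root' : Fin n → Fin n := fun x =>
      if x = r ∨ st.root x ∈ S.2 then r else if st.root x ∈ atLive st r then x else st.root x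
    let ed' : Fin n → Finset (Sym2 (Fin n)) := fun x =>
      if x = r then (S.1.image fun y => s(r, y)) ∪ S.2.biUnion st.ed
      else if st.root x ∈ atLive st r then ∅ else st.ed x
    { U := st.U.erase r
      tm := Function.update st.tm r (n - st.U.card)
      root := root'
      ed := ed'
      live := (st.live \ atLive st r) ∪
        if (ed' r).card < E ∧ (n : ℝ) ^ (univ.filter fun x => root' x = r).card *
            q ^ (ed' r).card < 1
        then {r} else ∅ }

section Step

variable {H0 : Finset (Sym2 (Fin n))} {q : ℝ} {E : ℕ} {st : St n} {r : Fin n}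
  {S : Finset (Fin n) × Finset (Fin n)}

theorem step_U : (step q E st r S).U = st.U.erase r := rfl

theorem step_tm_self : (step q E st r S).tm r = n - st.U.card := Function.update_self _ _ _

theorem step_tm_ne {x : Fin n} (h : x ≠ r) : (step q E st r S).tm x = st.tm x :=
  Function.update_of_ne h _ _

theorem step_root_self : (step q E st r S).root r = r := by simp [step]

theorem step_root_sel {x : Fin n} (h : st.root x ∈ S.2) : (step q E st r S).root x = r := by
  simp [step, h]

theorem step_root_drop {x : Fin n} (hx : x ≠ r) (h : st.root x ∉ S.2)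
    (h' : st.root x ∈ atLive st r) : (step q E st r S).root x = x := by simp [step, hx, h, h']

theorem step_root_keep {x : Fin n} (hx : x ≠ r) (hS : S.2 ⊆ atLive st r)
    (h : st.root x ∉ atLive st r) : (step q E st r S).root x = st.root x := by
  have : st.root x ∉ S.2 := fun h' => h (hS h')
  simp [step, hx, h, this]

theorem step_ed_self :
    (step q E st r S).ed r = (S.1.image fun y => s(r, y)) ∪ S.2.biUnion st.ed := by
  simp [step]

theorem step_ed_drop {x : Fin n} (hx : x ≠ r) (h : st.root x ∈ atLive st r) :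
    (step q E st r S).ed x = ∅ := by simp [step, hx, h]

theorem step_ed_keep {x : Fin n} (hx : x ≠ r) (h : st.root x ∉ atLive st r) :
    (step q E st r S).ed x = st.ed x := by simp [step, hx, h]

theorem mem_step_live {L : Fin n} : L ∈ (step q E st r S).live ↔
    (L ∈ st.live ∧ L ∉ atLive st r) ∨ (L = r ∧ ((step q E st r S).ed r).card < E ∧
      blockWt q (step q E st r S) r < 1) := by
  simp only [step, blockWt, St.verts, mem_union, mem_sdiff]
  split_ifs with h <;> simp_all

theorem inv_step (hinv : Inv H0 q E st) (hr : r ∈ st.U) (hloop : ∀ e ∈ H0, ¬ e.IsDiag)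
    (hS1 : S.1 ⊆ atRaw H0 st r) (hS2 : S.2 ⊆ atLive st r) :
    Inv H0 q E (step q E st r S) := by
  classical
  set st' := step q E st r S with hst'
  have hroot_r : st.root r = r := (hinv.fresh r hr).1
  have hU : ∀ {x}, x ∈ st'.U ↔ x ≠ r ∧ x ∈ st.U := by simp [hst', step_U]
  have hcard : st'.U.card + 1 = st.U.card := card_erase_add_one hr
  have hUn : st.U.card ≤ n := by simpa using card_le_univ st.U
  have hpos : 0 < st.U.card := card_pos.2 ⟨r, hr⟩
  have hliveU : ∀ {L}, L ∈ atLive st r → L ∉ st.U ∧ st.root L = L := fun h =>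
    hinv.liveRoot _ (mem_filter.1 h).1
  have hnotr : ∀ {L}, L ∈ atLive st r → L ≠ r := fun h e => (hliveU h).1 (e ▸ hr)
  have hfreshkeep : ∀ x ∈ st.U, x ≠ r → st.root x ∉ atLive st r := by
    intro x hx _ h
    rw [(hinv.fresh x hx).1] at h
    exact (hliveU h).1 hx
  -- the root of an old vertex
  have hcases : ∀ x, x ≠ r → (st.root x ∈ S.2 ∧ st'.root x = r) ∨
      (st.root x ∉ S.2 ∧ st.root x ∈ atLive st r ∧ st'.root x = x) ∨
      (st.root x ∉ atLive st r ∧ st'.root x = st.root x) := by
    intro x hx
    by_cases h1 : st.root x ∈ S.2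
    · exact Or.inl ⟨h1, step_root_sel h1⟩
    · by_cases h2 : st.root x ∈ atLive st r
      · exact Or.inr (Or.inl ⟨h1, h2, step_root_drop hx h1 h2⟩)
      · exact Or.inr (Or.inr ⟨h2, step_root_keep hx hS2 h2⟩)
  have hkeepne : ∀ x, x ≠ r → st.root x ∉ atLive st r → st.root x ≠ r := by
    intro x hx _ e
    by_cases hxU : x ∈ st.U
    · exact hx ((hinv.fresh x hxU).1.symm.trans e)
    · exact (hinv.old x hxU).1 (e ▸ hr)
  have hverts_keep : ∀ x, x ≠ r → st.root x = x → x ∉ atLive st r →
      st'.verts x = st.verts x := by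
    intro x hx hxx hxl
    ext y
    simp only [St.mem_verts]
    rcases eq_or_ne y r with rfl | hy
    · rw [hst', step_root_self, hroot_r]
    · rcases hcases y hy with ⟨h1, h2⟩ | ⟨-, h2, h3⟩ | ⟨-, h3⟩
      · rw [h2]
        exact ⟨fun e => absurd e.symm hx, fun e => absurd (e ▸ hS2 h1) hxl⟩
      · rw [h3]
        exact ⟨fun e => absurd ((congrArg st.root e).trans hxx ▸ h2) hxl,
          fun e => absurd (e ▸ h2) hxl⟩
      · rw [h3]
  refine ⟨?_, ?_, ?_, ?_, ?_, ?_, ?_, ?_, ?_, ?_, ?_, ?_⟩
  · intro x
    rcases eq_or_ne x r with hx | hx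
    · rw [hx, hst', step_root_self, step_root_self]
    rcases hcases x hx with ⟨-, h⟩ | ⟨-, -, h⟩ | ⟨h1, h⟩
    · rw [h, hst', step_root_self]
    · rw [h, h]
    · rw [h, hst', step_root_keep (hkeepne x hx h1) hS2 (by rwa [hinv.idem]), hinv.idem]
  · intro x hx
    obtain ⟨hxr, hxU⟩ := hU.1 hx
    obtain ⟨h1, h2, h3⟩ := hinv.fresh x hxU
    refine ⟨?_, ?_, ?_⟩
    · rw [hst', step_root_keep hxr hS2 (hfreshkeep x hxU hxr), h1]
    · rw [hst', step_ed_keep hxr (hfreshkeep x hxU hxr), h2]
    · rw [hst', step_tm_ne hxr, h3]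
  · intro x hx
    rcases eq_or_ne x r with hxr | hxr
    · rw [hxr, hst', step_root_self, step_tm_self]
      exact ⟨fun h => (hU.1 h).1 rfl, by simp only [step_U]; rw [card_erase_of_mem hr]; omega,
        le_rfl⟩
    have hxU : x ∉ st.U := fun h => hx (hU.2 ⟨hxr, h⟩)
    obtain ⟨h1, h2, h3⟩ := hinv.old x hxU
    have htm : st'.tm x = st.tm x := step_tm_ne hxr
    refine ⟨?_, by omega, ?_⟩
    · rcases hcases x hxr with ⟨-, h⟩ | ⟨-, -, h⟩ | ⟨-, h⟩
      · rw [h]; exact fun h' => (hU.1 h').1 rfl
      · rwa [h]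
      · rw [h]; exact fun h' => h1 (hU.1 h').2
    · rcases hcases x hxr with ⟨-, h⟩ | ⟨-, -, h⟩ | ⟨hl, h⟩
      · rw [h, htm, hst', step_tm_self]; omega
      · rw [h]
      · rw [h, htm, hst', step_tm_ne (hkeepne x hxr hl)]; exact h3
  · intro x hx y hy e
    rcases eq_or_ne x r with hxr | hxr <;> rcases eq_or_ne y r with hyr | hyr
    · rw [hxr, hyr]
    · rw [hxr, hst', step_tm_self, step_tm_ne hyr] at e
      have := (hinv.old y fun h => hy (hU.2 ⟨hyr, h⟩)).2.1
      omega
    · rw [hyr, hst', step_tm_self, step_tm_ne hxr] at e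
      have := (hinv.old x fun h => hx (hU.2 ⟨hxr, h⟩)).2.1
      omega
    · rw [hst', step_tm_ne hxr, step_tm_ne hyr] at e
      exact hinv.tminj x (fun h => hx (hU.2 ⟨hxr, h⟩)) y (fun h => hy (hU.2 ⟨hyr, h⟩)) e
  · intro x e he
    rcases eq_or_ne x r with hx | hx
    · rw [hx, hst', step_ed_self] at he
      rcases mem_union.1 he with h | h
      · obtain ⟨y, hy, rfl⟩ := mem_image.1 h
        exact (mem_filter.1 (hS1 hy)).2
      · obtain ⟨L, -, hL⟩ := mem_biUnion.1 h
        exact hinv.sub L hL
    · by_cases h : st.root x ∈ atLive st r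
      · rw [hst', step_ed_drop hx h] at he; exact absurd he (notMem_empty _)
      · rw [hst', step_ed_keep hx h] at he; exact hinv.sub x he
  · intro a x y hxy
    rcases eq_or_ne a r with ha | ha
    · rw [ha, hst', step_ed_self] at hxy
      rw [ha]
      have hlate : ∀ z ∈ st.U, z ≠ r → st'.tm r < st'.tm z := fun z hz hzr => by
        rw [hst', step_tm_self, step_tm_ne hzr, (hinv.fresh z hz).2.2]; omega
      rcases mem_union.1 hxy with h | h
      · obtain ⟨z, hz, e⟩ := mem_image.1 h
        obtain ⟨hzU, hzH⟩ := mem_filter.1 (hS1 hz)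
        have hne : z ≠ r := fun e' => hloop _ hzH (by simp [e'])
        rcases Sym2.eq_iff.1 e with ⟨rfl, rfl⟩ | ⟨rfl, rfl⟩
        · exact Or.inl ⟨step_root_self, Or.inr (hlate _ hzU hne)⟩
        · exact Or.inr ⟨step_root_self, Or.inr (hlate _ hzU hne)⟩
      · obtain ⟨L, hL, hLe⟩ := mem_biUnion.1 h
        have hend : ∀ z ∈ supp (st.ed L), st'.root z = r ∨ st'.tm r < st'.tm z := by
          intro z hz
          rcases hinv.liveEnd L (mem_filter.1 (hS2 hL)).1 z hz with h | h
          · exact Or.inl (step_root_sel (h ▸ hL))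
          · rcases eq_or_ne z r with rfl | hzr
            · exact Or.inl step_root_self
            · exact Or.inr (hlate z h hzr)
        rcases hinv.edge L x y hLe with ⟨h1, -⟩ | ⟨h1, -⟩
        · exact Or.inl ⟨step_root_sel (h1 ▸ hL),
            hend y (mem_supp.2 ⟨_, hLe, Sym2.mem_mk_right x y⟩)⟩
        · exact Or.inr ⟨step_root_sel (h1 ▸ hL),
            hend x (mem_supp.2 ⟨_, hLe, Sym2.mem_mk_left x y⟩)⟩
    · by_cases hal : st.root a ∈ atLive st r
      · rw [hst', step_ed_drop ha hal] at hxy; exact absurd hxy (notMem_empty _)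
      rw [hst', step_ed_keep ha hal] at hxy
      have haU : a ∉ st.U := fun h => by
        rw [(hinv.fresh a h).2.1] at hxy; exact absurd hxy (notMem_empty _)
      obtain ⟨-, hta, -⟩ := hinv.old a haU
      have hone : ∀ u v, st.root u = a → (st.root v = a ∨ st.tm a < st.tm v) →
          st'.root u = a ∧ (st'.root v = a ∨ st'.tm a < st'.tm v) := by
        intro u v hu hv
        have hroot : ∀ z, st.root z = a → st'.root z = a := fun z hz => by
          have hzr : z ≠ r := fun e => ha (by rw [← hz, e, hroot_r])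
          rw [hst', step_root_keep hzr hS2 (by rw [hz]; rwa [← hz, hinv.idem, hz] at hal), hz]
        refine ⟨hroot u hu, hv.imp (hroot v) fun h => ?_⟩
        rcases eq_or_ne v r with rfl | hvr
        · rw [hst', step_tm_self, step_tm_ne ha]; exact hta
        · rw [hst', step_tm_ne hvr, step_tm_ne ha]; exact h
      exact (hinv.edge a x y hxy).imp (fun h => hone x y h.1 h.2) (fun h => hone y x h.1 h.2)
  · intro a ha hroot
    rcases eq_or_ne a r with har | har
    · rw [har]
      have hsub : st'.verts r ⊆ insert r (S.2.biUnion st.verts) := by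
        intro z hz
        rw [St.mem_verts] at hz
        rcases eq_or_ne z r with hza | hza
        · exact mem_insert.2 (Or.inl hza)
        rcases hcases z hza with ⟨h, -⟩ | ⟨-, -, h⟩ | ⟨hl, h⟩
        · exact mem_insert_of_mem (mem_biUnion.2 ⟨_, h, St.mem_verts.2 rfl⟩)
        · exact absurd (h ▸ hz) hza
        · exact absurd (h ▸ hz) (hkeepne z hza hl)
      refine (card_le_card hsub).trans ((card_insert_le _ _).trans (Nat.add_le_add_right ?_ 1))
      have hdisj : (S.2 : Set (Fin n)).PairwiseDisjoint st.ed := by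
        intro L hL L' hL' hne
        rw [Function.onFun, Finset.disjoint_left]
        intro e h1 h2
        induction e using Sym2.ind with
        | _ x y =>
          obtain ⟨hLU, -⟩ := hliveU (hS2 hL)
          obtain ⟨hLU', -⟩ := hliveU (hS2 hL')
          have key : ∀ {A B : Fin n} {u v : Fin n}, A ∉ st.U → B ∉ st.U → st.root u = A →
              st.root v = B → (st.root v = A ∨ st.tm A < st.tm v) →
              (st.root u = B ∨ st.tm B < st.tm u) → A = B := by
            intro A B u v hA hB hu hv hv' hu'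
            rcases hv' with h | h
            · exact h.symm.trans hv
            rcases hu' with h' | h'
            · exact hu.symm.trans h'
            have huU : u ∉ st.U := fun h'' => hA (hu ▸ (hinv.fresh u h'').1.symm ▸ h'')
            have hvU : v ∉ st.U := fun h'' => hB (hv ▸ (hinv.fresh v h'').1.symm ▸ h'')
            have := (hinv.old u huU).2.2
            have := (hinv.old v hvU).2.2
            rw [hu] at *
            rw [hv] at *
            omega
          rcases hinv.edge L x y h1 with ⟨a1, b1⟩ | ⟨a1, b1⟩ <;>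
            rcases hinv.edge L' x y h2 with ⟨a2, b2⟩ | ⟨a2, b2⟩
          · exact hne (a1.symm.trans a2)
          · exact hne (key hLU hLU' a1 a2 b1 b2)
          · exact hne (key hLU hLU' a1 a2 b1 b2)
          · exact hne (a1.symm.trans a2)
      have hlink : ∀ L ∈ S.2, ∃ z, st.root z = L ∧ z ≠ r ∧ s(z, r) ∈ st.ed L := by
        intro L hL
        obtain ⟨e, he, hre⟩ := mem_supp.1 (mem_filter.1 (hS2 hL)).2
        have hne : ∀ z, st.root z = L → z ≠ r := fun z hz e =>
          hnotr (hS2 hL) (by rw [← hz, e, hroot_r])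
        induction e using Sym2.ind with
        | _ x y =>
          rcases hinv.edge L x y he with ⟨h1, -⟩ | ⟨h1, -⟩ <;>
            rcases Sym2.mem_iff.1 hre with e' | e'
          · exact absurd e'.symm (hne x h1)
          · exact ⟨x, h1, hne x h1, e'.symm ▸ he⟩
          · exact ⟨y, h1, hne y h1, e'.symm ▸ Sym2.eq_swap ▸ he⟩
          · exact absurd e'.symm (hne y h1)
      choose z hz using hlink
      set g : Fin n → Finset (Sym2 (Fin n)) := fun L =>
        if hL : L ∈ S.2 then insert s(z L hL, r) (st.inner L) else ∅ with hg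
      have hgsub : ∀ L ∈ S.2, g L ⊆ st.ed L := fun L hL => by
        rw [hg]; simp only [dif_pos hL]
        exact insert_subset (hz L hL).2.2 (filter_subset _ _)
      refine card_biUnion_le.trans ((Finset.sum_le_sum (g := fun L => (g L).card) fun L hL => ?_).trans ?_)
      · rw [hg]; simp only [dif_pos hL]
        obtain ⟨hLU, hLL⟩ := hliveU (hS2 hL)
        refine (hinv.size L hLU hLL).trans (le_of_eq (card_insert_of_notMem ?_).symm)
        intro h
        exact hnotr (hS2 hL) ((St.mem_verts.1 (mk_mem_sym2_iff.1 (mem_filter.1 h).2).2).symm.trans hroot_r)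
      rw [← card_biUnion fun L hL L' hL' hne => (hdisj hL hL' hne).mono (hgsub L hL) (hgsub L' hL')]
      refine card_le_card (biUnion_subset.2 fun L hL e he => mem_filter.2 ⟨?_, ?_⟩)
      · rw [hst', step_ed_self]
        exact mem_union_right _ (mem_biUnion.2 ⟨L, hL, hgsub L hL he⟩)
      · rw [hg] at he; simp only [dif_pos hL, mem_insert] at he
        rcases he with rfl | he
        · exact mk_mem_sym2_iff.2 ⟨St.mem_verts.2 (step_root_sel (by rw [(hz L hL).1]; exact hL)),
            St.mem_verts.2 step_root_self⟩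
        · exact mem_sym2_iff.2 fun x hx => St.mem_verts.2 (step_root_sel
            (St.mem_verts.1 (mem_sym2_iff.1 (mem_filter.1 he).2 x hx) ▸ hL))
    · have haU : a ∉ st.U := fun h => ha (hU.2 ⟨har, h⟩)
      rcases hcases a har with ⟨-, h⟩ | ⟨h1, h2, h⟩ | ⟨hl, h⟩
      · exact absurd (hroot.symm.trans h) har
      · have : st'.verts a ⊆ {a} := by
          intro z hz
          rw [St.mem_verts] at hz
          rcases eq_or_ne z r with rfl | hzr
          · rw [hst', step_root_self] at hz; exact absurd hz.symm har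
          rcases hcases z hzr with ⟨-, h'⟩ | ⟨-, -, h'⟩ | ⟨hl', h'⟩
          · exact absurd (hz.symm.trans h') har
          · exact mem_singleton.2 (h'.symm.trans hz)
          · rw [h'] at hz
            rw [← hz, hinv.idem] at h2
            exact absurd h2 hl'
        exact (card_le_card this).trans (by simp)
      · rw [h] at hroot
        have hv := hverts_keep a har hroot (hroot ▸ hl)
        rw [St.inner, hv, hst', step_ed_keep har hl]
        exact hinv.size a haU hroot
  · intro x
    rcases eq_or_ne x r with hx | hx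
    · rw [hx, hst', step_root_self]
    rcases hcases x hx with ⟨hsel, h⟩ | ⟨-, -, h⟩ | ⟨hl, h⟩
    · rw [h]
      set L := st.root x with hL
      have hin : ∀ {a b : Fin n}, st.root a = L → Relation.ReflTransGen st.Intra a b →
          st.root b = L ∧ Relation.ReflTransGen st'.Intra a b := by
        intro a b ha hab
        induction hab with
        | refl => exact ⟨ha, .refl⟩
        | tail h1 h2 ih =>
          refine ⟨h2.1.symm.trans ih.1, ih.2.tail ⟨?_, ?_⟩⟩
          · rw [hst', step_root_sel (ih.1 ▸ hsel), step_root_sel ((h2.1.symm.trans ih.1) ▸ hsel)]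
          · rw [hst', step_root_sel (ih.1 ▸ hsel), step_ed_self]
            exact mem_union_right _ (mem_biUnion.2 ⟨L, hsel, ih.1 ▸ h2.2⟩)
      obtain ⟨e, he, hre⟩ := mem_supp.1 (mem_filter.1 (hS2 hsel)).2
      have hroot' : ∀ z, st.root z = L → z ≠ r := fun z hz e =>
        hnotr (hS2 hsel) (by rw [← hz, e, hroot_r])
      induction e using Sym2.ind with
      | _ a b =>
        obtain ⟨z, hz, hze⟩ : ∃ z, st.root z = L ∧ s(z, r) ∈ st.ed L := by
          rcases hinv.edge L a b he with ⟨h1, -⟩ | ⟨h1, -⟩ <;>
            rcases Sym2.mem_iff.1 hre with rfl | rfl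
          · exact absurd rfl (hroot' _ h1)
          · exact ⟨a, h1, he⟩
          · exact ⟨b, h1, by rwa [Sym2.eq_swap]⟩
          · exact absurd rfl (hroot' _ h1)
        refine ((hin rfl (hinv.conn x)).2.trans (hin (hinv.idem x)
          (intra_symm st (hz ▸ hinv.conn z))).2).tail ⟨?_, ?_⟩
        · rw [hst', step_root_sel (hz ▸ hsel), step_root_self]
        · rw [hst', step_root_sel (hz ▸ hsel), step_ed_self]
          exact mem_union_right _ (mem_biUnion.2 ⟨L, hsel, hze⟩)
    · rw [h]
    · rw [h]
      have hin : ∀ {b : Fin n}, Relation.ReflTransGen st.Intra x b →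
          st.root b = st.root x ∧ Relation.ReflTransGen st'.Intra x b := by
        intro b hxb
        induction hxb with
        | refl => exact ⟨rfl, .refl⟩
        | tail h1 h2 ih =>
          rename_i c d
          have hd : st.root d = st.root x := h2.1.symm.trans ih.1
          have hne : ∀ z, st.root z = st.root x → z ≠ r := fun z hz e =>
            hkeepne x hx hl (by rw [← hz, e, hroot_r])
          refine ⟨hd, ih.2.tail ⟨?_, ?_⟩⟩
          · rw [hst', step_root_keep (hne c ih.1) hS2 (ih.1 ▸ hl),
              step_root_keep (hne d hd) hS2 (hd ▸ hl), ih.1, hd]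
          · rw [hst', step_root_keep (hne c ih.1) hS2 (ih.1 ▸ hl), ih.1,
              step_ed_keep (hkeepne x hx hl) (by rwa [hinv.idem]), ← ih.1]
            exact h2.2
      exact (hin (hinv.conn x)).2
  · intro L hL
    rcases mem_step_live.1 hL with ⟨h1, h2⟩ | ⟨rfl, -⟩
    · obtain ⟨h3, h4⟩ := hinv.liveRoot L h1
      have hne : L ≠ r := fun e => h3 (e ▸ hr)
      exact ⟨fun h => h3 (hU.1 h).2, by rw [hst', step_root_keep hne hS2 (by rwa [h4]), h4]⟩
    · exact ⟨fun h => (hU.1 h).1 rfl, step_root_self⟩
  · intro L hL z hz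
    rcases mem_step_live.1 hL with ⟨h1, h2⟩ | ⟨rfl, -⟩
    · obtain ⟨h3, h4⟩ := hinv.liveRoot L h1
      have hne : L ≠ r := fun e => h3 (e ▸ hr)
      rw [hst', step_ed_keep hne (by rwa [h4])] at hz
      have hzr : z ≠ r := fun e => h2 (mem_filter.2 ⟨h1, e ▸ hz⟩)
      rcases hinv.liveEnd L h1 z hz with h | h
      · exact Or.inl (by rw [hst', step_root_keep hzr hS2 (by rwa [h]), h])
      · exact Or.inr (hU.2 ⟨hzr, h⟩)
    · rw [hst', step_ed_self] at hz
      obtain ⟨e, he, hze⟩ := mem_supp.1 hz
      rcases eq_or_ne z L with rfl | hzL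
      · exact Or.inl step_root_self
      rcases mem_union.1 he with h | h
      · obtain ⟨y, hy, rfl⟩ := mem_image.1 h
        rcases Sym2.mem_iff.1 hze with rfl | rfl
        · exact absurd rfl hzL
        · exact Or.inr (hU.2 ⟨hzL, (mem_filter.1 (hS1 hy)).1⟩)
      · obtain ⟨K, hK, hKe⟩ := mem_biUnion.1 h
        rcases hinv.liveEnd K (mem_filter.1 (hS2 hK)).1 z (mem_supp.2 ⟨_, hKe, hze⟩) with h | h
        · exact Or.inl (step_root_sel (h ▸ hK))
        · exact Or.inr (hU.2 ⟨hzL, h⟩)
  · intro L hL
    rcases mem_step_live.1 hL with ⟨h1, h2⟩ | ⟨rfl, h1, h2⟩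
    · obtain ⟨h3, h4⟩ := hinv.liveRoot L h1
      have hne : L ≠ r := fun e => h3 (e ▸ hr)
      rw [blockWt, hverts_keep L hne h4 h2, hst', step_ed_keep hne (by rwa [h4])]
      exact hinv.liveSmall L h1
    · exact ⟨h1, h2⟩
  · intro a ha hroot hnl
    rcases eq_or_ne a r with har | har
    · rw [har] at hnl ⊢
      by_contra hcon
      push Not at hcon
      exact hnl (mem_step_live.2 (Or.inr ⟨rfl, hcon⟩))
    have haU : a ∉ st.U := fun h => ha (hU.2 ⟨har, h⟩)
    rcases hcases a har with ⟨-, h⟩ | ⟨-, h2, h⟩ | ⟨hl, h⟩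
    · exact absurd (hroot.symm.trans h) har
    · right
      have hv : 0 < (st'.verts a).card := card_pos.2 ⟨a, St.mem_verts.2 hroot⟩
      have hn1 : (1 : ℝ) ≤ n := by exact_mod_cast a.pos
      rw [blockWt, hst', step_ed_drop har h2, card_empty, pow_zero, mul_one]
      exact one_le_pow₀ hn1
    · rw [h] at hroot
      rw [blockWt, hverts_keep a har hroot (hroot ▸ hl), hst', step_ed_keep har hl]
      refine hinv.dead a haU hroot fun hal => ?_
      exact hnl (mem_step_live.2 (Or.inl ⟨hal, hroot ▸ hl⟩))

end Step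

end Vale.Agent.P064.Blk
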