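import Vale.Agent.P064.Complete

/-!
The count of compatible embeddings: they fall into shapes, and each shape obeys the bound of the
bundled hubs.
-/

namespace Vale.Agent.P064.Blk

open Finset Vale.Agent.P064

variable {n w : ℕ} {H0 : Finset (Sym2 (Fin n))} {q : ℝ} {E : ℕ} {thr : ℕ → ℕ → ℕ}
  {st : St n} {R : ℕ} {ρ P : ℝ} {F : Finset (Sym2 (Fin w))}

/-- The role of the root of the block that holds the image of a role. -/
noncomputable def blkOf (st : St n) (φ : Fin w ↪ Fin n) (i : Fin w) : Fin w := by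
  classical
  exact if h : ∃ j, φ j = st.root (φ i) then h.choose else i

/-- The out-roles of a role. -/
def outRoles (st : St n) (F : Finset (Sym2 (Fin w))) (φ : Fin w ↪ Fin n) (i : Fin w) :
    Finset (Fin w) :=
  univ.filter fun j => s(i, j) ∈ F ∧ st.tm (φ i) < st.tm (φ j)

/-- The shape of a compatible embedding. -/
noncomputable def shapeOf (st : St n) (E : ℕ) (thr : ℕ → ℕ → ℕ) (F : Finset (Sym2 (Fin w)))
    (φ : Fin w ↪ Fin n) : Shape w := by
  classical
  exact
    { b := outRoles st F φ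
      blk := blkOf st φ
      big := univ.filter fun i => st.root (φ i) = φ i ∧ E ≤ eW st (φ i)
      hub := univ.filter fun i => Hub st E thr (φ i)
      top := univ.filter fun i => Hub st E thr (φ i) ∧ IsTop st (φ i)
      dn := ∅ }

/-- The data that determine the shape. -/
noncomputable def code (st : St n) (E : ℕ) (thr : ℕ → ℕ → ℕ) (F : Finset (Sym2 (Fin w)))
    (φ : Fin w ↪ Fin n) :
    Finset (Sym2 (Fin w)) × Finset (Sym2 (Fin w)) × Finset (Fin w) × Finset (Fin w) ×
      Finset (Fin w) × Finset (Fin w) := by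
  classical
  exact
    (F.filter fun e => ∃ a, Sym2.map φ e ∈ st.inner a,
      F.filter fun e => st.tm (φ (Sym2.inf e)) < st.tm (φ (Sym2.sup e)),
      univ.filter fun i => st.root (φ i) = φ i,
      univ.filter fun i => st.root (φ i) = φ i ∧ E ≤ eW st (φ i),
      univ.filter fun i => Hub st E thr (φ i),
      univ.filter fun i => Hub st E thr (φ i) ∧ IsTop st (φ i))

theorem blkOf_spec {φ : Fin w ↪ Fin n} (hinv : Inv H0 q E st) (hφ : Compat st F φ) (i : Fin w) :
    φ (blkOf st φ i) = st.root (φ i) := by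
  have h := (hφ.2 (φ i) (mem_map_of_mem _ (mem_univ i))).2 (St.mem_verts.2 (hinv.idem (φ i)))
  obtain ⟨j, -, hj⟩ := mem_map.1 h
  have hex : ∃ j, φ j = st.root (φ i) := ⟨j, hj⟩
  rw [blkOf, dif_pos hex]
  exact hex.choose_spec

theorem root_eq_of_code {φ φ₀ : Fin w ↪ Fin n} (hinv : Inv H0 q E st) (hφ₀ : Compat st F φ₀)
    (hc : code st E thr F φ = code st E thr F φ₀) (i : Fin w) :
    st.root (φ i) = φ (blkOf st φ₀ i) := by
  simp only [code, Prod.mk.injEq] at hc
  obtain ⟨hint, -, hR, -⟩ := hc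
  have key : ∀ b, Relation.ReflTransGen st.Intra (φ₀ i) b →
      ∃ j, φ₀ j = b ∧ st.root (φ i) = st.root (φ j) ∧ st.root (φ₀ i) = st.root (φ₀ j) := by
    intro b hb
    induction hb with
    | refl => exact ⟨i, rfl, rfl, rfl⟩
    | tail h1 h2 ih =>
      rename_i c d
      obtain ⟨j, rfl, hj, hj'⟩ := ih
      have hsub := (hφ₀.2 (φ₀ j) (mem_map_of_mem _ (mem_univ j))).1 h2.2
      obtain ⟨e, he, heq⟩ := mem_image.1 hsub
      obtain ⟨l, -, hl⟩ := mem_map.1
        (supp_subset_range φ₀ subset_rfl (mem_supp.2 ⟨_, hsub, Sym2.mem_mk_right (φ₀ j) d⟩))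
      rw [← hl] at heq h2 ⊢
      have he' : e = s(j, l) := Sym2.map.injective φ₀.injective (by rw [heq, Sym2.map_mk])
      rw [he'] at he
      have hmem : s(j, l) ∈ F.filter (fun e => ∃ a, Sym2.map φ₀ e ∈ st.inner a) :=
        mem_filter.2 ⟨he, st.root (φ₀ j), mem_filter.2 ⟨h2.2, mk_mem_sym2_iff.2
          ⟨St.mem_verts.2 rfl, St.mem_verts.2 h2.1.symm⟩⟩⟩
      rw [← hint] at hmem
      obtain ⟨-, a, ha⟩ := mem_filter.1 hmem
      rw [Sym2.map_mk] at ha
      obtain ⟨ha1, ha2⟩ := mk_mem_sym2_iff.1 (mem_filter.1 ha).2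
      exact ⟨l, rfl, hj.trans ((St.mem_verts.1 ha1).trans (St.mem_verts.1 ha2).symm),
        hj'.trans h2.1⟩
  obtain ⟨j, hj, hj1, -⟩ := key _ (hinv.conn (φ₀ i))
  have hjb : j = blkOf st φ₀ i := φ₀.injective (hj.trans (blkOf_spec hinv hφ₀ i).symm)
  have hroot : j ∈ univ.filter (fun i => st.root (φ₀ i) = φ₀ i) :=
    mem_filter.2 ⟨mem_univ _, by rw [hj, hinv.idem]⟩
  rw [← hR] at hroot
  rw [hj1, (mem_filter.1 hroot).2, hjb]

theorem mem_outs_iff {φ : Fin w ↪ Fin n} (hinv : Inv H0 q E st) (hU : st.U = ∅)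
    (hφ : Compat st F φ) (i : Fin w) : outs st (φ i) = (outRoles st F φ i).image φ := by
  ext z
  simp only [outs, outRoles, mem_filter, mem_univ, true_and, mem_image]
  constructor
  · rintro ⟨h1, h2⟩
    have hmem := (hφ.2 (φ i) (mem_map_of_mem _ (mem_univ i))).1 h1
    obtain ⟨j, -, rfl⟩ := mem_map.1
      (supp_subset_range φ subset_rfl (mem_supp.2 ⟨_, hmem, Sym2.mem_mk_right (φ i) z⟩))
    obtain ⟨e, he, heq⟩ := mem_image.1 hmem
    have he' : e = s(i, j) := Sym2.map.injective φ.injective (by rw [heq, Sym2.map_mk])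
    exact ⟨j, ⟨he' ▸ he, h2⟩, rfl⟩
  · rintro ⟨j, ⟨h1, h2⟩, rfl⟩
    refine ⟨?_, h2⟩
    rcases hφ.1 (s(φ i, φ j)) (mem_image.2 ⟨_, h1, rfl⟩) with h | ⟨a, ha⟩
    · rw [hU] at h
      simp at h
    · rwa [(hinv.owner ha h2).1]

theorem outRoles_eq_of_code {φ φ₀ : Fin w ↪ Fin n} (hinv : Inv H0 q E st) (hU : st.U = ∅)
    (hloopF : ∀ e ∈ F, ¬ e.IsDiag) (hc : code st E thr F φ = code st E thr F φ₀) (i : Fin w) :
    outRoles st F φ₀ i = outRoles st F φ i := by
  simp only [code, Prod.mk.injEq] at hc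
  obtain ⟨-, hor, -⟩ := hc
  ext j
  simp only [outRoles, mem_filter, mem_univ, true_and, and_congr_right_iff]
  intro hij
  have hne : i ≠ j := fun e => hloopF _ hij (by simp [e])
  have hiff := fun x => Finset.ext_iff.1 hor x
  rcases lt_or_gt_of_ne hne with hlt | hgt
  · have := hiff s(i, j)
    simp only [mem_filter, hij, true_and, Sym2.inf_mk, Sym2.sup_mk, inf_eq_left.2 hlt.le,
      sup_eq_right.2 hlt.le] at this
    exact this.symm
  · have := hiff s(i, j)
    simp only [mem_filter, hij, true_and, Sym2.inf_mk, Sym2.sup_mk, inf_eq_right.2 hgt.le,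
      sup_eq_left.2 hgt.le] at this
    have h1 : st.tm (φ i) ≠ st.tm (φ j) := fun e =>
      hne (φ.injective (hinv.tm_injective hU e))
    have h2 : st.tm (φ₀ i) ≠ st.tm (φ₀ j) := fun e =>
      hne (φ₀.injective (hinv.tm_injective hU e))
    omega

theorem fits_of_code {φ φ₀ : Fin w ↪ Fin n} (hinv : Inv H0 q E st) (hU : st.U = ∅)
    (hloopF : ∀ e ∈ F, ¬ e.IsDiag) (hφ₀ : Compat st F φ₀) (hφ : Compat st F φ)
    (hc : code st E thr F φ = code st E thr F φ₀) :
    Fits st E thr (shapeOf st E thr F φ₀) φ := by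
  classical
  have hblk := root_eq_of_code hinv hφ₀ hc
  have hb := outRoles_eq_of_code hinv hU hloopF hc
  simp only [code, Prod.mk.injEq] at hc
  obtain ⟨-, -, -, hbig, hhub, htop⟩ := hc
  refine ⟨fun i => ?_, fun i => (hblk i).symm, fun i hi => ?_, fun i => ?_, fun i => ?_,
    fun i => ?_, fun i hi => absurd hi (notMem_empty i)⟩
  · simp only [shapeOf]
    rw [hb, mem_outs_iff hinv hU hφ]
  · simp only [shapeOf] at hi
    ext y
    simp only [mem_image, Shape.mem_mem, shapeOf, St.mem_verts]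
    constructor
    · intro hy
      have := (hφ.2 (φ i) (mem_map_of_mem _ (mem_univ i))).2 (St.mem_verts.2
        (hy.trans (by rw [hblk i, hi])) : y ∈ st.verts (st.root (φ i)))
      obtain ⟨j, -, rfl⟩ := mem_map.1 this
      exact ⟨j, φ.injective (by rw [← hblk j, hy]), rfl⟩
    · rintro ⟨j, hj, rfl⟩
      rw [hblk j, hj]
  · simp only [shapeOf, ← hbig, mem_filter, mem_univ, true_and]
    refine and_congr_left fun _ => ?_
    rw [hblk i]; exact φ.injective.eq_iff
  · simp only [shapeOf, ← hhub, mem_filter, mem_univ, true_and]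
  · simp only [shapeOf, ← htop, mem_filter, mem_univ, true_and]

open Classical in
theorem class_bound (hs : Setting n H0 q E st thr R ρ P) (hloopF : ∀ e ∈ F, ¬ e.IsDiag)
    (c : Finset (Sym2 (Fin w)) × Finset (Sym2 (Fin w)) × Finset (Fin w) × Finset (Fin w) ×
      Finset (Fin w) × Finset (Fin w)) :
    (((compatible H0 st F).filter fun φ => code st E thr F φ = c).card : ℝ) ≤
      2 ^ w * (n : ℝ) ^ w * P ^ F.card := by
  classical
  have hP0 := hs.P_pos
  rcases ((compatible H0 st F).filter fun φ => code st E thr F φ = c).eq_empty_or_nonempty with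
    h | ⟨φ₀, hφ₀⟩
  · rw [h, card_empty, Nat.cast_zero]; positivity
  obtain ⟨hφ₀c, hcode₀⟩ := mem_filter.1 hφ₀
  obtain ⟨-, hφ₀k⟩ := mem_compatible.1 hφ₀c
  set X := shapeOf st E thr F φ₀ with hX
  have hsub : ((compatible H0 st F).filter fun φ => code st E thr F φ = c) ⊆
      fitMaps st E thr X := fun φ hφ => by
    obtain ⟨h1, h2⟩ := mem_filter.1 hφ
    exact mem_fitMaps.2 (fits_of_code hs.inv hs.hU hloopF hφ₀k (mem_compatible.1 h1).2
      (h2.trans hcode₀.symm))
  refine (Nat.cast_le.2 (card_le_card hsub)).trans ((fit_le hs _ w X le_rfl).trans (le_of_eq ?_))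
  have hsum : ∑ i, (X.b i).card = F.card := by
    have h1 : F = univ.biUnion fun i => (X.b i).image fun j => s(i, j) := by
      ext e
      constructor
      · intro he
        induction e using Sym2.ind with
        | _ a b =>
          have hne : a ≠ b := fun h => hloopF _ he (by simp [h])
          rcases lt_or_gt_of_ne (fun h => hne (φ₀.injective (hs.inv.tm_injective hs.hU h)))
            with h | h
          · exact mem_biUnion.2 ⟨a, mem_univ _, mem_image.2 ⟨b, mem_filter.2 ⟨mem_univ _, he, h⟩,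
              rfl⟩⟩
          · exact mem_biUnion.2 ⟨b, mem_univ _, mem_image.2 ⟨a, mem_filter.2 ⟨mem_univ _,
              by rwa [Sym2.eq_swap], h⟩, Sym2.eq_swap⟩⟩
      · intro he
        obtain ⟨i, -, he⟩ := mem_biUnion.1 he
        obtain ⟨j, hj, rfl⟩ := mem_image.1 he
        exact (mem_filter.1 hj).2.1
    conv_rhs => rw [h1]
    rw [card_biUnion]
    · exact Finset.sum_congr rfl fun i _ =>
        (card_image_of_injective _ fun a b h => Sym2.congr_right.1 h).symm
    · intro i _ j _ hij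
      rw [Function.onFun, Finset.disjoint_left]
      intro e he he'
      obtain ⟨a, ha, rfl⟩ := mem_image.1 he
      obtain ⟨b, hb, h⟩ := mem_image.1 he'
      rcases Sym2.eq_iff.1 h with ⟨h1, -⟩ | ⟨h1, h2⟩
      · exact hij h1.symm
      · subst h1 h2
        have t1 := (mem_filter.1 ha).2.2
        have t2 := (mem_filter.1 hb).2.2
        omega
  simp only [shapeBound, hX, shapeOf, notMem_empty, inter_empty, card_empty, pow_zero, mul_one,
    if_false]
  rw [prod_pow_eq_pow_sum, mul_pow]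
  simp only [hX, shapeOf] at hsum
  rw [hsum]

/-- The bound for patterns without isolated vertices. -/
theorem embs_power_core {η : ℝ} (hη : 0 < η) (hn : 2 ≤ n) (hE : 2 ≤ E)
    (hgap : Gap n q E η) (hsmall : (n : ℝ) ^ (-η) < 1 / 2) (hq0 : 0 < q) (hq1 : q < 1)
    (hR : Rich q H0) (hloop : ∀ e ∈ H0, ¬ e.IsDiag) {R : ℕ} (hR0 : 0 < R) (hnR : n ≤ 2 ^ R)
    {ρ : ℝ} (hρ : 1 ≤ ρ) (hρR : 2 ^ 17 * (R : ℝ) ≤ ρ ^ E) (F : Finset (Sym2 (Fin w)))
    (hloopF : ∀ e ∈ F, ¬ e.IsDiag) (hw : w ≤ 2 * F.card) :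
    ((embs H0 F).card : ℝ) ≤ (n : ℝ) ^ w *
      ((4 * (4 * E / η + 2)) ^ 5 * 2 ^ 12 * (1312 * (E : ℝ) ^ 3 * ρ * q)) ^ F.card := by
  classical
  obtain ⟨fin, hinv, hU, hlive, hc⟩ := exists_blocks hη hn hE hgap hsmall hq0 hq1 hR hloop F
  refine hc.trans ?_
  set thr : ℕ → ℕ → ℕ := fun v e => ⌈80 * ((2 * n : ℝ) ^ v * q ^ e) + E * ρ⌉₊ with hthr
  set P := 1312 * (E : ℝ) ^ 3 * ρ * q with hP
  have hE' : (2 : ℝ) ≤ E := by exact_mod_cast hE
  have hE3 : (1 : ℝ) ≤ (E : ℝ) ^ 3 := one_le_pow₀ (by linarith)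
  have hEρ : 1 ≤ (E : ℝ) * ρ := by nlinarith
  have hρP : ρ * q ≤ P := by
    rw [hP]
    refine mul_le_mul_of_nonneg_right (le_mul_of_one_le_left (by linarith) ?_) hq0.le
    linarith
  have hs : Setting n H0 q E fin thr R ρ P := by
    refine ⟨hn, hE, hq0, hR, hloop, hinv, hU, hlive, hR0, hnR, hρ, hρR,
      (le_mul_of_one_le_left hq0.le hρ).trans hρP, ?_, hρP, fun v e => ?_, fun v e => ?_,
      fun v e he heE hv hθ => ?_⟩
    · rw [hP]
      refine mul_le_mul_of_nonneg_right ?_ hq0.le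
      nlinarith
    · refine le_trans ?_ (Nat.le_ceil _)
      linarith
    · calc 2 ^ 17 * (R : ℝ) ≤ ρ ^ E := hρR
        _ ≤ Real.exp ρ ^ E := pow_le_pow_left₀ (by linarith)
            (by linarith [Real.add_one_le_exp ρ]) E
        _ = Real.exp (E * ρ) := (Real.exp_nat_mul _ _).symm
        _ ≤ _ := Real.exp_le_exp.2 (le_trans (le_add_of_nonneg_left (by positivity))
            (Nat.le_ceil _))
    · set θ := (n : ℝ) ^ v * q ^ e with hθd
      have h2v : (2 : ℝ) ^ v ≤ 4 ^ e := by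
        rw [show (4 : ℝ) = 2 ^ 2 by norm_num, ← pow_mul]
        exact pow_le_pow_right₀ one_le_two (by omega)
      have h4e : (1 : ℝ) ≤ 4 ^ e := one_le_pow₀ (by norm_num)
      have hceil : (thr v e : ℝ) ≤ θ * (328 * (E * ρ)) ^ e := by
        have hnn : (0 : ℝ) ≤ 80 * ((2 * n : ℝ) ^ v * q ^ e) + E * ρ := by positivity
        refine (Nat.ceil_lt_add_one hnn).le.trans ?_
        calc 80 * ((2 * n : ℝ) ^ v * q ^ e) + E * ρ + 1
            = 80 * 2 ^ v * θ + E * ρ + 1 := by rw [hθd, mul_pow]; ring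
          _ ≤ 80 * 4 ^ e * θ + 2 * (E * ρ) * θ := by
              have : 80 * (2 : ℝ) ^ v * θ ≤ 80 * 4 ^ e * θ := by gcongr
              nlinarith [mul_le_mul_of_nonneg_left hθ (show (0 : ℝ) ≤ 2 * (E * ρ) by linarith)]
          _ ≤ θ * (82 * 4 ^ e * (E * ρ)) := by
              have hθ0 : (0 : ℝ) ≤ θ := by linarith
              nlinarith [mul_le_mul_of_nonneg_left hEρ (mul_nonneg hθ0 (show (0 : ℝ) ≤ 80 * 4 ^ e
                by positivity)), mul_le_mul_of_nonneg_left h4e (mul_nonneg hθ0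
                (show (0 : ℝ) ≤ 2 * (E * ρ) by linarith))]
          _ ≤ θ * ((82 : ℝ) ^ e * 4 ^ e * (E * ρ) ^ e) := by
              gcongr
              · exact le_self_pow₀ (by norm_num) (by omega)
              · exact le_self_pow₀ hEρ (by omega)
          _ = _ := by rw [← mul_pow, ← mul_pow]; ring
      calc (thr v e : ℝ) * (2 * E : ℝ) ^ (2 * e)
          ≤ θ * (328 * (E * ρ)) ^ e * (2 * E : ℝ) ^ (2 * e) := by gcongr
        _ = _ := by
            rw [hθd, hP, pow_mul]
            simp only [mul_pow, ← pow_mul]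
            rw [show (1312 : ℝ) = 328 * 4 by norm_num, mul_pow, show (4 : ℝ) = 2 ^ 2 by norm_num,
              ← pow_mul]
            ring
  set S := F.powerset ×ˢ F.powerset ×ˢ (univ : Finset (Fin w)).powerset ×ˢ
    (univ : Finset (Fin w)).powerset ×ˢ (univ : Finset (Fin w)).powerset ×ˢ
    (univ : Finset (Fin w)).powerset with hS
  have hcount : ((compatible H0 fin F).card : ℝ) ≤
      2 ^ (2 * F.card + 5 * w) * (n : ℝ) ^ w * P ^ F.card := by
    rw [Finset.card_eq_sum_card_fiberwise (f := code fin E thr F) (t := S) ?_, Nat.cast_sum]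
    · refine (Finset.sum_le_sum fun c _ => class_bound hs hloopF c).trans (le_of_eq ?_)
      rw [sum_const, nsmul_eq_mul, hS]
      simp only [card_product, card_powerset, card_univ, Fintype.card_fin]
      push_cast
      ring
    · intro φ _
      simp only [hS, code, mem_coe, mem_product, mem_powerset, subset_univ, and_true]
      exact ⟨filter_subset _ _, filter_subset _ _⟩
  have hP0 := hs.P_pos
  refine (mul_le_mul_of_nonneg_left hcount (by positivity)).trans ?_
  have hA : (1 : ℝ) ≤ 4 * (4 * E / η + 2) := by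
    have : (0 : ℝ) ≤ 4 * E / η := by positivity
    linarith
  calc (4 * (4 * E / η + 2)) ^ (2 * w + F.card) *
        (2 ^ (2 * F.card + 5 * w) * (n : ℝ) ^ w * P ^ F.card)
      ≤ (4 * (4 * E / η + 2)) ^ (5 * F.card) *
        (2 ^ (12 * F.card) * (n : ℝ) ^ w * P ^ F.card) := by
        gcongr <;> first | linarith | omega | norm_num
    _ = _ := by simp only [pow_mul, mul_pow]; ring

end Vale.Agent.P064.Blk
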