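import Vale.Agent.P064.BoundedDeg
import Mathlib.Data.Finset.Sort

/-!
P064 for `n q` small: the host is then a forest. A copy of a connected pattern is extended to a
whole component in breadth-first order, and the hypothesis on all components of one type bounds
their number.
-/

namespace Vale.Agent.P064

open Finset

variable {n : ℕ}

/-- The image of a pattern under a map. -/
def imgE {v : ℕ} (Pe : Finset (Sym2 (Fin v))) (χ : Fin v ↪ Fin n) : Finset (Sym2 (Fin n)) :=
  Pe.image (Sym2.map χ)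

theorem card_imgE {v : ℕ} (Pe : Finset (Sym2 (Fin v))) (χ : Fin v ↪ Fin n) :
    (imgE Pe χ).card = Pe.card :=
  card_image_of_injective _ (Sym2.map.injective χ.injective)

theorem few_of_choose {N X : ℕ} {y : ℝ} (hy : 0 ≤ y)
    (h : 1 / 2 ≤ (X.choose N : ℝ) * y ^ N) : (N : ℝ) ≤ 6 * X * y := by
  by_contra hcon
  rw [not_le] at hcon
  have hM0 : (0 : ℝ) ≤ X * y := by positivity
  rcases Nat.eq_zero_or_pos N with rfl | hN
  · simp only [Nat.cast_zero] at hcon
    nlinarith
  have hfac : ((N : ℝ) / 3) ^ N ≤ N.factorial := by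
    have h1 := Real.pow_div_factorial_le_exp (N : ℝ) (Nat.cast_nonneg _) N
    have hexp : Real.exp (N : ℝ) ≤ 3 ^ N := by
      rw [← mul_one (N : ℝ), Real.exp_nat_mul]
      exact pow_le_pow_left₀ (Real.exp_pos _).le (by linarith [Real.exp_one_lt_d9]) _
    rw [div_le_iff₀ (by positivity)] at h1
    rw [div_pow, div_le_iff₀ (by positivity), mul_comm]
    exact h1.trans (mul_le_mul_of_nonneg_right hexp (by positivity))
  have h2 : (X.choose N : ℝ) * y ^ N ≤ ((X : ℝ) * y) ^ N / N.factorial := by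
    rw [mul_pow, le_div_iff₀ (by positivity)]
    have := mul_le_mul_of_nonneg_right (Nat.choose_le_pow_div (α := ℝ) N X)
      (show (0 : ℝ) ≤ N.factorial by positivity)
    rw [div_mul_cancel₀ _ (by positivity)] at this
    calc (X.choose N : ℝ) * y ^ N * N.factorial = (X.choose N : ℝ) * N.factorial * y ^ N := by ring
      _ ≤ _ := mul_le_mul_of_nonneg_right this (by positivity)
  have hlt : ((X : ℝ) * y) ^ N < (1 / 2) * N.factorial := by
    refine lt_of_lt_of_le (pow_lt_pow_left₀ (show (X : ℝ) * y < (N : ℝ) / 6 by linarith) hM0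
      (by omega)) ?_
    calc ((N : ℝ) / 6) ^ N = (1 / 2) ^ N * ((N : ℝ) / 3) ^ N := by rw [← mul_pow]; ring
      _ ≤ (1 / 2) * N.factorial :=
          mul_le_mul (pow_le_of_le_one (by norm_num) (by norm_num) (by omega)) hfac
            (by positivity) (by norm_num)
  have h3 := h.trans h2
  rw [le_div_iff₀ (by positivity)] at h3
  linarith

/-- Few copies of a pattern have closed ranges that are components. -/
theorem closed_copies {v : ℕ} {q : ℝ} {H0 : Finset (Sym2 (Fin n))} (hq : 0 < q) (hR : Rich q H0)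
    (hsmall : (n : ℝ) * q < 1 / 2) (hq1 : q ≤ 1) (hloop : ∀ e ∈ H0, ¬ e.IsDiag)
    {Pe : Finset (Sym2 (Fin v))} (hv : 2 ≤ v) (hPe : v ≤ Pe.card + 1)
    (hconn : ∀ A : Finset (Fin v), A.Nonempty → A ≠ univ → ∃ a ∈ A, ∃ b ∉ A, s(a, b) ∈ Pe) :
    (((univ : Finset (Fin v ↪ Fin n)).filter fun ψ => imgE Pe ψ ⊆ H0 ∧
      ∀ a z, s(ψ a, z) ∈ H0 → ∃ b, ψ b = z).card : ℝ) ≤
      6 * (n : ℝ) ^ v * q ^ Pe.card := by
  classical
  set Ψ := (univ : Finset (Fin v ↪ Fin n)).filter fun ψ => imgE Pe ψ ⊆ H0 ∧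
      ∀ a z, s(ψ a, z) ∈ H0 → ∃ b, ψ b = z with hΨ
  rcases Ψ.eq_empty_or_nonempty with h | ⟨ψ₀, hψ₀⟩
  · rw [h, card_empty, Nat.cast_zero]; positivity
  have hcontra : ∀ (ψ : Fin v ↪ Fin n) (K : Finset (Sym2 (Fin n))), K ⊆ H0 →
      supp K ⊆ univ.map ψ → v ≤ K.card → False := by
    intro ψ K hK hsupp hKv
    have h1 := hR K hK
    have h2 : ((orb (pairAct n) K).card : ℝ) ≤ (n : ℝ) ^ v := by
      exact_mod_cast (orb_card_le_supp K).trans (Nat.pow_le_pow_right (by
        have := (ψ ⟨0, by omega⟩).pos; omega) ((card_le_card hsupp).trans (by simp)))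
    have h3 : q ^ K.card ≤ q ^ v := pow_le_pow_of_le_one hq.le hq1 hKv
    have h4 : ((n : ℝ) * q) ^ v < 1 / 2 :=
      lt_of_le_of_lt (pow_le_of_le_one (by positivity) (by linarith) (by omega)) hsmall
    rw [mul_pow] at h4
    linarith [mul_le_mul h2 h3 (by positivity) (by positivity)]
  have hexact : ∀ ψ ∈ Ψ, ∀ a b, s(ψ a, ψ b) ∈ H0 → s(a, b) ∈ Pe := by
    intro ψ hψ a b hab
    by_contra hno
    obtain ⟨h1, -⟩ := (mem_filter.1 hψ).2
    have hnot : s(ψ a, ψ b) ∉ imgE Pe ψ := by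
      intro hm
      obtain ⟨e, he, heq⟩ := mem_image.1 hm
      exact hno (Sym2.map.injective ψ.injective (heq.trans (Sym2.map_mk _ _ _).symm) ▸ he)
    refine hcontra ψ (insert s(ψ a, ψ b) (imgE Pe ψ)) (insert_subset hab h1) ?_
      (by rw [card_insert_of_notMem hnot, card_imgE]; exact hPe)
    intro z hz
    obtain ⟨e, he, hze⟩ := mem_supp.1 hz
    rcases mem_insert.1 he with rfl | he
    · rcases Sym2.mem_iff.1 hze with rfl | rfl <;> exact mem_map_of_mem _ (mem_univ _)
    · obtain ⟨e', -, rfl⟩ := mem_image.1 he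
      obtain ⟨c, -, rfl⟩ := Sym2.mem_map.1 hze
      exact mem_map_of_mem _ (mem_univ c)
  -- two meeting copies have one range
  have hmeet : ∀ ψ ∈ Ψ, ∀ ψ' ∈ Ψ, ∀ a a', ψ a = ψ' a' → ∀ b, ∃ b', ψ b = ψ' b' := by
    intro ψ hψ ψ' hψ' a a' haa
    obtain ⟨h1, -⟩ := (mem_filter.1 hψ).2
    obtain ⟨-, h2'⟩ := (mem_filter.1 hψ').2
    set A := (univ : Finset (Fin v)).filter fun b => ∃ b', ψ b = ψ' b' with hA
    by_contra hno
    push Not at hno
    obtain ⟨b₀, hb₀⟩ := hno
    obtain ⟨x, hx, y, hy, hxy⟩ := hconn A ⟨a, mem_filter.2 ⟨mem_univ _, a', haa⟩⟩ fun e => by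
      obtain ⟨b', hb'⟩ := (mem_filter.1 (e.symm ▸ mem_univ b₀ : b₀ ∈ A)).2
      exact hb₀ b' hb'
    obtain ⟨x', hx'⟩ := (mem_filter.1 hx).2
    obtain ⟨y', hy'⟩ := h2' x' (ψ y) (hx' ▸ h1 (mem_image.2 ⟨_, hxy, Sym2.map_mk _ _ _⟩))
    exact hy (mem_filter.2 ⟨mem_univ _, y', hy'.symm⟩)
  have hsame : ∀ ψ ∈ Ψ, ∀ ψ' ∈ Ψ, ∀ e, e ∈ imgE Pe ψ → e ∈ imgE Pe ψ' →
      imgE Pe ψ ⊆ imgE Pe ψ' := by
    intro ψ hψ ψ' hψ' e he he'
    obtain ⟨h1, -⟩ := (mem_filter.1 hψ).2
    intro f hf
    obtain ⟨g, hg, hge⟩ := mem_image.1 he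
    obtain ⟨g', hg', hge'⟩ := mem_image.1 he'
    obtain ⟨f₀, hf₀, rfl⟩ := mem_image.1 hf
    induction g using Sym2.ind with
    | _ a b =>
      induction g' using Sym2.ind with
      | _ a' b' =>
        rw [← hge, Sym2.map_mk, Sym2.map_mk] at hge'
        have hall : ∀ c, ∃ c', ψ c = ψ' c' := by
          rcases Sym2.eq_iff.1 hge' with ⟨h, -⟩ | ⟨h, -⟩
          · exact hmeet ψ hψ ψ' hψ' a a' h.symm
          · exact hmeet ψ hψ ψ' hψ' b a' h.symm
        induction f₀ using Sym2.ind with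
        | _ x y =>
          obtain ⟨x', hx'⟩ := hall x
          obtain ⟨y', hy'⟩ := hall y
          have hin : s(ψ' x', ψ' y') ∈ H0 := by
            rw [← hx', ← hy']
            exact h1 (mem_image.2 ⟨_, hf₀, Sym2.map_mk _ _ _⟩)
          exact mem_image.2 ⟨_, hexact ψ' hψ' x' y' hin, by
            rw [Sym2.map_mk, Sym2.map_mk, hx', hy']⟩
  set 𝒦 := Ψ.image (imgE Pe) with h𝒦
  set X := (univ : Finset (Fin v ↪ Fin n)).image (imgE Pe) with hX
  set a := ((univ : Finset (Fin v ↪ Fin n)).filter fun χ => imgE Pe χ = imgE Pe ψ₀).card with ha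
  have hperm : ∀ χ : Fin v ↪ Fin n, ∃ σ : Equiv.Perm (Fin n), ψ₀.trans σ.toEmbedding = χ := by
    intro χ
    have h := fiber_card ψ₀ χ
    by_contra hno
    push Not at hno
    rw [Finset.filter_eq_empty_iff.2 fun σ _ => hno σ, card_empty, mul_zero] at h
    exact Fintype.card_pos.ne h
  have hfibre : ∀ K ∈ X,
      ((univ : Finset (Fin v ↪ Fin n)).filter fun χ => imgE Pe χ = K).card = a := by
    intro K hK
    obtain ⟨χ, -, rfl⟩ := mem_image.1 hK
    obtain ⟨σ, rfl⟩ := hperm χ
    refine (Finset.card_bij' (fun ξ _ => ξ.trans σ.toEmbedding)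
      (fun ξ _ => ξ.trans σ.symm.toEmbedding) ?_ ?_ ?_ ?_).symm
    · intro ξ hξ
      refine mem_filter.2 ⟨mem_univ _, ?_⟩
      have h := congrArg (Finset.image (Sym2.map σ)) (mem_filter.1 hξ).2
      simp only [imgE, Finset.image_image] at h ⊢
      refine Eq.trans (Eq.trans ?_ h) ?_ <;> refine Finset.image_congr fun e _ => ?_ <;>
        simp [Sym2.map_map]
    · intro ξ hξ
      refine mem_filter.2 ⟨mem_univ _, ?_⟩
      have h := congrArg (Finset.image (Sym2.map σ.symm)) (mem_filter.1 hξ).2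
      simp only [imgE, Finset.image_image] at h ⊢
      refine Eq.trans (Eq.trans ?_ h) ?_ <;> refine Finset.image_congr fun e _ => ?_ <;>
        simp [Sym2.map_map, Function.comp_def]
    · intro ξ _; ext i; simp
    · intro ξ _; ext i; simp
  have hXa : (X.card : ℝ) * a ≤ (n : ℝ) ^ v := by
    have h1 : X.card * a = (univ : Finset (Fin v ↪ Fin n)).card := by
      rw [card_eq_sum_card_image (imgE Pe), ← hX, Finset.sum_congr rfl hfibre, sum_const,
        smul_eq_mul]
    have h2 : X.card * a ≤ n ^ v := by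
      rw [h1, card_univ, Fintype.card_embedding_eq, Fintype.card_fin, Fintype.card_fin]
      exact Nat.descFactorial_le_pow n v
    exact_mod_cast h2
  have hΨa : Ψ.card ≤ 𝒦.card * a := by
    rw [card_eq_sum_card_image (imgE Pe) Ψ, ← h𝒦, ← smul_eq_mul, ← sum_const]
    refine Finset.sum_le_sum fun K hK => ?_
    obtain ⟨ψ, -, rfl⟩ := mem_image.1 hK
    rw [← hfibre _ (mem_image_of_mem _ (mem_univ ψ))]
    exact card_le_card (filter_subset_filter _ (subset_univ _))
  set J := 𝒦.biUnion id with hJ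
  have hJH : J ⊆ H0 := biUnion_subset.2 fun K hK => by
    obtain ⟨ψ, hψ, rfl⟩ := mem_image.1 hK
    exact (mem_filter.1 hψ).2.1
  have hJc : J.card = 𝒦.card * Pe.card := by
    rw [hJ, card_biUnion, Finset.sum_congr rfl (g := fun _ => Pe.card), sum_const, smul_eq_mul]
    · intro K hK
      obtain ⟨ψ, -, rfl⟩ := mem_image.1 hK
      exact card_imgE Pe ψ
    · intro K hK K' hK' hne
      obtain ⟨ψ, hψ, rfl⟩ := mem_image.1 hK
      obtain ⟨ψ', hψ', rfl⟩ := mem_image.1 hK'
      rw [Function.onFun, Finset.disjoint_left]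
      intro e he he'
      exact hne ((hsame ψ hψ ψ' hψ' e he he').antisymm (hsame ψ' hψ' ψ hψ e he' he))
  have horb : (orb (pairAct n) J).card ≤ X.card.choose 𝒦.card := by
    rw [← card_powersetCard]
    refine le_trans (card_le_card (t := (X.powersetCard 𝒦.card).image fun T => T.biUnion id) ?_)
      card_image_le
    intro T hT
    obtain ⟨σ, rfl⟩ := (mem_orb _).1 hT
    refine mem_image.2 ⟨𝒦.image (Finset.image (Sym2.map σ)), mem_powersetCard.2 ⟨?_, ?_⟩, ?_⟩
    · refine image_subset_iff.2 fun K hK => ?_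
      obtain ⟨ψ, -, rfl⟩ := mem_image.1 hK
      refine mem_image.2 ⟨ψ.trans σ.toEmbedding, mem_univ _, ?_⟩
      simp only [imgE, Finset.image_image]
      exact Finset.image_congr fun e _ => by simp [Sym2.map_map]
    · exact card_image_of_injective _ (image_injective (Sym2.map.injective σ.injective))
    · rw [tr_pairAct, hJ, image_biUnion, Finset.biUnion_image]
      rfl
  have hN : (𝒦.card : ℝ) ≤ 6 * X.card * q ^ Pe.card := by
    refine few_of_choose (by positivity) ((hR J hJH).trans ?_)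
    rw [hJc, mul_comm 𝒦.card, pow_mul]
    exact mul_le_mul_of_nonneg_right (Nat.cast_le.2 horb) (by positivity)
  calc (Ψ.card : ℝ) ≤ (𝒦.card : ℝ) * a := by exact_mod_cast hΨa
    _ ≤ 6 * X.card * q ^ Pe.card * a := mul_le_mul_of_nonneg_right hN (Nat.cast_nonneg _)
    _ = 6 * ((X.card : ℝ) * a) * q ^ Pe.card := by ring
    _ ≤ _ := by gcongr

/-- Breadth-first extension to the whole components of some vertices. -/
theorem exists_bfs {H0 : Finset (Sym2 (Fin n))} {w₀ : ℕ} :
    ∀ (fuel i j : ℕ) (f : ℕ → Fin n) (p : ℕ → ℕ), 2 * n + 1 ≤ fuel + i + j → i ≤ w₀ + j →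
      Set.InjOn f (Set.Iio (w₀ + j)) →
      (∀ t < j, p t ≤ i ∧ p t < w₀ + t ∧ s(f (p t), f (w₀ + t)) ∈ H0) →
      (∀ t t', t ≤ t' → t' < j → p t ≤ p t') →
      (∀ a < i, ∀ z, s(f a, z) ∈ H0 → ∃ b < w₀ + j, f b = z) →
      ∃ (j' : ℕ) (f' : ℕ → Fin n) (p' : ℕ → ℕ), (∀ a < w₀, f' a = f a) ∧
        Set.InjOn f' (Set.Iio (w₀ + j')) ∧
        (∀ t < j', p' t < w₀ + t ∧ s(f' (p' t), f' (w₀ + t)) ∈ H0) ∧
        (∀ t t', t ≤ t' → t' < j' → p' t ≤ p' t') ∧
        ∀ a < w₀ + j', ∀ z, s(f' a, z) ∈ H0 → ∃ b < w₀ + j', f' b = z := by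
  classical
  intro fuel
  induction fuel with
  | zero =>
    intro i j f p hfuel hij hinj hp hmono hcl
    exfalso
    have : w₀ + j ≤ n := by
      have h := card_le_card_of_injOn (s := range (w₀ + j)) (t := (univ : Finset (Fin n))) f
        (fun x _ => mem_coe.2 (mem_univ _)) (by simpa using hinj)
      simpa using h
    omega
  | succ fuel ih =>
    intro i j f p hfuel hij hinj hp hmono hcl
    rcases Nat.lt_or_ge i (w₀ + j) with hi | hi
    swap
    · refine ⟨j, f, p, fun _ _ => rfl, hinj, fun t ht => (hp t ht).2, hmono, fun a ha => hcl a ?_⟩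
      omega
    by_cases hall : ∀ z, s(f i, z) ∈ H0 → ∃ b < w₀ + j, f b = z
    · exact ih (i + 1) j f p (by omega) hi hinj
        (fun t ht => ⟨(hp t ht).1.trans (Nat.le_succ i), (hp t ht).2⟩) hmono fun a ha => by
          rcases Nat.lt_succ_iff_lt_or_eq.1 ha with h | h
          · exact hcl a h
          · exact h ▸ hall
    push Not at hall
    obtain ⟨z, hz, hznew⟩ := hall
    set f₁ := Function.update f (w₀ + j) z with hf₁
    set p₁ := Function.update p j i with hp₁
    have hold : ∀ a < w₀ + j, f₁ a = f a := fun a ha => Function.update_of_ne (by omega) _ _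
    obtain ⟨j', f', p', h1, h2, h3, h4, h5⟩ := ih i (j + 1) f₁ p₁ (by omega) (by omega)
      (by
        intro a ha b hb e
        simp only [Set.mem_Iio] at ha hb
        rcases Nat.lt_or_ge a (w₀ + j) with ha' | ha' <;>
          rcases Nat.lt_or_ge b (w₀ + j) with hb' | hb'
        · rw [hold a ha', hold b hb'] at e; exact hinj ha' hb' e
        · rw [show b = w₀ + j by omega, hold a ha', hf₁, Function.update_self] at e
          exact absurd e (hznew a ha')
        · rw [show a = w₀ + j by omega, hold b hb', hf₁, Function.update_self] at e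
          exact absurd e.symm (hznew b hb')
        · omega)
      (fun t ht => by
        rcases Nat.lt_succ_iff_lt_or_eq.1 ht with h | h
        · obtain ⟨a, b, c⟩ := hp t h
          rw [hp₁, Function.update_of_ne (by omega), hold _ (by omega), hold _ (by omega)]
          exact ⟨a, b, c⟩
        · rw [h, hp₁, Function.update_self, hold _ hi, hf₁, Function.update_self]
          exact ⟨le_rfl, hi, hz⟩)
      (fun t t' htt ht' => by
        rcases Nat.lt_succ_iff_lt_or_eq.1 ht' with h | h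
        · rw [hp₁, Function.update_of_ne (by omega), Function.update_of_ne (by omega)]
          exact hmono t t' htt h
        · rw [h, hp₁, Function.update_self]
          rcases Nat.lt_or_ge t j with h' | h'
          · rw [Function.update_of_ne (by omega)]; exact (hp t h').1
          · rw [show t = j by omega, Function.update_self])
      (fun a ha z' hz' => by
        rw [hold a (by omega)] at hz'
        obtain ⟨b, hb, hbe⟩ := hcl a ha z' hz'
        exact ⟨b, by omega, by rw [hold b hb, hbe]⟩)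
    exact ⟨j', f', p', fun a ha => (h1 a ha).trans (hold a (by omega)), h2, h3, h4, h5⟩

theorem card_monotone_le (j m : ℕ) :
    ((univ : Finset (Fin j → Fin m)).filter fun P => ∀ t t', t ≤ t' → P t ≤ P t').card ≤
      2 ^ (m + j) := by
  classical
  refine le_trans (card_le_card_of_injOn (t := (univ : Finset (Finset (Fin (m + j)))))
    (fun P => univ.image fun t : Fin j => (⟨(P t : ℕ) + (t : ℕ), by omega⟩ : Fin (m + j)))
    (fun _ _ => mem_coe.2 (mem_univ _)) ?_) (by simp)
  intro P hP Q hQ e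
  have hs : ∀ P : Fin j → Fin m, (∀ t t', t ≤ t' → P t ≤ P t') →
      StrictMono fun t : Fin j => (⟨(P t : ℕ) + (t : ℕ), by omega⟩ : Fin (m + j)) := by
    intro P hP t t' h
    have : (P t : ℕ) ≤ P t' := hP t t' h.le
    show (P t : ℕ) + t < P t' + t'
    omega
  have h' := congrArg (fun S : Finset (Fin (m + j)) => (S : Set (Fin (m + j)))) e
  simp only [coe_image, coe_univ, Set.image_univ] at h'
  have := ((hs P (mem_filter.1 (mem_coe.1 hP)).2).range_inj
    (hs Q (mem_filter.1 (mem_coe.1 hQ)).2)).1 h'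
  funext t
  have := congrArg Fin.val (congrFun this t)
  simp only at this
  exact Fin.ext (by omega)

/-- The bound for a connected pattern in the sparse range. -/
theorem sparse_component {w : ℕ} (z₀ : Fin n) {q : ℝ} {H0 : Finset (Sym2 (Fin n))} (hq : 0 < q)
    (hR : Rich q H0) (hsmall : 64 * ((n : ℝ) * q) ≤ 1) (hloop : ∀ e ∈ H0, ¬ e.IsDiag)
    (F : Finset (Sym2 (Fin w))) (hF : ∀ e ∈ F, ¬ e.IsDiag) {C : Finset (Fin w)}
    (hconn : ∀ A ⊆ C, A.Nonempty → A ≠ C → ∃ a ∈ A, ∃ b ∈ C \ A, s(a, b) ∈ F)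
    (hne : C.Nonempty) :
    ((embsO z₀ H0 F C).card : ℝ) ≤ (n : ℝ) ^ C.card * (48 * q) ^ (edgesIn F C).card := by
  classical
  have hn1 : (1 : ℝ) ≤ n := by exact_mod_cast z₀.pos
  have hq1 : q ≤ 1 := by nlinarith
  obtain ⟨i, hi⟩ := hne
  set w' := C.card with hw'
  have hw0 : 0 < w' := card_pos.2 ⟨i, hi⟩
  set e := (edgesIn F C).card with he
  have hedge : w' - 1 ≤ e := (grow (z₀ := z₀) (H0 := H0) (D := n)
    (fun x => (card_le_univ _).trans (by simp)) F hconn hi z₀).1
  rcases Nat.eq_zero_or_pos e with he0 | he0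
  · rw [he0, pow_zero, mul_one]
    exact_mod_cast (card_le_card (filter_subset _ _)).trans (card_emO_le z₀ C)
  have hw2 : 2 ≤ w' := by
    obtain ⟨g, hg⟩ := card_pos.1 he0
    obtain ⟨hgF, hgC⟩ := mem_filter.1 hg
    induction g using Sym2.ind with
    | _ a b =>
      obtain ⟨haC, hbC⟩ := mk_mem_sym2_iff.1 hgC
      exact one_lt_card.2 ⟨a, haC, b, hbC, by simpa using hF _ hgF⟩
  set en : Fin w' ↪ Fin w := (C.orderEmbOfFin hw'.symm).toEmbedding with hen
  have henC : ∀ a, en a ∈ C := fun a => C.orderEmbOfFin_mem hw'.symm a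
  have hsurj : ∀ c ∈ C, ∃ a, en a = c := by
    intro c hc
    have : c ∈ Set.range (C.orderEmbOfFin hw'.symm) := by rw [range_orderEmbOfFin]; exact hc
    exact this
  set Fr : Finset (Sym2 (Fin w')) := univ.filter fun g => Sym2.map en g ∈ edgesIn F C with hFr
  have hFrc : Fr.card = e := by
    rw [he, show edgesIn F C = Fr.image (Sym2.map en) from ?_,
      card_image_of_injective _ (Sym2.map.injective en.injective)]
    ext g
    refine ⟨fun hg => ?_, fun hg => ?_⟩
    · induction g using Sym2.ind with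
      | _ a b =>
        obtain ⟨ha, hb⟩ := mk_mem_sym2_iff.1 (mem_filter.1 hg).2
        obtain ⟨a', rfl⟩ := hsurj a ha
        obtain ⟨b', rfl⟩ := hsurj b hb
        exact mem_image.2 ⟨s(a', b'), mem_filter.2 ⟨mem_univ _, by rwa [Sym2.map_mk]⟩,
          Sym2.map_mk _ _ _⟩
    · obtain ⟨g', hg', rfl⟩ := mem_image.1 hg
      exact (mem_filter.1 hg').2
  -- the extended patterns
  set Ps : ∀ j, Finset (Fin j → Fin (w' + j)) := fun j => univ.filter fun P =>
    (∀ t t', t ≤ t' → P t ≤ P t') ∧ ∀ t : Fin j, (P t : ℕ) < w' + t with hPs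
  set Pe : ∀ j, (Fin j → Fin (w' + j)) → Finset (Sym2 (Fin (w' + j))) := fun j P =>
    Fr.image (Sym2.map (Fin.castAdd j)) ∪ univ.image fun t => s(P t, Fin.natAdd w' t) with hPe
  set Ψ : ∀ j, (Fin j → Fin (w' + j)) → Finset (Fin (w' + j) ↪ Fin n) := fun j P =>
    univ.filter fun ψ => imgE (Pe j P) ψ ⊆ H0 ∧ ∀ a z, s(ψ a, z) ∈ H0 → ∃ b, ψ b = z with hΨ
  have hinv : ∀ c ∈ C, ∀ a, en a = c → (C.orderIsoOfFin hw'.symm).symm ⟨en a, henC a⟩ = a := by
    intro c _ a _
    rw [OrderIso.symm_apply_eq]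
    exact Subtype.ext rfl
  have hcover : (embsO z₀ H0 F C).card ≤
      ∑ j ∈ range (n + 1), ∑ P ∈ Ps j, (Ψ j P).card := by
    refine le_trans (card_le_card (t := (range (n + 1)).biUnion fun j => (Ps j).biUnion fun P =>
      (Ψ j P).image fun ψ c => if h : c ∈ C then
        ψ (Fin.castAdd j ((C.orderIsoOfFin hw'.symm).symm ⟨c, h⟩)) else z₀) ?_)
      (card_biUnion_le.trans (sum_le_sum fun j _ => card_biUnion_le.trans
        (sum_le_sum fun P _ => card_image_le)))
    intro φ hφ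
    obtain ⟨hφe, hφH⟩ := mem_filter.1 hφ
    obtain ⟨hφi, hφo⟩ := (mem_filter.1 hφe).2
    set f : ℕ → Fin n := fun a => if h : a < w' then φ (en ⟨a, h⟩) else z₀ with hf
    have hfinj : Set.InjOn f (Set.Iio (w' + 0)) := by
      intro a ha b hb h
      simp only [Set.mem_Iio, add_zero] at ha hb
      simp only [hf, dif_pos ha, dif_pos hb] at h
      exact congrArg Fin.val (en.injective (hφi (henC _) (henC _) h))
    obtain ⟨j, g, p, hg0, hg1, hg2, hg3, hg4⟩ := exists_bfs (2 * n + 1) 0 0 f (fun _ => 0)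
      (by omega) (by omega) hfinj (fun t ht => absurd ht (Nat.not_lt_zero t))
      (fun t t' _ h => absurd h (Nat.not_lt_zero t')) fun a ha => absurd ha (Nat.not_lt_zero a)
    set ψ : Fin (w' + j) ↪ Fin n := ⟨fun a => g a, fun a b h =>
      Fin.ext (hg1 a.isLt b.isLt h)⟩ with hψ
    set P : Fin j → Fin (w' + j) := fun t =>
      ⟨p t, by have := (hg2 t t.isLt).1; omega⟩ with hP
    have hjn : j ≤ n := by
      have := Fintype.card_le_of_embedding ψ
      simp only [Fintype.card_fin] at this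
      omega
    have hψC : ∀ a, ψ (Fin.castAdd j a) = φ (en a) := fun a => by
      show g a = _
      rw [hg0 a a.isLt, hf]
      simp only [dif_pos a.isLt, Fin.eta]
    refine mem_biUnion.2 ⟨j, mem_range.2 (Nat.lt_succ_of_le hjn), mem_biUnion.2 ⟨P,
      mem_filter.2 ⟨mem_univ _, fun t t' h => hg3 t t' h t'.isLt, fun t => (hg2 t t.isLt).1⟩,
      mem_image.2 ⟨ψ, mem_filter.2 ⟨mem_univ _, ?_, ?_⟩, ?_⟩⟩⟩
    · intro x hx
      obtain ⟨y, hy, rfl⟩ := mem_image.1 hx
      rcases mem_union.1 hy with hy | hy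
      · obtain ⟨y', hy', rfl⟩ := mem_image.1 hy
        rw [Sym2.map_map, show Sym2.map (ψ ∘ Fin.castAdd j) y' = Sym2.map φ (Sym2.map en y') by
          rw [Sym2.map_map]; exact Sym2.map_congr fun z _ => hψC z]
        exact hφH _ (mem_filter.1 hy').2
      · obtain ⟨t, -, rfl⟩ := mem_image.1 hy
        rw [Sym2.map_mk]
        exact (hg2 t t.isLt).2
    · intro a z hz
      obtain ⟨b, hb, hbz⟩ := hg4 a a.isLt z hz
      exact ⟨⟨b, hb⟩, hbz⟩
    · funext c
      by_cases hc : c ∈ C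
      · obtain ⟨a, rfl⟩ := hsurj c hc
        rw [dif_pos hc, hinv _ hc a rfl, hψC]
      · rw [dif_neg hc, hφo c hc]
  have hμ : (n : ℝ) * q ≤ 1 / 64 := by linarith
  have hterm : ∀ j, ∀ P ∈ Ps j, ((Ψ j P).card : ℝ) ≤
      6 * (n : ℝ) ^ w' * q ^ e * ((n : ℝ) * q) ^ j := by
    intro j P hP
    obtain ⟨-, hPlt⟩ := (mem_filter.1 hP).2
    have hcard : (Pe j P).card = e + j := by
      rw [hPe]; dsimp only
      rw [card_union_of_disjoint, card_image_of_injective _
        (Sym2.map.injective (Fin.castAdd_injective w' j)), hFrc, card_image_of_injective, card_univ,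
        Fintype.card_fin]
      · intro t t' h
        have h1 := hPlt t
        have h2 := hPlt t'
        rcases Sym2.eq_iff.1 h with ⟨-, h4⟩ | ⟨h3, h4⟩
        · exact Fin.natAdd_injective j w' h4
        · have h3' := congrArg Fin.val h3
          have h4' := congrArg Fin.val h4
          simp only [Fin.coe_natAdd] at h3' h4'
          omega
      · rw [Finset.disjoint_left]
        intro x hx hx'
        obtain ⟨t, -, rfl⟩ := mem_image.1 hx'
        obtain ⟨y, -, hy⟩ := mem_image.1 hx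
        obtain ⟨z, -, hz⟩ := Sym2.mem_map.1
          (hy.symm ▸ Sym2.mem_mk_right (P t) (Fin.natAdd w' t))
        have := congrArg Fin.val hz
        simp only [Fin.coe_castAdd, Fin.coe_natAdd] at this
        omega
    have hconn' : ∀ A : Finset (Fin (w' + j)), A.Nonempty → A ≠ univ →
        ∃ a ∈ A, ∃ b ∉ A, s(a, b) ∈ Pe j P := by
      intro A hA hAu
      by_contra hno
      push Not at hno
      have hstep : ∀ a b, s(a, b) ∈ Pe j P → (a ∈ A ↔ b ∈ A) := fun a b hab =>
        ⟨fun ha => by_contra fun hb => hno a ha b hb hab,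
          fun hb => by_contra fun ha => hno b hb a ha (by rwa [Sym2.eq_swap])⟩
      have hdown : ∀ x : ℕ, ∀ hx : x < w' + j, ∃ a : Fin w',
          (⟨x, hx⟩ ∈ A ↔ Fin.castAdd j a ∈ A) := by
        intro x
        induction x using Nat.strong_induction_on with
        | _ x ihx =>
          intro hx
          rcases Nat.lt_or_ge x w' with h | h
          · exact ⟨⟨x, h⟩, Iff.rfl⟩
          · obtain ⟨t, ht⟩ : ∃ t : Fin j, Fin.natAdd w' t = ⟨x, hx⟩ :=
              ⟨⟨x - w', by omega⟩, Fin.ext (by simp; omega)⟩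
            have hPt := hPlt t
            have hx' : x = w' + t := by
              have := congrArg Fin.val ht
              simp at this
              omega
            obtain ⟨a, ha⟩ := ihx (P t) (by omega) (P t).isLt
            refine ⟨a, Iff.trans ?_ ha⟩
            rw [← ht]
            exact (hstep (P t) _ (mem_union_right _ (mem_image_of_mem _ (mem_univ t)))).symm
      have hold : ∀ a b : Fin w', (Fin.castAdd j a ∈ A ↔ Fin.castAdd j b ∈ A) := by
        intro a b
        by_contra hab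
        set B := C.filter fun c => ∃ a', en a' = c ∧ (Fin.castAdd j a' ∈ A ↔ Fin.castAdd j a ∈ A)
          with hB
        obtain ⟨x, hx, y, hy, hxy⟩ := hconn B (filter_subset _ _)
          ⟨en a, mem_filter.2 ⟨henC a, a, rfl, Iff.rfl⟩⟩ fun heq => by
            obtain ⟨a', h1, h2⟩ := (mem_filter.1 (heq.symm ▸ henC b : en b ∈ B)).2
            rw [en.injective h1] at h2
            exact hab h2.symm
        obtain ⟨hyC, hyB⟩ := mem_sdiff.1 hy
        obtain ⟨x', rfl, hx'⟩ := (mem_filter.1 hx).2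
        obtain ⟨y', rfl⟩ := hsurj y hyC
        refine hyB (mem_filter.2 ⟨hyC, y', rfl, ?_⟩)
        refine Iff.trans (hstep _ _ (mem_union_left _ (mem_image.2 ⟨s(x', y'), mem_filter.2
          ⟨mem_univ _, ?_⟩, Sym2.map_mk _ _ _⟩))).symm hx'
        rw [Sym2.map_mk]
        exact mem_filter.2 ⟨hxy, mk_mem_sym2_iff.2 ⟨henC x', henC y'⟩⟩
      obtain ⟨⟨x, hx⟩, hxA⟩ := hA
      refine hAu (eq_univ_of_forall fun ⟨y, hy⟩ => ?_)
      obtain ⟨a, ha⟩ := hdown x hx
      obtain ⟨b, hb⟩ := hdown y hy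
      exact hb.2 ((hold a b).1 (ha.1 hxA))
    refine (closed_copies hq hR (by linarith) hq1 hloop (by omega) (by omega) hconn').trans
      (le_of_eq ?_)
    rw [hcard, pow_add, pow_add, mul_pow]
    ring
  have hgeo : ∑ j ∈ range (n + 1), (4 * ((n : ℝ) * q)) ^ j ≤ 2 :=
    (sum_le_sum fun j _ => pow_le_pow_left₀ (by positivity)
      (show 4 * ((n : ℝ) * q) ≤ 1 / 2 by linarith) j).trans (sum_geometric_two_le _)
  calc ((embsO z₀ H0 F C).card : ℝ)
      ≤ ∑ j ∈ range (n + 1), ∑ P ∈ Ps j, ((Ψ j P).card : ℝ) := by exact_mod_cast hcover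
    _ ≤ ∑ j ∈ range (n + 1), ((Ps j).card : ℝ) * (6 * (n : ℝ) ^ w' * q ^ e * ((n : ℝ) * q) ^ j) :=
        sum_le_sum fun j _ => (sum_le_sum (hterm j)).trans_eq (by rw [sum_const, nsmul_eq_mul])
    _ ≤ ∑ j ∈ range (n + 1), (6 * 2 ^ w' * (n : ℝ) ^ w' * q ^ e) * (4 * ((n : ℝ) * q)) ^ j := by
        refine sum_le_sum fun j _ => ?_
        have h : ((Ps j).card : ℝ) ≤ 2 ^ w' * 4 ^ j := by
          have h0 : (Ps j).card ≤ 2 ^ (w' + j + j) :=
            (card_le_card (monotone_filter_right _ fun P _ h => h.1)).trans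
              (card_monotone_le j (w' + j))
          refine (Nat.cast_le.2 h0).trans (le_of_eq ?_)
          push_cast
          rw [show w' + j + j = w' + 2 * j by ring, pow_add, pow_mul]
          norm_num
        refine (mul_le_mul_of_nonneg_right h (by positivity)).trans (le_of_eq ?_)
        rw [mul_pow 4]; ring
    _ ≤ (6 * 2 ^ w' * (n : ℝ) ^ w' * q ^ e) * 2 := by
        rw [← mul_sum]; exact mul_le_mul_of_nonneg_left hgeo (by positivity)
    _ ≤ _ := by
        rw [mul_pow]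
        have h : (2 : ℝ) ^ w' * 12 ≤ 48 ^ e := by
          have h1 : (2 : ℝ) ^ w' ≤ 2 * 2 ^ e := by
            rw [← pow_succ']; exact pow_le_pow_right₀ one_le_two (by omega)
          have h2 : (24 : ℝ) ≤ 24 ^ e := le_self_pow₀ (by norm_num) (by omega)
          rw [show (48 : ℝ) = 2 * 24 by norm_num, mul_pow]
          nlinarith [pow_pos (show (0 : ℝ) < 2 by norm_num) e]
        calc 6 * 2 ^ w' * (n : ℝ) ^ w' * q ^ e * 2 = (2 ^ w' * 12) * ((n : ℝ) ^ w' * q ^ e) := by
              ring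
          _ ≤ 48 ^ e * ((n : ℝ) ^ w' * q ^ e) := mul_le_mul_of_nonneg_right h (by positivity)
          _ = _ := by ring

/-- The bound for every pattern in the sparse range. -/
theorem sparse_embs {w : ℕ} (z₀ : Fin n) {q : ℝ} {H0 : Finset (Sym2 (Fin n))} (hq : 0 < q)
    (hR : Rich q H0) (hsmall : 64 * ((n : ℝ) * q) ≤ 1) (hloop : ∀ e ∈ H0, ¬ e.IsDiag)
    (F : Finset (Sym2 (Fin w))) (hF : ∀ e ∈ F, ¬ e.IsDiag) :
    ((embs H0 F).card : ℝ) ≤ (n : ℝ) ^ w * (48 * q) ^ F.card :=
  embs_of_components z₀ (by positivity) F fun _ hconn hne =>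
    sparse_component z₀ hq hR hsmall hloop F hF hconn hne

end Vale.Agent.P064
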