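import Vale.Agent.P064.Greedy

/-!
Twins are small blocks that differ only in their own vertices. A class of more than `thr` twins is a
hub: it becomes one flagged block, and the bound of this file is for maps that hold whole hubs.
-/

namespace Vale.Agent.P064.Blk

open Finset Vale.Agent.P064

variable {n W : ℕ} {H0 : Finset (Sym2 (Fin n))} {q : ℝ} {E : ℕ} {thr : ℕ → ℕ → ℕ}

/-- The later neighbours of a vertex in its block's edges. -/
def outs (st : St n) (y : Fin n) : Finset (Fin n) :=
  univ.filter fun z => s(y, z) ∈ st.ed (st.root y) ∧ st.tm y < st.tm z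

/-- The number of edges that leave the vertices of a block upwards. -/
def eW (st : St n) (r : Fin n) : ℕ := ∑ y ∈ st.verts r, (outs st y).card

/-- Two blocks that differ only in their own vertices. -/
def Twin (st : St n) (r r' : Fin n) : Prop :=
  st.root r' = r' ∧ ∃ f : Fin n → Fin n, f r = r' ∧ Set.BijOn f (st.verts r) (st.verts r') ∧
    ∀ y ∈ st.verts r, outs st (f y) ∩ st.verts r' = (outs st y ∩ st.verts r).image f ∧
      outs st (f y) \ st.verts r' = outs st y \ st.verts r

theorem twin_refl {st : St n} {r : Fin n} (h : st.root r = r) : Twin st r r :=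
  ⟨h, id, rfl, Set.bijOn_id _, fun y _ => ⟨(image_id).symm, rfl⟩⟩

theorem twin_trans {st : St n} {a b c : Fin n} (h : Twin st a b) (h' : Twin st b c) :
    Twin st a c := by
  obtain ⟨-, f, hf, hfb, hfo⟩ := h
  obtain ⟨hc, g, hg, hgb, hgo⟩ := h'
  refine ⟨hc, g ∘ f, by simp [hf, hg], hgb.comp hfb, fun y hy => ?_⟩
  have hfy : f y ∈ st.verts b := hfb.mapsTo hy
  exact ⟨by rw [Function.comp_apply, (hgo _ hfy).1, (hfo y hy).1, image_image],
    by rw [Function.comp_apply, (hgo _ hfy).2, (hfo y hy).2]⟩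

theorem twin_symm {st : St n} {a b : Fin n} (ha : st.root a = a) (h : Twin st a b) :
    Twin st b a := by
  classical
  obtain ⟨hb, f, hf, hfb, hfo⟩ := h
  have : Nonempty (Fin n) := ⟨a⟩
  set g := Function.invFunOn f (st.verts a : Set (Fin n)) with hg
  have hinv : Set.InvOn g f (st.verts a) (st.verts b) := hfb.invOn_invFunOn
  have haa : a ∈ st.verts a := St.mem_verts.2 ha
  refine ⟨ha, g, by rw [← hf]; exact hinv.1 haa, hinv.symm.bijOn
    (Set.SurjOn.mapsTo_invFunOn hfb.surjOn) hfb.mapsTo, fun y hy => ?_⟩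
  have hgy : g y ∈ st.verts a := Set.SurjOn.mapsTo_invFunOn hfb.surjOn hy
  have hfg : f (g y) = y := hinv.2 hy
  obtain ⟨h1, h2⟩ := hfo _ hgy
  rw [hfg] at h1 h2
  refine ⟨?_, h2.symm⟩
  rw [h1, image_image]
  conv_lhs => rw [← image_id (s := outs st (g y) ∩ st.verts a)]
  refine image_congr fun z hz => ?_
  exact (hinv.1 (mem_inter.1 (mem_coe.1 hz)).2).symm

theorem Twin.eW_eq {st : St n} {a b : Fin n} (h : Twin st a b) :
    eW st b = eW st a ∧ (st.verts b).card = (st.verts a).card := by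
  obtain ⟨-, f, -, hfb, hfo⟩ := h
  have himg : st.verts b = (st.verts a).image f := by
    rw [← coe_inj, coe_image]; exact hfb.image_eq.symm
  refine ⟨?_, by rw [himg, card_image_of_injOn hfb.injOn]⟩
  rw [eW, eW]
  conv_lhs => rw [himg, sum_image hfb.injOn]
  refine sum_congr rfl fun y hy => ?_
  rw [← card_sdiff_add_card_inter (outs st (f y)) (st.verts b),
    ← card_sdiff_add_card_inter (outs st y) (st.verts a), (hfo y hy).1, (hfo y hy).2,
    card_image_of_injOn (hfb.injOn.mono (coe_subset.2 inter_subset_right))]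

/-- The twins of a block. -/
noncomputable def cls (st : St n) (r : Fin n) : Finset (Fin n) := by
  classical exact univ.filter fun r' => Twin st r r'

theorem mem_cls {st : St n} {r r' : Fin n} : r' ∈ cls st r ↔ Twin st r r' := by simp [cls]

theorem cls_eq {st : St n} {a b : Fin n} (ha : st.root a = a) (h : Twin st a b) :
    cls st b = cls st a := by
  ext c
  simp only [mem_cls]
  exact ⟨fun h' => twin_trans h h', fun h' => twin_trans (twin_symm ha h) h'⟩

/-- The root of a small block with too many twins. -/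
def Hub (st : St n) (E : ℕ) (thr : ℕ → ℕ → ℕ) (r : Fin n) : Prop :=
  st.root r = r ∧ 1 ≤ eW st r ∧ eW st r < E ∧
    thr (st.verts r).card (eW st r) < (cls st r).card

/-- The last of its twins. -/
def IsTop (st : St n) (r : Fin n) : Prop := ∀ r' ∈ cls st r, st.tm r' ≤ st.tm r

theorem Hub.twin {st : St n} {a b : Fin n} (h : Hub st E thr a) (ht : Twin st a b) :
    Hub st E thr b := by
  obtain ⟨h1, h2, h3, h4⟩ := h
  refine ⟨ht.1, ?_⟩
  rw [ht.eW_eq.1, ht.eW_eq.2, cls_eq h1 ht]
  exact ⟨h2, h3, h4⟩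

theorem exists_top {st : St n} {r : Fin n} (hr : st.root r = r) :
    ∃ t ∈ cls st r, IsTop st t := by
  obtain ⟨t, ht, hmax⟩ := exists_max_image (cls st r) st.tm ⟨r, mem_cls.2 (twin_refl hr)⟩
  exact ⟨t, ht, fun r' h => hmax r' (cls_eq hr (mem_cls.1 ht) ▸ h)⟩

/-- The unit of a vertex. -/
noncomputable def unitH (st : St n) (E : ℕ) (thr : ℕ → ℕ → ℕ) (y : Fin n) : BUnit n := by
  classical
  exact
    if Hub st E thr (st.root y) then
      ⟨y, outs st y,
        if st.root y = y ∧ IsTop st y then (cls st y).biUnion st.verts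
        else (cls st (st.root y)).filter (IsTop st),
        decide (st.root y = y ∧ IsTop st y), false⟩
    else
      ⟨y, outs st y, if st.root y = y then st.verts y else {st.root y},
        decide (st.root y = y ∧ E ≤ eW st y), decide (eW st (st.root y) < E)⟩

theorem unitH_root (st : St n) (E : ℕ) (thr : ℕ → ℕ → ℕ) (y : Fin n) :
    (unitH st E thr y).root = y := by
  unfold unitH; split_ifs <;> rfl

theorem unitH_out (st : St n) (E : ℕ) (thr : ℕ → ℕ → ℕ) (y : Fin n) :
    (unitH st E thr y).out = outs st y := by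
  unfold unitH; split_ifs <;> rfl

/-- The units of a final state. -/
noncomputable def hostUnits (st : St n) (E : ℕ) (thr : ℕ → ℕ → ℕ) : Finset (BUnit n) :=
  univ.image (unitH st E thr)

/-- The edges of a set of units. -/
def bEdges (J : Finset (BUnit n)) : Finset (Sym2 (Fin n)) :=
  J.biUnion fun u => u.out.image fun z => s(u.root, z)

theorem orb_bEdges_le (J : Finset (BUnit n)) :
    (orb (pairAct n) (bEdges J)).card ≤ (orb (bAct n) J).card := by
  classical
  refine le_trans (card_le_card ?_) (card_image_le (f := bEdges))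
  intro T hT
  obtain ⟨σ, rfl⟩ := (mem_orb _).1 hT
  refine mem_image.2 ⟨_, (mem_orb _).2 ⟨σ, rfl⟩, ?_⟩
  rw [tr_pairAct]
  simp only [bEdges, tr, Finset.map_eq_image, Finset.image_biUnion, Finset.biUnion_image]
  refine Finset.biUnion_congr rfl fun u _ => ?_
  simp [bAct_apply, Finset.image_image, Function.comp_def]

theorem mem_hostUnits {st : St n} {u : BUnit n} :
    u ∈ hostUnits st E thr ↔ u = unitH st E thr u.root := by
  simp only [hostUnits, mem_image, mem_univ, true_and]
  exact ⟨fun ⟨y, hy⟩ => by rw [← hy, unitH_root], fun h => ⟨u.root, h.symm⟩⟩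

theorem edge_inj_outs (st : St n) {y y' z z' : Fin n} (hz : z ∈ outs st y)
    (hz' : z' ∈ outs st y') (h : s(y, z) = s(y', z')) : y = y' := by
  rcases Sym2.eq_iff.1 h with ⟨h1, -⟩ | ⟨h1, h2⟩
  · exact h1
  · have t1 := (mem_filter.1 hz).2.2
    have t2 := (mem_filter.1 hz').2.2
    rw [h1, h2] at t1
    omega

theorem card_edges_outs (st : St n) (A : Finset (Fin n)) :
    (A.biUnion fun y => (outs st y).image fun z => s(y, z)).card =
      ∑ y ∈ A, (outs st y).card := by
  rw [card_biUnion]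
  · exact Finset.sum_congr rfl fun y _ =>
      card_image_of_injective _ fun a b h => Sym2.congr_right.1 h
  · intro y _ y' _ hne
    rw [Function.onFun, Finset.disjoint_left]
    intro e he he'
    obtain ⟨a, ha, rfl⟩ := mem_image.1 he
    obtain ⟨b, hb, h⟩ := mem_image.1 he'
    exact hne (edge_inj_outs st hb ha h).symm

theorem host_units (hR : Rich q H0) {st : St n} (hinv : Inv H0 q E st) :
    Host q (hostUnits st E thr) := by
  refine ⟨fun u hu v hv h => ?_, fun J hJ => ?_⟩
  · rw [mem_hostUnits.1 (mem_coe.1 hu), mem_hostUnits.1 (mem_coe.1 hv), h]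
  have hout : ∀ u ∈ J, u.out = outs st u.root := fun u hu => by
    rw [mem_hostUnits.1 (hJ hu), unitH_out, unitH_root]
  have hsub : bEdges J ⊆ H0 := by
    intro e he
    obtain ⟨u, hu, he⟩ := mem_biUnion.1 he
    obtain ⟨z, hz, rfl⟩ := mem_image.1 he
    rw [hout u hu] at hz
    exact hinv.sub _ (mem_filter.1 hz).2.1
  have hinj : Set.InjOn BUnit.root (J : Set (BUnit n)) := fun u hu v hv h => by
    rw [mem_hostUnits.1 (hJ hu), mem_hostUnits.1 (hJ hv), h]
  have hcard : (bEdges J).card = ∑ u ∈ J, u.out.card := by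
    have : bEdges J = (J.image BUnit.root).biUnion
        fun y => (outs st y).image fun z => s(y, z) := by
      rw [image_biUnion, bEdges]
      exact Finset.biUnion_congr rfl fun u hu => by rw [hout u hu]
    rw [this, card_edges_outs, sum_image hinj]
    exact Finset.sum_congr rfl fun u hu => by rw [hout u hu]
  rw [Finset.prod_pow_eq_pow_sum, ← hcard]
  refine (hR _ hsub).trans (mul_le_mul_of_nonneg_right ?_ ?_)
  · exact_mod_cast orb_bEdges_le J
  · by_contra h
    rw [not_le] at h
    have := (hR _ hsub).trans (mul_nonpos_of_nonneg_of_nonpos (Nat.cast_nonneg _) h.le)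
    norm_num at this

section Final

variable {st : St n}

theorem Inv.tm_lt (hinv : Inv H0 q E st) (hU : st.U = ∅) (x : Fin n) : st.tm x < n := by
  have := (hinv.old x (by simp [hU])).2.1
  rw [hU] at this
  simpa using this

theorem Inv.tm_injective (hinv : Inv H0 q E st) (hU : st.U = ∅) : Function.Injective st.tm :=
  fun x y h => hinv.tminj x (by simp [hU]) y (by simp [hU]) h

theorem ed_eq (hinv : Inv H0 q E st) (hU : st.U = ∅) (hloop : ∀ e ∈ H0, ¬ e.IsDiag) (x : Fin n) :
    st.ed x = (st.verts x).biUnion fun y => (outs st y).image fun z => s(y, z) := by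
  ext e
  constructor
  · intro he
    induction e using Sym2.ind with
    | _ a b =>
      rcases lt_trichotomy (st.tm a) (st.tm b) with h | h | h
      · obtain ⟨h1, -⟩ := hinv.owner he h
        exact mem_biUnion.2 ⟨a, St.mem_verts.2 h1,
          mem_image.2 ⟨b, mem_filter.2 ⟨mem_univ _, by rwa [h1], h⟩, rfl⟩⟩
      · exact absurd (hinv.tm_injective hU h) fun e' => hloop _ (hinv.sub x he) (by simp [e'])
      · rw [Sym2.eq_swap] at he ⊢
        obtain ⟨h1, -⟩ := hinv.owner he h
        exact mem_biUnion.2 ⟨b, St.mem_verts.2 h1,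
          mem_image.2 ⟨a, mem_filter.2 ⟨mem_univ _, by rwa [h1], h⟩, rfl⟩⟩
  · intro he
    obtain ⟨y, hy, he⟩ := mem_biUnion.1 he
    obtain ⟨z, hz, rfl⟩ := mem_image.1 he
    rw [St.mem_verts] at hy
    exact hy ▸ (mem_filter.1 hz).2.1

theorem ed_card (hinv : Inv H0 q E st) (hU : st.U = ∅) (hloop : ∀ e ∈ H0, ¬ e.IsDiag) (x : Fin n) :
    (st.ed x).card = eW st x := by
  rw [ed_eq hinv hU hloop, card_edges_outs]; rfl

theorem outs_later (hinv : Inv H0 q E st) {y z : Fin n} (h : z ∈ outs st y) :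
    st.root z = st.root y ∨ st.tm (st.root y) < st.tm z :=
  (hinv.owner (mem_filter.1 h).2.1 (mem_filter.1 h).2.2).2

end Final

/-- The data of a map that matter: out-roles, roots of blocks, big blocks, hubs, their last twins,
and the hubs whose twins are all in the image. -/
structure Shape (W : ℕ) where
  b : Fin W → Finset (Fin W)
  blk : Fin W → Fin W
  big : Finset (Fin W)
  hub : Finset (Fin W)
  top : Finset (Fin W)
  dn : Finset (Fin W)

/-- The roles of a block. -/
def Shape.mem (X : Shape W) (i : Fin W) : Finset (Fin W) := univ.filter fun j => X.blk j = i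

theorem Shape.mem_mem {X : Shape W} {i j : Fin W} : j ∈ X.mem i ↔ X.blk j = i := by
  simp [Shape.mem]

/-- The maps with given data. -/
structure Fits (st : St n) (E : ℕ) (thr : ℕ → ℕ → ℕ) (X : Shape W) (ψ : Fin W ↪ Fin n) :
    Prop where
  out : ∀ i, outs st (ψ i) = (X.b i).image ψ
  root : ∀ i, ψ (X.blk i) = st.root (ψ i)
  verts : ∀ i, X.blk i = i → st.verts (ψ i) = (X.mem i).image ψ
  big : ∀ i, i ∈ X.big ↔ X.blk i = i ∧ E ≤ eW st (ψ i)
  hub : ∀ i, i ∈ X.hub ↔ Hub st E thr (ψ i)
  top : ∀ i, i ∈ X.top ↔ Hub st E thr (ψ i) ∧ IsTop st (ψ i)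
  dn : ∀ i ∈ X.dn, i ∈ X.hub ∧ ∀ y ∈ cls st (ψ i), ∃ j ∈ X.dn, ψ j = y

/-- The maps of one shape. -/
noncomputable def fitMaps (st : St n) (E : ℕ) (thr : ℕ → ℕ → ℕ) (X : Shape W) :
    Finset (Fin W ↪ Fin n) := by
  classical exact univ.filter (Fits st E thr X)

theorem mem_fitMaps {st : St n} {X : Shape W} {ψ : Fin W ↪ Fin n} :
    ψ ∈ fitMaps st E thr X ↔ Fits st E thr X ψ := by simp [fitMaps]

variable {st : St n} {X : Shape W} {ψ ψ' : Fin W ↪ Fin n}

theorem Fits.root_iff (h : Fits st E thr X ψ) (i : Fin W) :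
    st.root (ψ i) = ψ i ↔ X.blk i = i := by
  rw [← h.root i]; exact ψ.injective.eq_iff

theorem Fits.eW_eq (h : Fits st E thr X ψ) {i : Fin W} (hi : X.blk i = i) :
    eW st (ψ i) = ∑ a ∈ X.mem i, (X.b a).card := by
  rw [eW, h.verts i hi, sum_image ψ.injective.injOn]
  exact sum_congr rfl fun a _ => by rw [h.out, card_image_of_injective _ ψ.injective]

theorem Fits.verts_card (h : Fits st E thr X ψ) {i : Fin W} (hi : X.blk i = i) :
    (st.verts (ψ i)).card = (X.mem i).card := by
  rw [h.verts i hi, card_image_of_injective _ ψ.injective]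

/-- Twin blocks of one map are twins in every map of the same shape. -/
theorem Fits.twin_transfer (h : Fits st E thr X ψ) (h' : Fits st E thr X ψ') {i j : Fin W}
    (hi : X.blk i = i) (hj : X.blk j = j) (ht : Twin st (ψ i) (ψ j)) :
    Twin st (ψ' i) (ψ' j) := by
  classical
  obtain ⟨-, f, hf, hfb, hfo⟩ := ht
  have : Nonempty (Fin W) := ⟨i⟩
  set σ : Fin W → Fin W := fun a => Function.invFun ψ (f (ψ a)) with hσ
  have hinvl : ∀ a, Function.invFun ψ (ψ a) = a := Function.leftInverse_invFun ψ.injective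
  have hσmem : ∀ a ∈ X.mem i, σ a ∈ X.mem j ∧ ψ (σ a) = f (ψ a) := by
    intro a ha
    have : f (ψ a) ∈ st.verts (ψ j) := hfb.mapsTo (mem_coe.2 (h.verts i hi ▸ mem_image_of_mem ψ ha))
    rw [h.verts j hj] at this
    obtain ⟨c, hc, hce⟩ := mem_image.1 this
    rw [hσ]; dsimp only
    rw [← hce, hinvl]
    exact ⟨hc, rfl⟩
  set g : Fin n → Fin n := fun y => ψ' (σ (Function.invFun ψ' y)) with hg
  have hgψ : ∀ a, g (ψ' a) = ψ' (σ a) := fun a => by
    rw [hg]; dsimp only; rw [Function.leftInverse_invFun ψ'.injective a]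
  have hσi : σ i = j := by rw [hσ]; dsimp only; rw [hf, hinvl]
  refine ⟨(h'.root_iff j).2 hj, g, by rw [hgψ, hσi], ?_, ?_⟩
  · refine ⟨fun y hy => ?_, fun y hy z hz e => ?_, fun y hy => ?_⟩
    · rw [mem_coe, h'.verts i hi] at hy
      obtain ⟨a, ha, rfl⟩ := mem_image.1 hy
      rw [mem_coe, h'.verts j hj, hgψ]
      exact mem_image_of_mem ψ' (hσmem a ha).1
    · rw [mem_coe, h'.verts i hi] at hy hz
      obtain ⟨a, ha, rfl⟩ := mem_image.1 hy
      obtain ⟨c, hc, rfl⟩ := mem_image.1 hz
      rw [hgψ, hgψ] at e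
      have e' := congrArg ψ (ψ'.injective e)
      rw [(hσmem a ha).2, (hσmem c hc).2] at e'
      exact congrArg ψ' (ψ.injective (hfb.injOn (mem_coe.2 (h.verts i hi ▸ mem_image_of_mem ψ ha))
        (mem_coe.2 (h.verts i hi ▸ mem_image_of_mem ψ hc)) e'))
    · rw [mem_coe, h'.verts j hj] at hy
      obtain ⟨c, hc, rfl⟩ := mem_image.1 hy
      obtain ⟨x, hx, hxe⟩ := hfb.surjOn (mem_coe.2 (h.verts j hj ▸ mem_image_of_mem ψ hc))
      rw [mem_coe, h.verts i hi] at hx
      obtain ⟨a, ha, rfl⟩ := mem_image.1 hx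
      refine ⟨ψ' a, mem_coe.2 (h'.verts i hi ▸ mem_image_of_mem ψ' ha), ?_⟩
      rw [hgψ]
      exact congrArg ψ' (ψ.injective ((hσmem a ha).2.trans hxe))
  · intro y hy
    rw [h'.verts i hi] at hy
    obtain ⟨a, ha, rfl⟩ := mem_image.1 hy
    have h0 := hfo (ψ a) (h.verts i hi ▸ mem_image_of_mem ψ ha)
    rw [← (hσmem a ha).2, h.out, h.out, h.verts i hi, h.verts j hj,
      ← image_inter _ _ ψ.injective, ← image_inter _ _ ψ.injective,
      ← image_sdiff _ _ ψ.injective, ← image_sdiff _ _ ψ.injective] at h0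
    have h1 : X.b (σ a) ∩ X.mem j = (X.b a ∩ X.mem i).image σ := by
      apply image_injective ψ.injective
      rw [h0.1, image_image, image_image]
      refine image_congr fun c hc => ?_
      exact ((hσmem c (mem_inter.1 (mem_coe.1 hc)).2).2).symm
    have h2 : X.b (σ a) \ X.mem j = X.b a \ X.mem i := image_injective ψ.injective h0.2
    rw [hgψ, h'.out, h'.out, h'.verts i hi, h'.verts j hj, ← image_inter _ _ ψ'.injective,
      ← image_inter _ _ ψ'.injective, ← image_sdiff _ _ ψ'.injective,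
      ← image_sdiff _ _ ψ'.injective, h1, h2, image_image, image_image]
    exact ⟨image_congr fun c _ => (hgψ c).symm, rfl⟩

/-- The twins inside a shape, read off one map. -/
noncomputable def grp (st : St n) (X : Shape W) (ψ : Fin W ↪ Fin n) (i : Fin W) :
    Finset (Fin W) := by
  classical exact univ.filter fun j => X.blk j = j ∧ Twin st (ψ i) (ψ j)

theorem mem_grp {i j : Fin W} :
    j ∈ grp st X ψ i ↔ X.blk j = j ∧ Twin st (ψ i) (ψ j) := by simp [grp]

theorem Fits.grp_eq (h : Fits st E thr X ψ) (h' : Fits st E thr X ψ') {i : Fin W}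
    (hi : X.blk i = i) : grp st X ψ' i = grp st X ψ i := by
  ext j
  simp only [mem_grp]
  exact ⟨fun ⟨a, b⟩ => ⟨a, h'.twin_transfer h hi a b⟩, fun ⟨a, b⟩ => ⟨a, h.twin_transfer h' hi a b⟩⟩

/-- The roles of a shape with its hubs bundled. -/
noncomputable def rolesH (st : St n) (E : ℕ) (X : Shape W) (ψ : Fin W ↪ Fin n) : Roles W where
  b := X.b
  p i :=
    if X.blk i ∈ X.hub then
      if i ∈ X.top then (grp st X ψ i).biUnion X.mem else (grp st X ψ (X.blk i)) ∩ X.top
    else if X.blk i = i then X.mem i else {X.blk i}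
  flag i := decide (if X.blk i ∈ X.hub then i ∈ X.top else i ∈ X.big)
  low i := decide (X.blk i ∉ X.hub ∧ X.blk i ∉ X.big)

theorem Fits.unit_eq (h₀ : Fits st E thr X ψ) (h : Fits st E thr X ψ') (hinv : Inv H0 q E st)
    (hdone : X.hub ⊆ X.dn) (i : Fin W) :
    unitOf (rolesH st E X ψ) ψ' i = unitH st E thr (ψ' i) := by
  classical
  have hroot := h.root i
  have hrb : X.blk (X.blk i) = X.blk i := by
    rw [← h.root_iff, hroot, hinv.idem]
  have hH : Hub st E thr (st.root (ψ' i)) ↔ X.blk i ∈ X.hub := by rw [← hroot, h.hub]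
  by_cases hh : X.blk i ∈ X.hub
  · rw [unitH, if_pos (hH.2 hh)]
    have hflag : i ∈ X.top ↔ st.root (ψ' i) = ψ' i ∧ IsTop st (ψ' i) := by
      rw [h.top]
      exact ⟨fun ⟨a, b⟩ => ⟨a.1, b⟩, fun ⟨a, b⟩ => ⟨a ▸ hH.2 hh, b⟩⟩
    simp only [unitOf, rolesH, BUnit.mk.injEq, true_and, hh, ↓reduceIte, not_true, false_and,
      decide_false, and_true, h.out i]
    refine ⟨?_, by rw [decide_eq_decide]; exact hflag⟩
    by_cases ht : i ∈ X.top
    · rw [if_pos ht, if_pos (hflag.1 ht)]
      have hi : X.blk i = i := (h.root_iff i).1 (hflag.1 ht).1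
      rw [hi] at hh
      ext y
      simp only [mem_image, mem_biUnion, mem_grp, ↓reduceIte]
      constructor
      · rintro ⟨a, ⟨c, ⟨hc, hct⟩, hac⟩, rfl⟩
        exact ⟨ψ' c, mem_cls.2 (h₀.twin_transfer h hi hc hct),
          h.verts c hc ▸ mem_image_of_mem ψ' hac⟩
      · rintro ⟨r, hr, hy⟩
        obtain ⟨c, -, rfl⟩ := (h.dn i (hdone hh)).2 r hr
        have hc : X.blk c = c := (h.root_iff c).1 (mem_cls.1 hr).1
        rw [h.verts c hc] at hy
        obtain ⟨a, ha, rfl⟩ := mem_image.1 hy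
        exact ⟨a, ⟨c, ⟨hc, h.twin_transfer h₀ hi hc (mem_cls.1 hr)⟩, ha⟩, rfl⟩
    · rw [if_neg ht, if_neg (fun e => ht (hflag.2 e)), ← hroot]
      ext y
      simp only [mem_image, mem_inter, mem_filter, mem_grp]
      constructor
      · rintro ⟨c, ⟨⟨hc, hct⟩, hctop⟩, rfl⟩
        exact ⟨mem_cls.2 (h₀.twin_transfer h hrb hc hct), ((h.top c).1 hctop).2⟩
      · rintro ⟨hy, hyt⟩
        obtain ⟨c, -, rfl⟩ := (h.dn _ (hdone hh)).2 y hy
        have hc : X.blk c = c := (h.root_iff c).1 (mem_cls.1 hy).1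
        have hhub : Hub st E thr (ψ' c) :=
          (hroot ▸ hH.2 hh).twin (mem_cls.1 hy)
        exact ⟨c, ⟨⟨hc, h.twin_transfer h₀ hrb hc (mem_cls.1 hy)⟩,
          (h.top c).2 ⟨hhub, hyt⟩⟩, rfl⟩
  · rw [unitH, if_neg (fun e => hh (hH.1 e))]
    simp only [unitOf, rolesH, if_neg hh, BUnit.mk.injEq, true_and, h.out i]
    refine ⟨?_, ?_, ?_⟩
    · by_cases hi : X.blk i = i
      · rw [if_pos hi, if_pos ((h.root_iff i).2 hi), h.verts i hi]
      · rw [if_neg hi, if_neg (fun e => hi ((h.root_iff i).1 e)), image_singleton, hroot]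
    · rw [decide_eq_decide, h.big, h.root_iff]
    · rw [decide_eq_decide, h.big, ← hroot]
      constructor
      · exact fun e => not_le.1 fun e' => e.2 ⟨hrb, e'⟩
      · exact fun e => ⟨hh, fun e' => absurd e'.2 (not_le.2 e)⟩

end Vale.Agent.P064.Blk
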