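import Vale.Agent.P064.Expectation
import Mathlib.Algebra.BigOperators.Group.Finset.Piecewise

/-!
The spread bound for elements with individual invariant weights.
-/

namespace Vale.Agent.P064

open Finset Real

variable {X : Type*} [DecidableEq X] {G : Type*} [Group G] [Fintype G] (ρ : G →* Equiv.Perm X)

/-- The product of the weights of the elements of a finite set. -/
def wprod {Y : Type*} (θ : Y → ℝ) (S : Finset Y) : ℝ := ∏ x ∈ S, θ x

theorem wprod_empty {Y : Type*} (θ : Y → ℝ) : wprod θ ∅ = 1 := Finset.prod_empty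

theorem wprod_pos {Y : Type*} {θ : Y → ℝ} (hθ : ∀ x, 0 < θ x) (S : Finset Y) : 0 < wprod θ S :=
  Finset.prod_pos fun x _ => hθ x

theorem wprod_sdiff_inter {Y : Type*} [DecidableEq Y] {θ : Y → ℝ} (hθ : ∀ x, 0 < θ x)
    (T U : Finset Y) : wprod θ T / wprod θ (T ∩ U) = wprod θ (T \ U) := by
  rw [div_eq_iff (wprod_pos hθ _).ne', wprod, wprod, wprod, mul_comm]
  exact (Finset.prod_inter_mul_prod_sdiff T U θ).symm

theorem wprod_union_sdiff {Y : Type*} [DecidableEq Y] (θ : Y → ℝ) (T U : Finset Y) :
    wprod θ (T ∪ U) = wprod θ (T \ U) * wprod θ U := by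
  rw [wprod, wprod, wprod, ← Finset.prod_union Finset.sdiff_disjoint, Finset.sdiff_union_self_eq_union]

theorem wprod_orb {θ : X → ℝ} (hinv : ∀ g x, θ (ρ g x) = θ x) {F T : Finset X}
    (h : T ∈ orb ρ F) : wprod θ T = wprod θ F := by
  obtain ⟨g, rfl⟩ := (mem_orb ρ).1 h
  simp [wprod, tr, Finset.prod_map, hinv]

/-- One step of a sequence: the weight of the new elements, intersections counted by orbits. -/
theorem step_boundW {θ : X → ℝ} (hθ : ∀ x, 0 < θ x) (hinv : ∀ g x, θ (ρ g x) = θ x) (F U : Finset X) {w P M : ℝ} (hw : 0 < w) (hM : 0 < M)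
    (hsub : ∀ F₀ ⊆ F, F₀.card < F.card →
      ((inside ρ U F₀).card : ℝ) ≤ (w * M) ^ F₀.card * wprod θ F₀ * (orb ρ F₀).card)
    (hP : P = (w * M) ^ F.card * wprod θ F * (orb ρ F).card) :
    ∑ T ∈ orb ρ F, w ^ (T \ U).card * wprod θ (T \ U) ≤
      (inside ρ U F).card + P * ((1 + 1 / M) ^ F.card - 1) := by
  classical
  set e := F.card with he
  rw [← Finset.sum_filter_add_sum_filter_not (orb ρ F) (· ⊆ U)]
  refine add_le_add ?_ ?_
  · rw [inside, ← mul_one (((orb ρ F).filter (· ⊆ U)).card : ℝ), ← nsmul_eq_mul, ← Finset.sum_const]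
    refine Finset.sum_le_sum fun T hT => le_of_eq ?_
    rw [Finset.sdiff_eq_empty_iff_subset.2 (mem_filter.1 hT).2, card_empty, pow_zero, wprod_empty, one_mul]
  · set Is := U.powerset.filter (fun I => I.card < e) with hIs
    calc ∑ T ∈ (orb ρ F).filter (fun T => ¬ T ⊆ U), w ^ (T \ U).card * wprod θ (T \ U)
        ≤ ∑ T ∈ (orb ρ F).filter (fun T => ¬ T ⊆ U), ∑ I ∈ Is,
            if I ⊆ T then w ^ (e - I.card) * (wprod θ F / wprod θ I) else 0 := by
          refine Finset.sum_le_sum fun T hT => ?_
          obtain ⟨hT, hTU⟩ := mem_filter.1 hT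
          have hc : (T \ U).card + (T ∩ U).card = e := by
            rw [Finset.card_sdiff_add_card_inter, card_of_mem_orb ρ hT]
          have hpos : 0 < (T \ U).card := by
            rw [Finset.card_pos, Finset.sdiff_nonempty]; exact hTU
          have hmem : T ∩ U ∈ Is :=
            mem_filter.2 ⟨mem_powerset.2 inter_subset_right, by omega⟩
          refine le_trans ?_ (Finset.single_le_sum
            (f := fun I => if I ⊆ T then w ^ (e - I.card) * (wprod θ F / wprod θ I) else 0) (fun I _ => ?_) hmem)
          · rw [if_pos inter_subset_left, show e - (T ∩ U).card = (T \ U).card by omega]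
            refine le_of_eq ?_
            rw [← wprod_orb ρ hinv hT, eq_comm, wprod_sdiff_inter hθ]
          · split_ifs
            · exact mul_nonneg (pow_nonneg hw.le _) (div_nonneg (wprod_pos hθ _).le (wprod_pos hθ _).le)
            · exact le_rfl
      _ ≤ ∑ T ∈ orb ρ F, ∑ I ∈ Is, if I ⊆ T then w ^ (e - I.card) * (wprod θ F / wprod θ I) else 0 :=
          Finset.sum_le_sum_of_subset_of_nonneg (filter_subset _ _) fun T _ _ =>
            Finset.sum_nonneg fun I _ => by
              split_ifs
              · exact mul_nonneg (pow_nonneg hw.le _) (div_nonneg (wprod_pos hθ _).le (wprod_pos hθ _).le)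
              · exact le_rfl
      _ = ∑ I ∈ Is, ((inside ρ F I).card : ℝ) *
            ((orb ρ F).card * (w ^ (e - I.card) * (wprod θ F / wprod θ I)) / (orb ρ I).card) := by
          rw [Finset.sum_comm]
          refine Finset.sum_congr rfl fun I _ => ?_
          rw [← Finset.sum_filter, Finset.sum_const, nsmul_eq_mul]
          have h := above_mul ρ I F
          have hp : (0 : ℝ) < (orb ρ I).card := by exact_mod_cast orb_pos ρ I
          rw [← mul_div_assoc ((inside ρ F I).card : ℝ), eq_div_iff hp.ne']
          have h' : ((above ρ I F).card : ℝ) * (orb ρ I).card =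
              (inside ρ F I).card * (orb ρ F).card := by exact_mod_cast h
          rw [above] at h'
          linear_combination (w ^ (e - I.card) * (wprod θ F / wprod θ I)) * h'
      _ = ∑ I ∈ Is, ∑ F₀ ∈ F.powerset.filter (fun F₀ => F₀.card < e),
            if F₀ ∈ orb ρ I then ((orb ρ F).card * (w ^ (e - F₀.card) * (wprod θ F / wprod θ F₀)) / (orb ρ F₀).card : ℝ)
              else 0 := by
          refine Finset.sum_congr rfl fun I hI => ?_
          rw [← Finset.sum_filter]
          have : (F.powerset.filter (fun F₀ => F₀.card < e)).filter (· ∈ orb ρ I) =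
              inside ρ F I := by
            ext F₀
            simp only [mem_filter, mem_powerset, inside]
            constructor
            · exact fun h => ⟨h.2, h.1.1⟩
            · intro h
              refine ⟨⟨h.2, ?_⟩, h.1⟩
              rw [card_of_mem_orb ρ h.1]
              exact (mem_filter.1 hI).2
          rw [this, ← nsmul_eq_mul, ← Finset.sum_const]
          refine Finset.sum_congr rfl fun F₀ hF₀ => ?_
          have h1 := (mem_filter.1 hF₀).1
          rw [card_of_mem_orb ρ h1, orb_eq_of_mem ρ h1, wprod_orb ρ hinv h1]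
      _ = ∑ F₀ ∈ F.powerset.filter (fun F₀ => F₀.card < e),
            ((Is.filter (F₀ ∈ orb ρ ·)).card : ℝ) *
              ((orb ρ F).card * (w ^ (e - F₀.card) * (wprod θ F / wprod θ F₀)) / (orb ρ F₀).card) := by
          rw [Finset.sum_comm]
          refine Finset.sum_congr rfl fun F₀ _ => ?_
          rw [← Finset.sum_filter, Finset.sum_const, nsmul_eq_mul]
      _ ≤ ∑ F₀ ∈ F.powerset.filter (fun F₀ => F₀.card < e),
            (w * M) ^ F₀.card * w ^ (e - F₀.card) * (wprod θ F * (orb ρ F).card) := by
          refine Finset.sum_le_sum fun F₀ hF₀ => ?_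
          obtain ⟨hsubF, hlt⟩ := mem_filter.1 hF₀
          have hp : (0 : ℝ) < (orb ρ F₀).card := by exact_mod_cast orb_pos ρ F₀
          have hle : ((Is.filter (F₀ ∈ orb ρ ·)).card : ℝ) ≤
              (w * M) ^ F₀.card * wprod θ F₀ * (orb ρ F₀).card := by
            refine le_trans ?_ (hsub F₀ (mem_powerset.1 hsubF) hlt)
            have : Is.filter (F₀ ∈ orb ρ ·) ⊆ inside ρ U F₀ := fun I hI => by
              obtain ⟨h1, h2⟩ := mem_filter.1 hI
              exact mem_filter.2 ⟨(mem_orb_comm ρ).1 h2, mem_powerset.1 (mem_filter.1 h1).1⟩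
            exact_mod_cast Finset.card_le_card this
          have hp' := wprod_pos hθ F₀
          refine le_trans (mul_le_mul_of_nonneg_right hle ?_) (le_of_eq ?_)
          · have := wprod_pos hθ F
            positivity
          field_simp
      _ = P * ((1 + 1 / M) ^ e - 1) := by
          have h1 : F.powerset.filter (fun F₀ => F₀.card < e) = F.powerset.erase F := by
            ext F₀
            simp only [mem_filter, mem_powerset, mem_erase]
            constructor
            · exact fun h => ⟨fun h' => by rw [h', he] at h; exact lt_irrefl _ h.2, h.1⟩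
            · exact fun h => ⟨h.2, Finset.card_lt_card (h.2.ssubset_of_ne h.1)⟩
          have h2 : ∀ F₀ ∈ F.powerset, (w * M) ^ F₀.card * w ^ (e - F₀.card) *
              (wprod θ F * ((orb ρ F).card : ℝ)) = P * (1 ^ F₀.card * (1 / M) ^ (e - F₀.card)) := by
            intro F₀ hF₀
            have hle := Finset.card_le_card (mem_powerset.1 hF₀)
            obtain ⟨d, hd⟩ := Nat.exists_eq_add_of_le hle
            rw [hP]
            replace hd : e = _ := hd
            rw [hd, Nat.add_sub_cancel_left]
            have hMd : M ^ d * (1 / M) ^ d = 1 := by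
              rw [← mul_pow, mul_one_div, div_self hM.ne', one_pow]
            rw [one_pow, one_mul, pow_add, mul_pow w M d]
            linear_combination (-((w * M) ^ F₀.card * w ^ d * (wprod θ F * ((orb ρ F).card : ℝ)))) * hMd
          rw [h1, Finset.sum_erase_eq_sub (mem_powerset.2 subset_rfl), Finset.sum_congr rfl h2,
            ← Finset.mul_sum, Finset.sum_pow_mul_eq_add_pow, ← he, h2 F (mem_powerset.2 subset_rfl),
            ← he]
          simp only [Nat.sub_self, one_pow, pow_zero, mul_one]
          ring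

set_option maxHeartbeats 1600000 in
/-- The bound on one dyadic scale, and its iteration over all scales. -/
theorem inside_leW {θ : X → ℝ} (hθ : ∀ x, 0 < θ x) (hinv : ∀ g x, θ (ρ g x) = θ x) {H : Finset X}
    (hyp : ∀ J ⊆ H, 1 / 2 ≤ ((orb ρ J).card : ℝ) * wprod θ J) {R : ℕ} (hR : 0 < R) :
    ∀ (r : ℕ) (S F : Finset X), S ⊆ H → S.card ≤ 2 ^ r → ((inside ρ S F).card : ℝ) ≤
      (2 ^ 14 * R * exp (2 * r / R)) ^ F.card * wprod θ F * (orb ρ F).card := by
  classical
  intro r
  induction r with
  | zero =>
    intro S F hSH hS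
    rcases Finset.eq_empty_or_nonempty (inside ρ S F) with h | ⟨T, hT⟩
    · rw [h]; simp only [card_empty, Nat.cast_zero]; have := wprod_pos hθ F; positivity
    obtain ⟨hT1, hT2⟩ := mem_filter.1 hT
    have he1 : F.card ≤ 1 := by
      rw [← card_of_mem_orb ρ hT1]; exact (card_le_card hT2).trans (by simpa using hS)
    have hone : (inside ρ S F).card ≤ 1 := by
      refine Finset.card_le_one.2 fun A hA B hB => ?_
      obtain ⟨hA1, hA2⟩ := mem_filter.1 hA
      obtain ⟨hB1, hB2⟩ := mem_filter.1 hB
      rcases Nat.eq_zero_or_pos F.card with h0 | h0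
      · rw [card_eq_zero.1 (card_of_mem_orb ρ hA1 ▸ h0 : A.card = 0),
          card_eq_zero.1 (card_of_mem_orb ρ hB1 ▸ h0 : B.card = 0)]
      · have hS' : S.card ≤ 1 := by simpa using hS
        rw [eq_of_subset_of_card_le hA2 (by rw [card_of_mem_orb ρ hA1]; omega),
          eq_of_subset_of_card_le hB2 (by rw [card_of_mem_orb ρ hB1]; omega)]
    refine le_trans (by exact_mod_cast hone : ((inside ρ S F).card : ℝ) ≤ 1) ?_
    rcases Nat.eq_zero_or_pos F.card with h0 | h0
    · rw [h0, pow_zero, card_eq_zero.1 h0, wprod_empty, one_mul, one_mul]; exact_mod_cast orb_pos ρ (∅ : Finset X)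
    · have he : F.card = 1 := by omega
      have h := hyp T (hT2.trans hSH)
      rw [orb_eq_of_mem ρ hT1, wprod_orb ρ hinv hT1] at h
      rw [he, pow_one, Nat.cast_zero, mul_zero, zero_div, exp_zero, mul_one]
      have hR1 : (1 : ℝ) ≤ R := by exact_mod_cast hR
      nlinarith
  | succ r ih =>
    suffices h : ∀ (e : ℕ) (S F : Finset X), F.card = e → S ⊆ H → S.card ≤ 2 ^ (r + 1) →
        ((inside ρ S F).card : ℝ) ≤
          (2 ^ 14 * R * exp (2 * ((r + 1 : ℕ) : ℝ) / R)) ^ F.card * wprod θ F * (orb ρ F).card from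
      fun S F => h F.card S F rfl
    intro e
    induction e using Nat.strong_induction_on with
    | _ e ihe =>
    intro S F he hSH hS
    have hR' : (0 : ℝ) < R := by exact_mod_cast hR
    set lam : ℝ := 2 ^ 14 * R * exp (2 * ((r + 1 : ℕ) : ℝ) / R) with hlam
    set lam' : ℝ := 2 ^ 14 * R * exp (2 * (r : ℝ) / R) with hlam'
    have hlr : lam = lam' * exp (2 / R) := by
      rw [hlam, hlam', show 2 * ((r + 1 : ℕ) : ℝ) / R = 2 * (r : ℝ) / R + 2 / R by push_cast; ring,
        exp_add]
      ring
    have hlam'0 : 0 < lam' := by positivity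
    have hlam0 : 0 < lam := by positivity
    have hle' : lam' ≤ lam := by
      rw [hlr]; exact le_mul_of_one_le_right hlam'0.le (one_le_exp (by positivity))
    by_cases hsmall : S.card ≤ 2 ^ r
    · refine le_trans (ih S F hSH hsmall) ?_
      refine mul_le_mul_of_nonneg_right ?_ (by positivity)
      refine mul_le_mul_of_nonneg_right ?_ (wprod_pos hθ F).le
      exact pow_le_pow_left₀ (by positivity) hle' _
    by_contra hcon
    rw [not_le] at hcon
    set c : ℝ := ((inside ρ S F).card : ℝ) with hc
    set P : ℝ := lam ^ F.card * wprod θ F * (orb ρ F).card with hP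
    set m := S.card with hm
    have hm0 : 0 < m := by have := Nat.two_pow_pos r; omega
    have hΘ := wprod_pos hθ F
    have hc0 : 0 < c := lt_of_le_of_lt (by positivity) hcon
    have he0 : 0 < e := by
      by_contra h0
      have hF : F = ∅ := card_eq_zero.1 (by omega)
      rw [hP, hc, hF] at hcon
      simp [inside, orb_empty, Finset.filter_singleton, wprod_empty] at hcon
    have hem : e ≤ m := by
      obtain ⟨T, hT⟩ : (inside ρ S F).Nonempty := card_pos.1 (by rw [hc] at hc0; exact_mod_cast hc0)
      obtain ⟨h1, h2⟩ := mem_filter.1 hT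
      rw [← he, ← card_of_mem_orb ρ h1]
      exact card_le_card h2
    -- the number of sequences
    set k := (m * R + e - 1) / e with hk
    have hk1 : m * R ≤ k * e := by
      have := Nat.lt_div_mul_add he0 (a := m * R + e - 1)
      rw [← hk] at this
      omega
    have hk2 : k * e ≤ 2 * (m * R) := by
      have h1 := Nat.div_mul_le_self (m * R + e - 1) e
      rw [← hk] at h1
      have : m ≤ m * R := Nat.le_mul_of_pos_right m hR
      omega
    set w : ℝ := lam / R with hw
    have hw0 : 0 < w := by positivity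
    have hwM : w * R = lam := div_mul_cancel₀ _ hR'.ne'
    set shapes : Finset (Finset X) := S.powerset.biUnion fun J => orb ρ J with hshapes
    have mem_shapes : ∀ {U : Finset X}, U ∈ shapes ↔ ∃ g, tr ρ g U ⊆ S := by
      intro U
      simp only [hshapes, mem_biUnion, mem_powerset, mem_orb]
      constructor
      · rintro ⟨J, hJ, g, rfl⟩
        exact ⟨g⁻¹, by rwa [tr_inv_tr]⟩
      · rintro ⟨g, hg⟩
        exact ⟨_, hg, g⁻¹, tr_inv_tr ρ g U⟩
    set ψ : Finset X → ℝ := fun U => if U ∈ shapes then w ^ U.card * wprod θ U else 0 with hψ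
    set a : ℝ := c * (1 + 1 / (R : ℝ)) ^ e with ha
    have hψ0 : ∀ U, 0 ≤ ψ U := fun U => by
      rw [hψ]; dsimp only; have := wprod_pos hθ U; split_ifs <;> positivity
    have hstep : ∀ U, ∑ T ∈ orb ρ F, ψ (U ∪ T) ≤ a * ψ U := by
      intro U
      by_cases hU : U ∈ shapes
      · obtain ⟨g, hg⟩ := mem_shapes.1 hU
        have hins : ∀ F₀ : Finset X, (inside ρ U F₀).card ≤ (inside ρ S F₀).card := by
          intro F₀
          rw [← card_inside_tr ρ g U F₀]
          exact card_le_card fun T hT =>
            mem_filter.2 ⟨(mem_filter.1 hT).1, (mem_filter.1 hT).2.trans hg⟩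
        have hsb := step_boundW ρ hθ hinv F U (P := P) hw0 hR' (fun F₀ _ hlt => by
          rw [hwM]
          exact le_trans (by exact_mod_cast hins F₀) (ihe F₀.card (he ▸ hlt) S F₀ rfl hSH hS))
          (by rw [hwM])
        calc ∑ T ∈ orb ρ F, ψ (U ∪ T) ≤ ∑ T ∈ orb ρ F, (w ^ U.card * wprod θ U) * (w ^ (T \ U).card * wprod θ (T \ U)) := by
              refine Finset.sum_le_sum fun T _ => ?_
              rw [hψ]; dsimp only
              split_ifs with h
              · rw [Finset.union_comm U T, ← Finset.card_sdiff_add_card T U, wprod_union_sdiff θ T U, pow_add]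
                exact le_of_eq (by ring)
              · have := wprod_pos hθ U; have := wprod_pos hθ (T \ U); positivity
          _ ≤ (w ^ U.card * wprod θ U) * a := by
              rw [← Finset.mul_sum]
              refine mul_le_mul_of_nonneg_left (hsb.trans ?_) (by have := wprod_pos hθ U; positivity)
              have h1 : ((inside ρ U F).card : ℝ) ≤ c := by rw [hc]; exact_mod_cast hins F
              have h2 : (0 : ℝ) ≤ (1 + 1 / (R : ℝ)) ^ F.card - 1 :=
                sub_nonneg.2 (one_le_pow₀ (le_add_of_nonneg_right (by positivity)))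
              rw [ha, ← he]
              linarith [mul_le_mul_of_nonneg_right hcon.le h2]
          _ = a * ψ U := by rw [hψ]; dsimp only; rw [if_pos hU, mul_comm]
      · have : ∀ T, ψ (U ∪ T) = 0 := by
          intro T
          rw [hψ]; dsimp only
          rw [if_neg]
          intro h
          obtain ⟨g, hg⟩ := mem_shapes.1 h
          rw [tr_union] at hg
          exact hU (mem_shapes.2 ⟨g, subset_union_left.trans hg⟩)
        rw [Finset.sum_eq_zero fun T _ => this T]
        simp [hψ, hU]
    have hiter : ∀ (j : ℕ) (U : Finset X), iter (orb ρ F) j ψ U ≤ a ^ j * ψ U := by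
      intro j
      induction j with
      | zero => intro U; simp [iter]
      | succ j ihj =>
        intro U
        calc iter (orb ρ F) (j + 1) ψ U ≤ ∑ T ∈ orb ρ F, a ^ j * ψ (U ∪ T) :=
              Finset.sum_le_sum fun T _ => ihj _
          _ ≤ a ^ j * (a * ψ U) := by
              rw [← Finset.mul_sum]
              exact mul_le_mul_of_nonneg_left (hstep U) (by positivity)
          _ = a ^ (j + 1) * ψ U := by ring
    set t : Finset X → ℝ := fun J => iter (orb ρ F) k (hits J) ∅ with ht
    have ht0 : ∀ J, 0 ≤ t J := fun J => iter_hits_nonneg _ _ _ _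
    have hsplit : c ^ k ≤ ∑ J ∈ S.powerset, t J := by
      rw [hc, ← iter_one (inside ρ S F) k ∅]
      refine le_trans (iter_mono _ k ∅ (ψ := fun V => ∑ J ∈ S.powerset, 1 * hits J V) ?_)
        (le_of_eq ?_)
      · intro V _ hV
        have hVS : V ⊆ S := by
          refine hV.trans (union_subset ?_ (empty_subset _))
          exact Finset.sup_le fun T hT => (mem_filter.1 hT).2
        rw [Finset.sum_eq_single V]
        · simp [hits]
        · intro J _ hJ; simp [hits, Ne.symm hJ]
        · exact fun h => absurd (mem_powerset.2 hVS) h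
      · rw [iter_linear]
        refine Finset.sum_congr rfl fun J hJ => ?_
        rw [one_mul, ht]
        exact iter_hits_filter _ (mem_powerset.1 hJ) k ∅
    set big := S.powerset.filter (fun J => 2 ^ r < J.card) with hbig
    set sml := S.powerset.filter (fun J => ¬ 2 ^ r < J.card) with hsml
    have hall : ∑ J ∈ shapes, w ^ J.card * wprod θ J * t J ≤ a ^ k := by
      rw [ht, ← iter_linear (orb ρ F) shapes (fun J => w ^ J.card * wprod θ J) hits k ∅]
      refine le_trans (iter_mono _ k ∅ (ψ := ψ) fun V _ _ => le_of_eq ?_) ((hiter k ∅).trans ?_)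
      · simp [hits, hψ, Finset.sum_ite_eq, mul_ite]
      · refine mul_le_of_le_one_right (by positivity) ?_
        rw [hψ]; dsimp only
        split_ifs <;> simp [wprod_empty]
    have hqw : 1 / w ≤ (1 / 2) ^ 14 := by
      rw [hw, one_div_div, div_le_iff₀ hlam0, hlam]
      have h1 : (1 : ℝ) ≤ exp (2 * ((r + 1 : ℕ) : ℝ) / R) := one_le_exp (by positivity)
      have h2 : ((1 : ℝ) / 2) ^ 14 * (2 ^ 14) = 1 := by norm_num
      calc (R : ℝ) = R * 1 := (mul_one _).symm
        _ ≤ R * exp (2 * ((r + 1 : ℕ) : ℝ) / R) := mul_le_mul_of_nonneg_left h1 hR'.le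
        _ = _ := by rw [← one_mul ((R : ℝ) * exp _), ← h2]; ring
    have hak : a ^ k ≤ c ^ k * 8 ^ m := by
      rw [ha, mul_pow, ← pow_mul]
      refine mul_le_mul_of_nonneg_left ?_ (by positivity)
      have h8 : exp 2 ≤ (8 : ℝ) := by
        have h1 := exp_one_lt_d9
        rw [show (2 : ℝ) = 1 + 1 by norm_num, exp_add]
        nlinarith [exp_pos (1 : ℝ)]
      calc (1 + 1 / (R : ℝ)) ^ (e * k) ≤ exp (1 / R) ^ (e * k) :=
            pow_le_pow_left₀ (by positivity) (by linarith [add_one_le_exp (1 / (R : ℝ))]) _
        _ = exp (((e * k : ℕ) : ℝ) * (1 / R)) := (exp_nat_mul _ _).symm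
        _ ≤ exp ((m : ℝ) * 2) := by
            refine exp_le_exp.2 ?_
            rw [mul_one_div, div_le_iff₀ hR']
            have : ((k * e : ℕ) : ℝ) ≤ ((2 * (m * R) : ℕ) : ℝ) := by exact_mod_cast hk2
            push_cast at this ⊢
            linarith
        _ ≤ 8 ^ m := by rw [exp_nat_mul]; exact pow_le_pow_left₀ (exp_pos _).le h8 m
    have hB : ∑ J ∈ big, t J ≤ c ^ k / 2 := by
      calc ∑ J ∈ big, t J
          ≤ ∑ J ∈ big, 2 * ((1 / 2) ^ (7 * m) * ∑ J' ∈ shapes, w ^ J'.card * wprod θ J' * t J') := by
            refine Finset.sum_le_sum fun J hJ => ?_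
            obtain ⟨hJS, hJr⟩ := mem_filter.1 hJ
            have hJS' := mem_powerset.1 hJS
            have hyp' := hyp J (hJS'.trans hSH)
            have htinv : ∀ J' ∈ orb ρ J, t J' = t J := by
              intro J' hJ'
              obtain ⟨g, rfl⟩ := (mem_orb ρ).1 hJ'
              rw [ht]; dsimp only
              have := iter_hits_tr ρ g F J k ∅
              rwa [tr_empty] at this
            have hsumorb : ∑ J' ∈ orb ρ J, w ^ J'.card * wprod θ J' * t J' =
                (orb ρ J).card * (w ^ J.card * wprod θ J * t J) := by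
              rw [Finset.sum_congr rfl fun J' hJ' => by
                  rw [card_of_mem_orb ρ hJ', htinv J' hJ', wprod_orb ρ hinv hJ'],
                Finset.sum_const, nsmul_eq_mul]
            have hsub : ∑ J' ∈ orb ρ J, w ^ J'.card * wprod θ J' * t J' ≤
                ∑ J' ∈ shapes, w ^ J'.card * wprod θ J' * t J' :=
              Finset.sum_le_sum_of_subset_of_nonneg
                (fun J' hJ' => mem_biUnion.2 ⟨J, hJS, hJ'⟩)
                (fun J' _ _ => mul_nonneg (mul_nonneg (by positivity) (wprod_pos hθ J').le) (ht0 _))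
            have hΘJ := wprod_pos hθ J
            have hj : wprod θ J ≤ (1 / 2) ^ (7 * m) * (w ^ J.card * wprod θ J) := by
              have hlt : 7 * m ≤ 14 * J.card := by
                rw [pow_succ] at hS
                omega
              calc wprod θ J = (1 / w) ^ J.card * (w ^ J.card * wprod θ J) := by
                    rw [← mul_assoc, ← mul_pow, one_div_mul_cancel hw0.ne', one_pow, one_mul]
                _ ≤ _ := by
                    refine mul_le_mul_of_nonneg_right ?_ (by positivity)
                    refine (pow_le_pow_left₀ (by positivity) hqw _).trans ?_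
                    rw [← pow_mul]
                    exact pow_le_pow_of_le_one (by norm_num) (by norm_num) hlt
            calc t J = 1 * t J := (one_mul _).symm
              _ ≤ (2 * (((orb ρ J).card : ℝ) * wprod θ J)) * t J :=
                  mul_le_mul_of_nonneg_right (by linarith) (ht0 J)
              _ ≤ (2 * (((orb ρ J).card : ℝ) * ((1 / 2) ^ (7 * m) * (w ^ J.card * wprod θ J)))) * t J := by
                  refine mul_le_mul_of_nonneg_right ?_ (ht0 J)
                  exact mul_le_mul_of_nonneg_left
                    (mul_le_mul_of_nonneg_left hj (by positivity)) zero_le_two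
              _ = 2 * ((1 / 2) ^ (7 * m) * ∑ J' ∈ orb ρ J, w ^ J'.card * wprod θ J' * t J') := by
                  rw [hsumorb]; ring
              _ ≤ _ := by gcongr
        _ ≤ (2 ^ m : ℝ) * (2 * ((1 / 2) ^ (7 * m) * (c ^ k * 8 ^ m))) := by
            rw [Finset.sum_const, nsmul_eq_mul]
            refine mul_le_mul ?_ ?_ ?_ (by positivity)
            · have : big.card ≤ 2 ^ m := (card_filter_le _ _).trans (card_powerset S).le
              exact_mod_cast this
            · gcongr
              exact hall.trans hak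
            · refine mul_nonneg zero_le_two (mul_nonneg (by positivity) ?_)
              exact Finset.sum_nonneg fun J _ => mul_nonneg (mul_nonneg (by positivity) (wprod_pos hθ J).le) (ht0 _)
        _ = 2 * c ^ k * (1 / 8) ^ m := by
            have h3 : (8 : ℝ) ^ m * (1 / 2) ^ (7 * m) * 2 ^ m = (1 / 8) ^ m := by
              rw [pow_mul, ← mul_pow, ← mul_pow]; norm_num
            rw [← h3]; ring
        _ ≤ c ^ k / 2 := by
            have h4 : ((1 : ℝ) / 8) ^ m ≤ 1 / 8 := pow_le_of_le_one (by norm_num) (by norm_num) hm0.ne'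
            nlinarith [pow_pos hc0 k]
    set Q : ℝ := lam' ^ F.card * wprod θ F * (orb ρ F).card with hQ
    have hQ0 : 0 ≤ Q := le_trans (by positivity) (le_of_eq hQ.symm)
    have hSm : ∑ J ∈ sml, t J ≤ 2 ^ m * Q ^ k := by
      calc ∑ J ∈ sml, t J ≤ ∑ J ∈ sml, Q ^ k := by
            refine Finset.sum_le_sum fun J hJ => ?_
            obtain ⟨hJS, hJr⟩ := mem_filter.1 hJ
            exact (iter_hits_le _ J k ∅).trans (pow_le_pow_left₀ (by positivity)
              (ih J F ((mem_powerset.1 hJS).trans hSH) (not_lt.1 hJr)) k)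
        _ ≤ 2 ^ m * Q ^ k := by
            rw [Finset.sum_const, nsmul_eq_mul]
            refine mul_le_mul_of_nonneg_right ?_ (by positivity)
            have : sml.card ≤ 2 ^ m := (card_filter_le _ _).trans (card_powerset S).le
            exact_mod_cast this
    have htot : c ^ k ≤ (2 ^ m * 2) * Q ^ k := by
      have := hsplit
      rw [← Finset.sum_filter_add_sum_filter_not S.powerset (fun J => 2 ^ r < J.card), ← hbig,
        ← hsml] at this
      nlinarith
    have hfin : c ^ k ≤ (exp (2 / R) ^ e * Q) ^ k := by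
      refine htot.trans ?_
      rw [mul_pow (exp (2 / (R : ℝ)) ^ e) Q k]
      refine mul_le_mul_of_nonneg_right ?_ (pow_nonneg hQ0 k)
      rw [← pow_mul, ← exp_nat_mul]
      calc (2 : ℝ) ^ m * 2 ≤ 2 ^ m * 2 ^ m :=
            mul_le_mul_of_nonneg_left (le_self_pow₀ (show (1 : ℝ) ≤ 2 by norm_num) hm0.ne') (by positivity)
        _ ≤ exp 2 ^ m := by
            rw [← mul_pow]
            refine pow_le_pow_left₀ (by norm_num) ?_ m
            rw [show (2 : ℝ) = 1 + 1 by norm_num, exp_add]
            nlinarith [exp_one_gt_d9]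
        _ ≤ exp (((e * k : ℕ) : ℝ) * (2 / R)) := by
            rw [← exp_nat_mul]
            refine exp_le_exp.2 ?_
            rw [← mul_div_assoc, le_div_iff₀ hR']
            have : ((m * R : ℕ) : ℝ) ≤ ((k * e : ℕ) : ℝ) := by exact_mod_cast hk1
            push_cast at this ⊢
            linarith
    have hkpos : k ≠ 0 := by
      intro h0
      rw [h0, zero_mul] at hk1
      have := Nat.mul_pos hm0 hR
      omega
    have hfinal := le_of_pow_le_pow_left₀ hkpos
      (mul_nonneg (pow_nonneg (exp_pos _).le _) (le_trans (by positivity) (le_of_eq hQ.symm))) hfin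
    have hPQ : exp (2 / R) ^ e * Q = P := by
      rw [hQ, hP, ← he, hlr]
      ring
    rw [hPQ] at hfinal
    linarith

/-- Copies are spread with a loss of `O(log |H|)` for each element. -/
theorem inside_le_logW {θ : X → ℝ} (hθ : ∀ x, 0 < θ x) (hinv : ∀ g x, θ (ρ g x) = θ x)
    {H : Finset X} (hyp : ∀ J ⊆ H, 1 / 2 ≤ ((orb ρ J).card : ℝ) * wprod θ J) {R : ℕ} (hR : 0 < R)
    (hH : H.card ≤ 2 ^ R) (F : Finset X) :
    ((inside ρ H F).card : ℝ) ≤ (2 ^ 17 * R : ℝ) ^ F.card * wprod θ F * (orb ρ F).card := by
  refine (inside_leW ρ hθ hinv hyp hR R H F subset_rfl hH).trans ?_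
  refine mul_le_mul_of_nonneg_right (mul_le_mul_of_nonneg_right
    (pow_le_pow_left₀ (by positivity) ?_ _) (wprod_pos hθ F).le) (by positivity)
  rw [mul_div_assoc, div_self (by exact_mod_cast hR.ne' : (R : ℝ) ≠ 0), mul_one,
    show (2 : ℝ) = 1 + 1 by norm_num, exp_add]
  nlinarith [exp_one_lt_d9, exp_pos (1 : ℝ), (Nat.cast_nonneg R : (0 : ℝ) ≤ R),
    mul_le_mul exp_one_lt_d9.le exp_one_lt_d9.le (exp_pos (1 : ℝ)).le (by norm_num)]

end Vale.Agent.P064
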